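import Mathlib

/-!
# P046: random greedy packing in a linear 3-uniform hypergraph

`leaveFuel` is the expected number of uncovered points of the random greedy process. The process is
analysed through a small-step chain: in a step of length `ε` each live triangle fires with
probability `ε`. A state carries, besides the live points, the compensator `Z` of each point.
-/

open Finset

namespace Vale.Agent.P046

variable {V : Type*} [DecidableEq V]

/-- The triangles all whose points are live. -/
def alive (H : Finset (Finset V)) (A : Finset V) : Finset (Finset V) := H.filter (fun T => T ⊆ A)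

/-- The live triangles through a point. -/
def star (H : Finset (Finset V)) (A : Finset V) (f : V) : Finset (Finset V) :=
  (alive H A).filter (fun T => f ∈ T)

/-- The live degree of a point. -/
noncomputable def deg (H : Finset (Finset V)) (A : Finset V) (f : V) : ℝ := ((star H A f).card : ℝ)

/-- The rate at which the degree of `f` decreases while `f` stays live. -/
noncomputable def loss (H : Finset (Finset V)) (A : Finset V) (f : V) : ℝ :=
  ∑ T ∈ star H A f, ∑ g ∈ T.erase f, (deg H A g - 1)

/-- Expected final number of live points of random greedy started from `A`, with `k` rounds of fuel: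
in each round a uniformly random live triangle is deleted with its points. -/
noncomputable def leaveFuel (H : Finset (Finset V)) : ℕ → Finset V → ℝ
  | 0, A => (A.card : ℝ)
  | k + 1, A => if alive H A = ∅ then (A.card : ℝ) else
      (∑ T ∈ alive H A, leaveFuel H k (A \ T)) / ((alive H A).card : ℝ)

/-- A state: live points and compensators. -/
abbrev St (V : Type*) := Finset V × (V → ℝ)

/-- The clock `w = 1/d + 2 ε k`. -/
noncomputable def clock (d : ℕ) (ε : ℝ) (k : ℕ) : ℝ := 1 / (d : ℝ) + 2 * ε * (k : ℝ)

/-- The drift of the compensator at clock value `w`. -/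
noncomputable def vel (H : Finset (Finset V)) (w : ℝ) (A : Finset V) (f : V) : ℝ :=
  2 * deg H A f - w * loss H A f

/-- The deterministic part of one step. -/
noncomputable def post (H : Finset (Finset V)) (ε w : ℝ) (σ : St V) : St V :=
  (σ.1, fun f => σ.2 f + ε * vel H w σ.1 f)

/-- The jump part of the generator. -/
noncomputable def jump (H : Finset (Finset V)) (F : St V → ℝ) (σ : St V) : ℝ :=
  ∑ T ∈ alive H σ.1, (F (σ.1 \ T, σ.2) - F σ)

/-- One step of the chain applied to an observable. -/
noncomputable def step (H : Finset (Finset V)) (ε w : ℝ) (F : St V → ℝ) (σ : St V) : ℝ :=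
  F (post H ε w σ) + ε * jump H F (post H ε w σ)

variable [Fintype V]

/-- Expectation of an observable after `k` steps. -/
noncomputable def expect (H : Finset (Finset V)) (d : ℕ) (ε : ℝ) : ℕ → (St V → ℝ) → ℝ
  | 0, F => F (Finset.univ, fun _ => 0)
  | k + 1, F => expect H d ε k (step H ε (clock d ε k) F)

variable {H : Finset (Finset V)} {d : ℕ} {ε : ℝ}

omit [Fintype V] in
lemma step_add (F G : St V → ℝ) (w : ℝ) :
    step H ε w (fun σ => F σ + G σ) = fun σ => step H ε w F σ + step H ε w G σ := by
  funext σ
  simp only [step, jump, Finset.sum_sub_distrib, Finset.sum_add_distrib]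
  ring

omit [Fintype V] in
lemma step_smul (c : ℝ) (F : St V → ℝ) (w : ℝ) :
    step H ε w (fun σ => c * F σ) = fun σ => c * step H ε w F σ := by
  funext σ
  simp only [step, jump, Finset.sum_sub_distrib, ← Finset.mul_sum]
  ring

lemma expect_add : ∀ (k : ℕ) (F G : St V → ℝ),
    expect H d ε k (fun σ => F σ + G σ) = expect H d ε k F + expect H d ε k G
  | 0, F, G => rfl
  | k + 1, F, G => by simp only [expect, step_add, expect_add k]

lemma expect_smul : ∀ (k : ℕ) (c : ℝ) (F : St V → ℝ),
    expect H d ε k (fun σ => c * F σ) = c * expect H d ε k F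
  | 0, c, F => rfl
  | k + 1, c, F => by simp only [expect, step_smul, expect_smul k]

lemma expect_const : ∀ (k : ℕ) (c : ℝ), expect H d ε k (fun _ => c) = c
  | 0, c => rfl
  | k + 1, c => by
    have : step H ε (clock d ε k) (fun _ : St V => c) = fun _ => c := by
      funext σ; simp [step, jump]
    simp only [expect, this, expect_const k]

lemma expect_sum {ι : Type*} (s : Finset ι) (F : ι → St V → ℝ) (k : ℕ) :
    expect H d ε k (fun σ => ∑ i ∈ s, F i σ) = ∑ i ∈ s, expect H d ε k (F i) := by
  classical
  induction s using Finset.induction_on with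
  | empty => simp [expect_const]
  | insert i s hi ih => simp only [Finset.sum_insert hi, expect_add, ih]

/-- States possible after `k` steps: compensators bounded by `B · k ε`. -/
def Reach (B ε : ℝ) (k : ℕ) (σ : St V) : Prop := ∀ f, |σ.2 f| ≤ B * (ε * (k : ℝ))

/-- A bound for the velocity. -/
noncomputable def velBound (H : Finset (Finset V)) (W : ℝ) : ℝ :=
  2 * (H.card : ℝ) + W * (3 * (H.card : ℝ) * ((H.card : ℝ) + 1))

omit [Fintype V] in
lemma deg_nonneg (A : Finset V) (f : V) : 0 ≤ deg H A f := by unfold deg; positivity

omit [Fintype V] in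
lemma deg_le_card (A : Finset V) (f : V) : deg H A f ≤ (H.card : ℝ) := by
  unfold deg
  exact_mod_cast (Finset.card_le_card
    ((Finset.filter_subset _ _).trans (Finset.filter_subset _ _)))

omit [Fintype V] in
lemma abs_loss_le (h3 : ∀ T ∈ H, T.card = 3) (A : Finset V) (f : V) :
    |loss H A f| ≤ 3 * (H.card : ℝ) * ((H.card : ℝ) + 1) := by
  unfold loss
  refine (Finset.abs_sum_le_sum_abs _ _).trans ?_
  refine (Finset.sum_le_sum (g := fun _ => 3 * ((H.card : ℝ) + 1)) ?_).trans ?_
  · intro T hT
    refine (Finset.abs_sum_le_sum_abs _ _).trans ?_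
    refine (Finset.sum_le_sum (g := fun _ => ((H.card : ℝ) + 1)) ?_).trans ?_
    · intro g _
      have h1 := deg_nonneg (H := H) A g
      have h2 := deg_le_card (H := H) A g
      rw [abs_le]; constructor <;> linarith
    · have hT' : T ∈ H := (Finset.mem_filter.1 (Finset.mem_filter.1 hT).1).1
      have hc : (T.erase f).card ≤ 3 := (Finset.card_erase_le).trans (h3 T hT').le
      rw [Finset.sum_const, nsmul_eq_mul]
      have : ((T.erase f).card : ℝ) ≤ 3 := by exact_mod_cast hc
      gcongr
  · rw [Finset.sum_const, nsmul_eq_mul]
    have := deg_le_card (H := H) A f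
    unfold deg at this
    nlinarith

omit [Fintype V] in
lemma abs_vel_le (h3 : ∀ T ∈ H, T.card = 3) {w W : ℝ} (hw : 0 ≤ w) (hW : w ≤ W)
    (A : Finset V) (f : V) : |vel H w A f| ≤ velBound H W := by
  unfold vel velBound
  refine (abs_sub _ _).trans ?_
  rw [abs_mul, abs_mul, abs_of_nonneg hw, abs_two, abs_of_nonneg (deg_nonneg A f)]
  gcongr
  · exact deg_le_card A f
  · exact hw.trans hW
  · exact abs_loss_le h3 A f

/-- Monotonicity of the expectation on reachable states. -/
lemma expect_mono (h3 : ∀ T ∈ H, T.card = 3) {K : ℕ} {W : ℝ} (hε : 0 ≤ ε)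
    (hεH : ε * (H.card : ℝ) ≤ 1) (hW : clock d ε K ≤ W) :
    ∀ (k : ℕ), k ≤ K → ∀ F G : St V → ℝ,
      (∀ σ, Reach (velBound H W) ε k σ → F σ ≤ G σ) →
        expect H d ε k F ≤ expect H d ε k G
  | 0, _, F, G, h => h _ (fun f => by simp)
  | k + 1, hk, F, G, h => by
    have hk' : k ≤ K := by omega
    refine expect_mono h3 hε hεH hW k hk' _ _ ?_
    intro σ hσ
    have hw0 : 0 ≤ clock d ε k := by unfold clock; positivity
    have hwK : clock d ε k ≤ W := by
      refine le_trans ?_ hW
      unfold clock
      gcongr
    have hp : Reach (velBound H W) ε (k + 1) (post H ε (clock d ε k) σ) := by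
      intro f
      have hv := abs_vel_le h3 hw0 hwK σ.1 f
      have := hσ f
      simp only [post]
      refine (abs_add_le _ _).trans ?_
      rw [abs_mul, abs_of_nonneg hε]
      have hm := mul_le_mul_of_nonneg_left hv hε
      push_cast
      nlinarith
    set τ := post H ε (clock d ε k) σ with hτ
    have e : ∀ F : St V → ℝ, step H ε (clock d ε k) F σ
        = (1 - ε * ((alive H τ.1).card : ℝ)) * F τ
          + ε * ∑ T ∈ alive H τ.1, F (τ.1 \ T, τ.2) := by
      intro F
      simp only [step, jump, ← hτ, Finset.sum_sub_distrib, Finset.sum_const, nsmul_eq_mul]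
      ring
    rw [e F, e G]
    have hc : ((alive H τ.1).card : ℝ) ≤ (H.card : ℝ) := by
      exact_mod_cast Finset.card_le_card (Finset.filter_subset _ _)
    have h1 : 0 ≤ 1 - ε * ((alive H τ.1).card : ℝ) := by
      nlinarith [mul_le_mul_of_nonneg_left hc hε]
    refine add_le_add (mul_le_mul_of_nonneg_left (h _ hp) h1)
      (mul_le_mul_of_nonneg_left (Finset.sum_le_sum ?_) hε)
    intro T _
    exact h _ hp

omit [Fintype V] in
lemma leaveFuel_stable (h3 : ∀ T ∈ H, T.card = 3) :
    ∀ (n : ℕ) (A : Finset V), A.card ≤ n → leaveFuel H n A = leaveFuel H A.card A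
  | 0, A, h => by
    have : A.card = 0 := by omega
    rw [this]
  | n + 1, A, h => by
    rcases Nat.lt_or_ge n A.card with hlt | hge
    · have : A.card = n + 1 := by omega
      rw [this]
    · rw [← leaveFuel_stable h3 n A hge]
      by_cases he : alive H A = ∅
      · cases n with
        | zero => simp [leaveFuel, he]
        | succ m => simp [leaveFuel, he]
      · cases n with
        | zero =>
          exfalso
          obtain ⟨T, hT⟩ := Finset.nonempty_iff_ne_empty.2 he
          have h1 := Finset.card_le_card (Finset.mem_filter.1 hT).2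
          have h2 := h3 T (Finset.mem_filter.1 hT).1
          omega
        | succ m =>
          simp only [leaveFuel, he, if_false]
          congr 1
          refine Finset.sum_congr rfl ?_
          intro T hT
          have h1 := (Finset.mem_filter.1 hT).2
          have h2 := h3 T (Finset.mem_filter.1 hT).1
          have hcard : (A \ T).card + 3 = A.card := by
            rw [Finset.card_sdiff_of_subset h1, h2]
            have := Finset.card_le_card h1
            omega
          have a1 := leaveFuel_stable h3 (m+1) (A \ T) (by omega)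
          have a2 := leaveFuel_stable h3 m (A \ T) (by omega)
          have hfold : leaveFuel H (m+1) (A \ T) = leaveFuel H m (A \ T) := a1.trans a2.symm
          simpa only [leaveFuel] using hfold

/-- Expected number of uncovered points of random greedy started from `A`. -/
noncomputable def leave (H : Finset (Finset V)) (A : Finset V) : ℝ := leaveFuel H A.card A

omit [Fintype V] in
lemma leaveFuel_le_card (H : Finset (Finset V)) :
    ∀ (k : ℕ) (A : Finset V), leaveFuel H k A ≤ (A.card : ℝ)
  | 0, A => le_rfl
  | k + 1, A => by
    simp only [leaveFuel]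
    split_ifs with h
    · exact le_rfl
    · have hpos : (0:ℝ) < ((alive H A).card : ℝ) := by
        exact_mod_cast Finset.card_pos.2 (Finset.nonempty_iff_ne_empty.2 h)
      rw [div_le_iff₀ hpos, mul_comm]
      refine (Finset.sum_le_sum (g := fun _ => (A.card : ℝ)) ?_).trans (by simp)
      intro T _
      refine (leaveFuel_le_card H k (A \ T)).trans ?_
      exact_mod_cast Finset.card_le_card Finset.sdiff_subset

omit [Fintype V] in
lemma jump_leave (h3 : ∀ T ∈ H, T.card = 3) (σ : St V) :
    jump H (fun τ => leave H τ.1) σ = 0 := by
  obtain ⟨A, Z⟩ := σ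
  simp only [jump, Finset.sum_sub_distrib, Finset.sum_const, nsmul_eq_mul]
  by_cases he : alive H A = ∅
  · simp [he]
  · obtain ⟨T0, hT0⟩ := Finset.nonempty_iff_ne_empty.2 he
    have hA : 1 ≤ A.card := by
      have h1 := Finset.card_le_card (Finset.mem_filter.1 hT0).2
      have h2 := h3 T0 (Finset.mem_filter.1 hT0).1
      omega
    have hpos : ((alive H A).card : ℝ) ≠ 0 := by
      exact_mod_cast (Finset.card_pos.2 (Finset.nonempty_iff_ne_empty.2 he)).ne'
    obtain ⟨m, hm⟩ : ∃ m, A.card = m + 1 := ⟨A.card - 1, by omega⟩
    have hs : ∀ T ∈ alive H A, leave H (A \ T) = leaveFuel H m (A \ T) := by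
      intro T hT
      have h1 := (Finset.mem_filter.1 hT).2
      have h2 := h3 T (Finset.mem_filter.1 hT).1
      refine (leaveFuel_stable h3 m _ ?_).symm
      rw [Finset.card_sdiff_of_subset h1]; omega
    rw [Finset.sum_congr rfl hs]
    conv_lhs => arg 2; rw [leave, hm]; simp only [leaveFuel, he, if_false]
    field_simp
    ring

/-- The expected leave is a martingale of the chain. -/
lemma expect_leave (h3 : ∀ T ∈ H, T.card = 3) : ∀ k : ℕ,
    expect H d ε k (fun σ => leave H σ.1) = leave H Finset.univ
  | 0 => rfl
  | k + 1 => by
    have : step H ε (clock d ε k) (fun σ => leave H σ.1) = fun σ => leave H σ.1 := by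
      funext σ
      simp only [step, jump_leave h3, mul_zero, add_zero, post]
    simp only [expect, this, expect_leave h3 k]

end Vale.Agent.P046
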