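import Mathlib
import Vale.Agent.P046.Model

/-!
# P046: counting in linear 3-uniform hypergraphs
-/

open Finset

namespace Vale.Agent.P046

variable {V : Type*} [DecidableEq V]

/-- `H` is a linear 3-uniform hypergraph. -/
structure Linear (H : Finset (Finset V)) : Prop where
  card3 : ∀ T ∈ H, T.card = 3
  inter : ∀ T ∈ H, ∀ T' ∈ H, T ≠ T' → (T ∩ T').card ≤ 1

variable {H : Finset (Finset V)}

lemma Linear.eq_of_two (hH : Linear H) {T T' : Finset V} (hT : T ∈ H) (hT' : T' ∈ H) {x y : V}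
    (hxy : x ≠ y) (hxT : x ∈ T) (hyT : y ∈ T) (hxT' : x ∈ T') (hyT' : y ∈ T') : T = T' := by
  by_contra h
  have h1 := hH.inter T hT T' hT' h
  have h2 : ({x, y} : Finset V) ⊆ T ∩ T' := by
    intro a ha; simp only [Finset.mem_insert, Finset.mem_singleton] at ha
    rcases ha with rfl | rfl <;> simp [*]
  have := Finset.card_le_card h2
  rw [Finset.card_pair hxy] at this
  omega

lemma mem_alive {A T : Finset V} : T ∈ alive H A ↔ T ∈ H ∧ T ⊆ A := by simp [alive]

lemma mem_star {A T : Finset V} {f : V} : T ∈ star H A f ↔ T ∈ H ∧ T ⊆ A ∧ f ∈ T := by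
  simp [star, mem_alive, and_assoc]

lemma star_sub (A : Finset V) (f : V) : star H A f ⊆ alive H A := Finset.filter_subset _ _

lemma sum_star_swap (A : Finset V) (F : V → Finset V → ℝ) :
    ∑ f ∈ A, ∑ T ∈ star H A f, F f T = ∑ T ∈ alive H A, ∑ f ∈ T, F f T := by
  refine Finset.sum_comm' ?_
  intro f T
  simp only [mem_star, mem_alive]
  constructor
  · rintro ⟨-, h1, h2, h3⟩; exact ⟨h3, h1, h2⟩
  · rintro ⟨h1, h2, h3⟩; exact ⟨h3 h1, h2, h3, h1⟩

lemma sum_deg (A : Finset V) (h : V → ℝ) :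
    ∑ f ∈ A, deg H A f * h f = ∑ T ∈ alive H A, ∑ f ∈ T, h f := by
  rw [← sum_star_swap]
  refine Finset.sum_congr rfl ?_
  intro f _
  simp [deg, Finset.sum_const, nsmul_eq_mul]

lemma sum_star_erase (hH : Linear H) (A : Finset V) (h : V → ℝ) :
    ∑ f ∈ A, ∑ T ∈ star H A f, ∑ g ∈ T.erase f, h g = 2 * ∑ g ∈ A, deg H A g * h g := by
  rw [sum_star_swap A (fun f T => ∑ g ∈ T.erase f, h g), sum_deg, Finset.mul_sum]
  refine Finset.sum_congr rfl ?_
  intro T hT
  have h3 := hH.card3 T (mem_alive.1 hT).1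
  have e : ∀ f ∈ T, ∑ g ∈ T.erase f, h g = ∑ g ∈ T, h g - h f := fun f hf => by
    rw [Finset.sum_erase_eq_sub hf]
  rw [Finset.sum_congr rfl e, Finset.sum_sub_distrib, Finset.sum_const, h3]
  simp [nsmul_eq_mul]
  ring

/-- The number of live triangles at `g` killed by firing `T`. -/
noncomputable def hit (H : Finset (Finset V)) (A : Finset V) (g : V) (T : Finset V) : ℕ :=
  ((star H A g).filter (fun S => ¬ Disjoint S T)).card

lemma alive_sdiff (A T : Finset V) :
    alive H (A \ T) = (alive H A).filter (fun S => Disjoint S T) := by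
  ext S
  simp only [mem_alive, Finset.mem_filter, Finset.subset_sdiff]
  tauto

lemma star_sdiff (A T : Finset V) (g : V) :
    star H (A \ T) g = (star H A g).filter (fun S => Disjoint S T) := by
  unfold star
  rw [alive_sdiff, Finset.filter_filter, Finset.filter_filter]
  exact Finset.filter_congr (fun S _ => and_comm)

lemma deg_sdiff (A T : Finset V) (g : V) :
    deg H (A \ T) g = deg H A g - (hit H A g T : ℝ) := by
  have h := Finset.card_filter_add_card_filter_not (fun S => Disjoint S T) (s := star H A g)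
  unfold deg hit
  rw [star_sdiff]
  have h' : (((star H A g).filter (fun S => Disjoint S T)).card : ℝ)
      + (((star H A g).filter (fun S => ¬ Disjoint S T)).card : ℝ) = ((star H A g).card : ℝ) := by
    exact_mod_cast h
  linarith

lemma hit_le_adj (hH : Linear H) (A : Finset V) {g : V} {T : Finset V} (hg : g ∉ T) :
    hit H A g T ≤ (T.filter (fun z => ∃ S ∈ star H A g, z ∈ S)).card := by
  classical
  refine Finset.card_le_card_of_forall_subsingleton (fun S z => z ∈ S) ?_ ?_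
  · intro S hS
    obtain ⟨hS1, hS2⟩ := Finset.mem_filter.1 hS
    obtain ⟨z, hzS, hzT⟩ := Finset.not_disjoint_iff.1 hS2
    exact ⟨z, Finset.mem_filter.2 ⟨hzT, S, hS1, hzS⟩, hzS⟩
  · intro z hz S hS S' hS'
    obtain ⟨hS1, -⟩ := Finset.mem_filter.1 hS.1
    obtain ⟨hS1', -⟩ := Finset.mem_filter.1 hS'.1
    obtain ⟨a1, -, a3⟩ := mem_star.1 hS1
    obtain ⟨b1, -, b3⟩ := mem_star.1 hS1'
    have hzg : z ≠ g := fun h => hg (h ▸ (Finset.mem_filter.1 hz).1)
    exact hH.eq_of_two a1 b1 hzg hS.2 a3 hS'.2 b3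

lemma hit_le_three (hH : Linear H) (A : Finset V) {g : V} {T : Finset V} (hT : T ∈ H)
    (hg : g ∉ T) : hit H A g T ≤ 3 :=
  (hit_le_adj hH A hg).trans ((Finset.card_filter_le _ _).trans (hH.card3 T hT).le)

/-- The number of live triangles avoiding `g` that meet a live triangle through `g`. -/
lemma meet_count (hH : Linear H) (A : Finset V) {g : V} {S : Finset V} (hS : S ∈ star H A g) :
    ((((alive H A).filter (fun T => g ∉ T)).filter (fun T => ¬ Disjoint S T)).card : ℝ)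
      = ∑ z ∈ S.erase g, (deg H A z - 1) := by
  obtain ⟨hS1, hS2, hgS⟩ := mem_star.1 hS
  have hset : ((alive H A).filter (fun T => g ∉ T)).filter (fun T => ¬ Disjoint S T)
      = (S.erase g).biUnion (fun z => (star H A z).erase S) := by
    ext T
    simp only [Finset.mem_filter, Finset.mem_biUnion, Finset.mem_erase, mem_alive, mem_star]
    constructor
    · rintro ⟨⟨⟨h1, h2⟩, hgT⟩, hd⟩
      obtain ⟨z, hzS, hzT⟩ := Finset.not_disjoint_iff.1 hd
      exact ⟨z, ⟨fun h => hgT (h ▸ hzT), hzS⟩, fun h => hgT (h ▸ hgS), h1, h2, hzT⟩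
    · rintro ⟨z, ⟨hzg, hzS⟩, hne, h1, h2, hzT⟩
      refine ⟨⟨⟨h1, h2⟩, fun hgT => hne (hH.eq_of_two h1 hS1 hzg hzT hgT hzS hgS)⟩, ?_⟩
      exact Finset.not_disjoint_iff.2 ⟨z, hzS, hzT⟩
  rw [hset, Finset.card_biUnion ?_, Nat.cast_sum]
  · refine Finset.sum_congr rfl ?_
    intro z hz
    have hzS := (Finset.mem_erase.1 hz).2
    have hmem : S ∈ star H A z := mem_star.2 ⟨hS1, hS2, hzS⟩
    rw [Finset.card_erase_of_mem hmem, Nat.cast_sub (Finset.card_pos.2 ⟨S, hmem⟩)]
    simp [deg]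
  · intro z hz z' hz' hzz'
    rw [Function.onFun, Finset.disjoint_left]
    intro T hT hT'
    obtain ⟨hne, hT1⟩ := Finset.mem_erase.1 hT
    obtain ⟨a1, -, a3⟩ := mem_star.1 hT1
    obtain ⟨-, -, b3⟩ := mem_star.1 (Finset.mem_erase.1 hT').2
    exact hne (hH.eq_of_two a1 hS1 hzz' a3 b3
      (Finset.mem_erase.1 hz).2 (Finset.mem_erase.1 hz').2)

lemma sum_hit (hH : Linear H) (A : Finset V) (g : V) :
    ∑ T ∈ (alive H A).filter (fun T => g ∉ T), (hit H A g T : ℝ) = loss H A g := by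
  have e : ∀ T, (hit H A g T : ℝ)
      = ∑ S ∈ star H A g, (if ¬ Disjoint S T then (1:ℝ) else 0) := by
    intro T; rw [Finset.sum_boole]; rfl
  simp only [e]
  rw [Finset.sum_comm]
  unfold loss
  refine Finset.sum_congr rfl ?_
  intro S hS
  rw [Finset.sum_boole, meet_count hH A hS]

/-- The live neighbours of a point. -/
def nbr (H : Finset (Finset V)) (A : Finset V) (f : V) : Finset V :=
  (star H A f).biUnion (fun T => T.erase f)

lemma mem_nbr {A : Finset V} {f g : V} :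
    g ∈ nbr H A f ↔ g ≠ f ∧ ∃ T ∈ star H A f, g ∈ T := by
  simp only [nbr, Finset.mem_biUnion, Finset.mem_erase]
  constructor
  · rintro ⟨T, hT, h1, h2⟩; exact ⟨h1, T, hT, h2⟩
  · rintro ⟨h1, T, hT, h2⟩; exact ⟨T, hT, h1, h2⟩

lemma nbr_sub (A : Finset V) (f : V) : nbr H A f ⊆ A := by
  intro g hg
  obtain ⟨-, T, hT, hgT⟩ := mem_nbr.1 hg
  exact (mem_star.1 hT).2.1 hgT

lemma nbr_symm {A : Finset V} {f g : V} (h : g ∈ nbr H A f) : f ∈ nbr H A g := by
  obtain ⟨h1, T, hT, hgT⟩ := mem_nbr.1 h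
  obtain ⟨a1, a2, a3⟩ := mem_star.1 hT
  exact mem_nbr.2 ⟨Ne.symm h1, T, mem_star.2 ⟨a1, a2, hgT⟩, a3⟩

lemma sum_nbr (hH : Linear H) (A : Finset V) (f : V) (h : V → ℝ) :
    ∑ g ∈ nbr H A f, h g = ∑ T ∈ star H A f, ∑ g ∈ T.erase f, h g := by
  refine Finset.sum_biUnion ?_
  intro T hT T' hT' hne
  rw [Function.onFun, Finset.disjoint_left]
  intro x hx hx'
  exact hne (hH.eq_of_two (mem_star.1 hT).1 (mem_star.1 hT').1 (Finset.mem_erase.1 hx).1
    (Finset.mem_erase.1 hx).2 (mem_star.1 hT).2.2 (Finset.mem_erase.1 hx').2 (mem_star.1 hT').2.2)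

lemma card_nbr (hH : Linear H) (A : Finset V) (f : V) :
    ((nbr H A f).card : ℝ) = 2 * deg H A f := by
  have h := sum_nbr hH A f (fun _ => (1:ℝ))
  rw [Finset.sum_const, nsmul_eq_mul, mul_one] at h
  rw [h, deg]
  have e : ∀ T ∈ star H A f, ∑ g ∈ T.erase f, (1:ℝ) = 2 := by
    intro T hT
    obtain ⟨a1, -, a3⟩ := mem_star.1 hT
    rw [Finset.sum_const, Finset.card_erase_of_mem a3, hH.card3 T a1]; norm_num
  rw [Finset.sum_congr rfl e]
  simp [mul_comm]

/-- The common live neighbours of two points. -/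
def common (H : Finset (Finset V)) (A : Finset V) (f z : V) : Finset V :=
  nbr H A f ∩ nbr H A z

/-- The codegree of two points. -/
noncomputable def codeg (H : Finset (Finset V)) (A : Finset V) (f z : V) : ℝ :=
  ((common H A f z).card : ℝ)

lemma common_comm (A : Finset V) (f z : V) : common H A f z = common H A z f :=
  Finset.inter_comm _ _

lemma codeg_le (hH : Linear H) (A : Finset V) (f z : V) :
    codeg H A f z ≤ 2 * deg H A f := by
  rw [← card_nbr hH A f]
  unfold codeg common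
  exact_mod_cast Finset.card_le_card Finset.inter_subset_left

lemma sum_codeg (hH : Linear H) (A : Finset V) (f : V) :
    ∑ z ∈ A, codeg H A f z = ∑ g ∈ nbr H A f, 2 * deg H A g := by
  have e : ∀ z, codeg H A f z = ∑ g ∈ nbr H A f, (if g ∈ nbr H A z then (1:ℝ) else 0) := by
    intro z
    unfold codeg common
    rw [Finset.sum_boole, Finset.filter_mem_eq_inter]
  simp only [e]
  rw [Finset.sum_comm]
  refine Finset.sum_congr rfl ?_
  intro g _
  rw [← card_nbr hH A g, Finset.sum_boole]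
  congr 2
  ext z
  simp only [Finset.mem_filter]
  exact ⟨fun h => nbr_symm h.2, fun h => ⟨nbr_sub A g h, nbr_symm h⟩⟩

lemma sum_codeg_sq_le (hH : Linear H) (A : Finset V) (f : V) :
    ∑ z ∈ A, codeg H A f z ^ 2 ≤ 4 * deg H A f * ∑ g ∈ nbr H A f, deg H A g := by
  calc ∑ z ∈ A, codeg H A f z ^ 2
      ≤ ∑ z ∈ A, 2 * deg H A f * codeg H A f z := by
        refine Finset.sum_le_sum ?_
        intro z _
        rw [sq]
        exact mul_le_mul_of_nonneg_right (codeg_le hH A f z) (Nat.cast_nonneg _)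
    _ = _ := by rw [← Finset.mul_sum, sum_codeg hH, ← Finset.mul_sum]; ring

lemma hit_adj_le (hH : Linear H) (A : Finset V) {g : V} {T : Finset V} (hg : g ∉ T) :
    (hit H A g T : ℝ) ≤ ∑ z ∈ T, if g ∈ nbr H A z then (1:ℝ) else 0 := by
  rw [Finset.sum_boole]
  refine Nat.cast_le.2 ((hit_le_adj hH A hg).trans (Finset.card_le_card ?_))
  intro z hz
  obtain ⟨hzT, S, hS, hzS⟩ := Finset.mem_filter.1 hz
  refine Finset.mem_filter.2 ⟨hzT, nbr_symm (mem_nbr.2 ⟨fun h => hg (h ▸ hzT), S, hS, hzS⟩)⟩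

end Vale.Agent.P046
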