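import Mathlib

/-!
# P046: polynomial certificates for the per-triangle inequality
-/

namespace Vale.Agent.P046

theorem polyC (m t : ℝ) (hm : 0 ≤ m) (ht : 0 ≤ t) : 0 ≤ (128 : ℝ)*t^2 + (79 : ℝ)*t^3 + (298 : ℝ)*m^1*t^2 + (-12 : ℝ)*m^2*t^1 + (56 : ℝ)*m^3 + (7 : ℝ)*t^4 + (84 : ℝ)*m^1*t^3 + (144 : ℝ)*m^2*t^2 + (48 : ℝ)*m^3*t^1 + (592 : ℝ)*m^4 + (28 : ℝ)*m^1*t^4 + (156 : ℝ)*m^2*t^3 + (200 : ℝ)*m^3*t^2 + (848 : ℝ)*m^4*t^1 + (2208 : ℝ)*m^5 + (28 : ℝ)*m^2*t^4 + (96 : ℝ)*m^3*t^3 + (416 : ℝ)*m^4*t^2 + (2432 : ℝ)*m^5*t^1 + (3520 : ℝ)*m^6 + (512 : ℝ)*m^5*t^2 + (2048 : ℝ)*m^6*t^1 + (2048 : ℝ)*m^7 := by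
  have h : 0 ≤ (298 : ℝ)*m^1*t^2 + (-12 : ℝ)*m^2*t^1 + (56 : ℝ)*m^3 := by nlinarith [mul_nonneg hm (sq_nonneg (m - t)), mul_nonneg hm (sq_nonneg t), pow_nonneg hm 3]
  have r : 0 ≤ (128 : ℝ)*t^2 + (79 : ℝ)*t^3 + (7 : ℝ)*t^4 + (84 : ℝ)*m^1*t^3 + (144 : ℝ)*m^2*t^2 + (48 : ℝ)*m^3*t^1 + (592 : ℝ)*m^4 + (28 : ℝ)*m^1*t^4 + (156 : ℝ)*m^2*t^3 + (200 : ℝ)*m^3*t^2 + (848 : ℝ)*m^4*t^1 + (2208 : ℝ)*m^5 + (28 : ℝ)*m^2*t^4 + (96 : ℝ)*m^3*t^3 + (416 : ℝ)*m^4*t^2 + (2432 : ℝ)*m^5*t^1 + (3520 : ℝ)*m^6 + (512 : ℝ)*m^5*t^2 + (2048 : ℝ)*m^6*t^1 + (2048 : ℝ)*m^7 := by positivity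
  linarith
theorem polyB (z v : ℝ) (hz : 0 ≤ z) (hv : 0 ≤ v) (_h1 : z + v ≤ 1) : 0 ≤ (128 : ℝ)*v^2 + (192 : ℝ)*v^3 + (192 : ℝ)*z^1*v^2 + (-108 : ℝ)*z^2*v^1 + (55 : ℝ)*z^3 + (256 : ℝ)*v^4 + (896 : ℝ)*z^1*v^3 + (880 : ℝ)*z^2*v^2 + (540 : ℝ)*z^3*v^1 + (339 : ℝ)*z^4 + (256 : ℝ)*v^5 + (1792 : ℝ)*z^1*v^4 + (4160 : ℝ)*z^2*v^3 + (4620 : ℝ)*z^3*v^2 + (2768 : ℝ)*z^4*v^1 + (3095/4 : ℝ)*z^5 + (512 : ℝ)*z^1*v^5 + (2880 : ℝ)*z^2*v^4 + (6256 : ℝ)*z^3*v^3 + (6716 : ℝ)*z^4*v^2 + (3631 : ℝ)*z^5*v^1 + (803 : ℝ)*z^6 + (320 : ℝ)*z^2*v^5 + (1664 : ℝ)*z^3*v^4 + (3440 : ℝ)*z^4*v^3 + (3543 : ℝ)*z^5*v^2 + (1822 : ℝ)*z^6*v^1 + (375 : ℝ)*z^7 + (64 : ℝ)*z^3*v^5 + (320 : ℝ)*z^4*v^4 + (640 : ℝ)*z^5*v^3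 + (640 : ℝ)*z^6*v^2 + (320 : ℝ)*z^7*v^1 + (64 : ℝ)*z^8 := by
  have h : 0 ≤ (192 : ℝ)*z^1*v^2 + (-108 : ℝ)*z^2*v^1 + (55 : ℝ)*z^3 := by nlinarith [mul_nonneg hz (sq_nonneg (55*z - 54*v)), mul_nonneg hz (sq_nonneg v)]
  have r : 0 ≤ (128 : ℝ)*v^2 + (192 : ℝ)*v^3 + (256 : ℝ)*v^4 + (896 : ℝ)*z^1*v^3 + (880 : ℝ)*z^2*v^2 + (540 : ℝ)*z^3*v^1 + (339 : ℝ)*z^4 + (256 : ℝ)*v^5 + (1792 : ℝ)*z^1*v^4 + (4160 : ℝ)*z^2*v^3 + (4620 : ℝ)*z^3*v^2 + (2768 : ℝ)*z^4*v^1 + (3095/4 : ℝ)*z^5 + (512 : ℝ)*z^1*v^5 + (2880 : ℝ)*z^2*v^4 + (6256 : ℝ)*z^3*v^3 + (6716 : ℝ)*z^4*v^2 + (3631 : ℝ)*z^5*v^1 + (803 : ℝ)*z^6 + (320 : ℝ)*z^2*v^5 + (1664 : ℝ)*z^3*v^4 + (3440 : ℝ)*z^4*v^3 + (3543 : ℝ)*z^5*v^2 +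 (1822 : ℝ)*z^6*v^1 + (375 : ℝ)*z^7 + (64 : ℝ)*z^3*v^5 + (320 : ℝ)*z^4*v^4 + (640 : ℝ)*z^5*v^3 + (640 : ℝ)*z^6*v^2 + (320 : ℝ)*z^7*v^1 + (64 : ℝ)*z^8 := by positivity
  linarith
theorem polyD (x v : ℝ) (hx : 0 ≤ x) (hv : 0 ≤ v) (h1 : x + v ≤ 1) : 0 ≤ (128 : ℝ)*v^2 + (144 : ℝ)*v^3 + (48 : ℝ)*x^1*v^2 + (-168 : ℝ)*x^2*v^1 + (7 : ℝ)*x^3 + (64 : ℝ)*v^4 + (32 : ℝ)*x^1*v^3 + (-256 : ℝ)*x^2*v^2 + (-180 : ℝ)*x^3*v^1 + (51 : ℝ)*x^4 + (64 : ℝ)*v^5 + (448 : ℝ)*x^1*v^4 + (944 : ℝ)*x^2*v^3 + (908 : ℝ)*x^3*v^2 + (484 : ℝ)*x^4*v^1 + (136 : ℝ)*x^5 + (128 : ℝ)*x^1*v^5 + (704 : ℝ)*x^2*v^4 + (1472 : ℝ)*x^3*v^3 + (1500 : ℝ)*x^4*v^2 + (760 : ℝ)*x^5*v^1 + (156 : ℝ)*x^6 + (64 : ℝ)*x^2*v^5 + (320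 : ℝ)*x^3*v^4 + (640 : ℝ)*x^4*v^3 + (640 : ℝ)*x^5*v^2 + (320 : ℝ)*x^6*v^1 + (64 : ℝ)*x^7 := by
  have hx1 : x ≤ 1 := by linarith
  have h1 : 0 ≤ (128 : ℝ)*v^2 + (-168 : ℝ)*x^2*v^1 + (7 : ℝ)*x^3 + (-180 : ℝ)*x^3*v^1 + (51 : ℝ)*x^4 + (136 : ℝ)*x^5 + (156 : ℝ)*x^6 := by
    nlinarith [sq_nonneg (256*v - x^2*(168+180*x)), mul_le_mul_of_nonneg_left hx1 (pow_nonneg hx 3), pow_nonneg hx 4, pow_nonneg hx 5, pow_nonneg hx 6]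
  have h2 : 0 ≤ (48 : ℝ)*x^1*v^2 + (-256 : ℝ)*x^2*v^2 + (908 : ℝ)*x^3*v^2 := by
    nlinarith [mul_nonneg (mul_nonneg hx (sq_nonneg v)) (sq_nonneg (1 - 3*x)), mul_nonneg hx (sq_nonneg v), mul_nonneg (pow_nonneg hx 3) (sq_nonneg v)]
  have r : 0 ≤ (144 : ℝ)*v^3 + (64 : ℝ)*v^4 + (32 : ℝ)*x^1*v^3 + (64 : ℝ)*v^5 + (448 : ℝ)*x^1*v^4 + (944 : ℝ)*x^2*v^3 + (484 : ℝ)*x^4*v^1 + (128 : ℝ)*x^1*v^5 + (704 : ℝ)*x^2*v^4 + (1472 : ℝ)*x^3*v^3 + (1500 : ℝ)*x^4*v^2 + (760 : ℝ)*x^5*v^1 + (64 : ℝ)*x^2*v^5 + (320 : ℝ)*x^3*v^4 + (640 : ℝ)*x^4*v^3 + (640 : ℝ)*x^5*v^2 + (320 : ℝ)*x^6*v^1 + (64 : ℝ)*x^7 := by positivity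
  linarith

end Vale.Agent.P046
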