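import Mathlib
import Vale.Agent.P046.Cert

/-!
# P046: the potential and its per-triangle inequality

The potential is `φ(u) = u²/(1-2u)` for `u ∈ [-1,0]`, continued linearly below `-1`, and
`φ(u) = u²(1+u/8)/(1+u)` for `u ≥ 0`.
-/

namespace Vale.Agent.P046

/-- The derivative of the potential on the positive side. -/
noncomputable def psiP (x : ℝ) : ℝ := (16*x+11*x^2+2*x^3)/(8*(1+x)^2)

/-- The absolute derivative of the potential on the negative side (`u = -y`, `0 ≤ y ≤ 1`). -/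
noncomputable def psiN (y : ℝ) : ℝ := (2*y+2*y^2)/(1+2*y)^2

/-- The compensating function on the positive side. -/
noncomputable def compP (x : ℝ) : ℝ := (9/64) * x^3/(1+x)

lemma psiP_eq {x : ℝ} (hx : 0 ≤ x) : psiP x = x/4 + 7/8*(1 - 1/(1+x)^2) := by
  unfold psiP
  have : (1+x) ≠ 0 := by positivity
  field_simp
  ring

lemma psiN_eq {y : ℝ} (hy : 0 ≤ y) : psiN y = 1/2*(1 - 1/(1+2*y)^2) := by
  unfold psiN
  have : (1+2*y) ≠ 0 := by positivity
  field_simp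
  ring

lemma psiP_nonneg {x : ℝ} (hx : 0 ≤ x) : 0 ≤ psiP x := by unfold psiP; positivity

lemma psiN_nonneg {y : ℝ} (hy : 0 ≤ y) : 0 ≤ psiN y := by unfold psiN; positivity

lemma compP_nonneg {x : ℝ} (hx : 0 ≤ x) : 0 ≤ compP x := by unfold compP; positivity

/-- `z ↦ z⁻²` is convex. -/
lemma invsq_mid {a b : ℝ} (ha : 0 < a) (hb : 0 < b) :
    2/((a+b)/2)^2 ≤ 1/a^2 + 1/b^2 := by
  rw [div_add_div _ _ (by positivity) (by positivity),
    div_le_div_iff₀ (by positivity) (by positivity)]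
  nlinarith [mul_nonneg (sq_nonneg (a-b)) (sq_nonneg (a+b)),
    mul_nonneg (mul_nonneg ha.le hb.le) (sq_nonneg (a-b)), sq_nonneg (a*b)]

lemma invsq_sub {a b : ℝ} (ha : 0 ≤ a) (hb : 0 ≤ b) :
    1/(1+a)^2 + 1/(1+b)^2 ≤ 1 + 1/(1+(a+b))^2 := by
  have e : 1 + 1/(1+(a+b))^2 - 1/(1+a)^2 - 1/(1+b)^2
      = (((1+a)^2*(1+b)^2 - (1+b)^2 - (1+a)^2) * (1+(a+b))^2 + (1+a)^2*(1+b)^2)
        / ((1+a)^2*(1+b)^2*(1+(a+b))^2) := by field_simp; ring
  have h : 0 ≤ ((1+a)^2*(1+b)^2 - (1+b)^2 - (1+a)^2) * (1+(a+b))^2 + (1+a)^2*(1+b)^2 := by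
    have hab := mul_nonneg ha hb
    nlinarith [mul_nonneg hab ha, mul_nonneg hab hb, mul_nonneg hab hab,
      mul_nonneg (mul_nonneg hab ha) ha, mul_nonneg (mul_nonneg hab hb) hb,
      mul_nonneg (mul_nonneg hab hab) ha, mul_nonneg (mul_nonneg hab hab) hb,
      mul_nonneg (mul_nonneg hab hab) (mul_nonneg ha ha),
      mul_nonneg (mul_nonneg hab hab) (mul_nonneg hb hb),
      mul_nonneg (mul_nonneg hab hab) hab,
      mul_nonneg (mul_nonneg (mul_nonneg hab ha) ha) ha,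
      mul_nonneg (mul_nonneg (mul_nonneg hab hb) hb) hb]
  have : 0 ≤ 1 + 1/(1+(a+b))^2 - 1/(1+a)^2 - 1/(1+b)^2 := by
    rw [e]; exact div_nonneg h (by positivity)
  linarith

lemma psiN_mid {a b : ℝ} (ha : 0 ≤ a) (hb : 0 ≤ b) :
    psiN a + psiN b ≤ 2 * psiN ((a+b)/2) := by
  rw [psiN_eq ha, psiN_eq hb, psiN_eq (by positivity)]
  have := invsq_mid (a := 1+2*a) (b := 1+2*b) (by positivity) (by positivity)
  have e : (1+2*((a+b)/2)) = ((1+2*a)+(1+2*b))/2 := by ring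
  rw [e]
  have e2 : (2:ℝ)/(((1+2*a)+(1+2*b))/2)^2 = 2 * (1/(((1+2*a)+(1+2*b))/2)^2) := by ring
  linarith

lemma psiN_add {a b : ℝ} (ha : 0 ≤ a) (hb : 0 ≤ b) :
    psiN (a+b) ≤ psiN a + psiN b := by
  rw [psiN_eq ha, psiN_eq hb, psiN_eq (by positivity), mul_add 2 a b]
  linarith [invsq_sub (a := 2*a) (b := 2*b) (by positivity) (by positivity)]

lemma psiN_mono {a b : ℝ} (ha : 0 ≤ a) (hab : a ≤ b) : psiN a ≤ psiN b := by
  rw [psiN_eq ha, psiN_eq (ha.trans hab)]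
  have : 1/(1+2*b)^2 ≤ 1/(1+2*a)^2 :=
    one_div_le_one_div_of_le (by positivity) (by gcongr)
  linarith

lemma psiP_mono {a b : ℝ} (ha : 0 ≤ a) (hab : a ≤ b) : psiP a ≤ psiP b := by
  rw [psiP_eq ha, psiP_eq (ha.trans hab)]
  have : 1/(1+b)^2 ≤ 1/(1+a)^2 :=
    one_div_le_one_div_of_le (by positivity) (by gcongr)
  linarith

lemma psiP_mid {a b : ℝ} (ha : 0 ≤ a) (hb : 0 ≤ b) :
    psiP a + psiP b ≤ 2 * psiP ((a+b)/2) := by
  rw [psiP_eq ha, psiP_eq hb, psiP_eq (by positivity)]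
  have := invsq_mid (a := 1+a) (b := 1+b) (by positivity) (by positivity)
  have e : (1+((a+b)/2)) = ((1+a)+(1+b))/2 := by ring
  rw [e]
  have e2 : (2:ℝ)/(((1+a)+(1+b))/2)^2 = 2 * (1/(((1+a)+(1+b))/2)^2) := by ring
  linarith

lemma psiP_add {a b : ℝ} (ha : 0 ≤ a) (hb : 0 ≤ b) :
    psiP (a+b) ≤ psiP a + psiP b := by
  rw [psiP_eq ha, psiP_eq hb, psiP_eq (by positivity)]
  linarith [invsq_sub ha hb]

lemma psiN_le_psiP {y : ℝ} (hy : 0 ≤ y) (_hy1 : y ≤ 1) : psiN y ≤ psiP y := by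
  unfold psiN psiP
  rw [div_le_div_iff₀ (by positivity) (by positivity)]
  nlinarith [pow_nonneg hy 2, pow_nonneg hy 3, pow_nonneg hy 4, pow_nonneg hy 5,
    pow_nonneg hy 1]

lemma compP_add {a b : ℝ} (ha : 0 ≤ a) (hb : 0 ≤ b) :
    compP a + compP b ≤ compP (a+b) := by
  have key : ∀ u v : ℝ, 0 ≤ u → 0 ≤ v → u^2/(1+u) ≤ (u+v)^2/(1+(u+v)) := by
    intro u v hu hv
    rw [div_le_div_iff₀ (by positivity) (by positivity)]
    nlinarith [mul_nonneg hu hv, mul_nonneg (mul_nonneg hu hv) hu, mul_nonneg (mul_nonneg hu hv) hv]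
  have h1 := mul_le_mul_of_nonneg_left (key a b ha hb) ha
  have h2 := mul_le_mul_of_nonneg_left (key b a hb ha) hb
  rw [add_comm b a] at h2
  unfold compP
  have e1 : a^3/(1+a) = a * (a^2/(1+a)) := by ring
  have e2 : b^3/(1+b) = b * (b^2/(1+b)) := by ring
  have e3 : (a+b)^3/(1+(a+b)) = a*((a+b)^2/(1+(a+b))) + b*((a+b)^2/(1+(a+b))) := by ring
  have : a^3/(1+a) + b^3/(1+b) ≤ (a+b)^3/(1+(a+b)) := by rw [e1, e2, e3]; linarith
  have t : ∀ z w : ℝ, 9/64*z/w = 9/64*(z/w) := fun z w => by ring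
  simp only [t]; linarith

/-- Case `x ≥ y`, one point on each side. -/
lemma case_pn {x y : ℝ} (hy : 0 ≤ y) (_hy1 : y ≤ 1) (hxy : y ≤ x) :
    compP x ≤ (psiP x - psiN y) * (x - y) + y^3 := by
  obtain ⟨t, ht, rfl⟩ : ∃ t, 0 ≤ t ∧ x = y + t := ⟨x - y, by linarith, by ring⟩
  have hz : (0:ℝ) ≤ y + t := by linarith
  have hp : 0 ≤ ((16*(y+t)+11*(y+t)^2+2*(y+t)^3)*(1+2*y)^2 - 8*(2*y+2*y^2)*(1+(y+t))^2)*t*8
      + 64*y^3*(1+(y+t))^2*(1+2*y)^2 - 9*(y+t)^3*(1+(y+t))*(1+2*y)^2 := by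
    ring_nf
    positivity
  have e : (psiP (y+t) - psiN y) * t + y^3 - compP (y+t)
      = (((16*(y+t)+11*(y+t)^2+2*(y+t)^3)*(1+2*y)^2 - 8*(2*y+2*y^2)*(1+(y+t))^2)*t*8
      + 64*y^3*(1+(y+t))^2*(1+2*y)^2 - 9*(y+t)^3*(1+(y+t))*(1+2*y)^2)
        / (64*(1+(y+t))^2*(1+2*y)^2) := by
    unfold psiP psiN compP
    field_simp
    ring
  have h0 : 0 ≤ (psiP (y+t) - psiN y) * t + y^3 - compP (y+t) := by
    rw [e]; exact div_nonneg hp (by positivity)
  have : y + t - y = t := by ring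
  rw [this]; linarith

/-- Case `x ≥ 2m`, one point against two equal ones. -/
lemma case_pnn {x m : ℝ} (hm : 0 ≤ m) (hxm : 2*m ≤ x) :
    compP x ≤ (psiP x - 2 * psiN m) * (x - 2*m) + 2*m^3 := by
  obtain ⟨t, ht, rfl⟩ : ∃ t, 0 ≤ t ∧ x = 2*m + t := ⟨x - 2*m, by linarith, by ring⟩
  have hz : (0:ℝ) ≤ 2*m + t := by linarith
  have hp := polyC m t hm ht
  have e : (psiP (2*m+t) - 2*psiN m) * t + 2*m^3 - compP (2*m+t)
      = (8*((16*(2*m+t)+11*(2*m+t)^2+2*(2*m+t)^3)*(1+2*m)^2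
            - 16*(2*m+2*m^2)*(1+(2*m+t))^2)*t
          + 128*m^3*(1+(2*m+t))^2*(1+2*m)^2 - 9*(2*m+t)^3*(1+(2*m+t))*(1+2*m)^2)
        / (64*(1+(2*m+t))^2*(1+2*m)^2) := by
    unfold psiP psiN compP
    field_simp
    ring
  have h0 : 0 ≤ (psiP (2*m+t) - 2*psiN m) * t + 2*m^3 - compP (2*m+t) := by
    rw [e]
    refine div_nonneg ?_ (by positivity)
    refine le_of_le_of_eq hp ?_
    ring
  have : 2*m + t - 2*m = t := by ring
  rw [this]; linarith

/-- Case of two points with total `z` against one of size `y ≥ z`. -/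
lemma case_ppn {z y : ℝ} (hz : 0 ≤ z) (hzy : z ≤ y) (hy1 : y ≤ 1) :
    compP z + (2 * psiP (z/2) - psiN y) * (y - z) ≤ y^3 := by
  obtain ⟨v, hv, rfl⟩ : ∃ v, 0 ≤ v ∧ y = z + v := ⟨y - z, by linarith, by ring⟩
  have hy : (0:ℝ) ≤ z + v := by linarith
  have hp := polyB z v hz hv hy1
  have e : (z+v)^3 - compP z - (2 * psiP (z/2) - psiN (z+v)) * v
      = ((z+v)^3*(64*(1+z/2)^2*(1+2*(z+v))^2*(1+z)) - 9*z^3*(1+z/2)^2*(1+2*(z+v))^2
          - 8*v*(1+z)*(2*(16*(z/2)+11*(z/2)^2+2*(z/2)^3)*(1+2*(z+v))^2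
            - 8*(2*(z+v)+2*(z+v)^2)*(1+z/2)^2))
        / (64*(1+z/2)^2*(1+2*(z+v))^2*(1+z)) := by
    unfold psiP psiN compP
    field_simp
    ring
  have h0 : 0 ≤ (z+v)^3 - compP z - (2 * psiP (z/2) - psiN (z+v)) * v := by
    rw [e]
    refine div_nonneg ?_ (by positivity)
    refine le_of_le_of_eq hp ?_
    ring
  have : z + v - z = v := by ring
  rw [this]; linarith

/-- Case of one point `x` against two negative ones of total `w ≥ x`, with `w ≤ 1`. -/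
lemma case_small {x w : ℝ} (hx : 0 ≤ x) (hxw : x ≤ w) (hw : w ≤ 1) :
    compP x + (psiP x - psiN w) * (w - x) ≤ w^3/4 := by
  obtain ⟨v, hv, rfl⟩ : ∃ v, 0 ≤ v ∧ w = x + v := ⟨w - x, by linarith, by ring⟩
  have hy : (0:ℝ) ≤ x + v := by linarith
  have hp := polyD x v hx hv hw
  have e : (x+v)^3/4 - compP x - (psiP x - psiN (x+v)) * v
      = (16*(x+v)^3*(1+x)^2*(1+2*(x+v))^2 - 9*x^3*(1+x)*(1+2*(x+v))^2
          - 8*v*((16*x+11*x^2+2*x^3)*(1+2*(x+v))^2 - 8*(2*(x+v)+2*(x+v)^2)*(1+x)^2))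
        / (64*(1+x)^2*(1+2*(x+v))^2) := by
    unfold psiP psiN compP
    field_simp
    ring
  have h0 : 0 ≤ (x+v)^3/4 - compP x - (psiP x - psiN (x+v)) * v := by
    rw [e]
    refine div_nonneg ?_ (by positivity)
    refine le_of_le_of_eq hp ?_
    ring
  have : x + v - x = v := by ring
  rw [this]; linarith

/-- Case of one point `x` against two negative ones of total `w ≥ max x 1`. -/
lemma case_large {x w : ℝ} (hx : 0 ≤ x) (hxw : x ≤ w) (hw : 1 ≤ w) :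
    compP x + (psiP x - 4/9) * (w - x) ≤ w^3/4 := by
  obtain ⟨r, hr, rfl⟩ : ∃ r, 0 ≤ r ∧ w = 1 + r := ⟨w - 1, by linarith, by ring⟩
  obtain ⟨s, hs, rfl⟩ | rfl : (∃ s, 0 ≤ s ∧ x = (1+r)*s/(1+s)) ∨ x = 1 + r := by
    rcases eq_or_lt_of_le hxw with h | h
    · exact Or.inr h
    · refine Or.inl ⟨x/((1+r)-x), div_nonneg hx (by linarith), ?_⟩
      have h1 : (1+r) - x ≠ 0 := by linarith
      have h2 : (1+r) ≠ 0 := by linarith
      have h3 : 1 + x/((1+r)-x) = (1+r)/((1+r)-x) := by field_simp; ring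
      rw [h3]; field_simp
  · set x := (1+r)*s/(1+s) with hxdef
    have e : (1+r)^3/4 - compP x - (psiP x - 4/9) * ((1+r) - x)
        = (9*(16*(1+r)^3*(1+x)^2 - 9*x^3*(1+x))
            - 8*((1+r)-x)*(9*(16*x+11*x^2+2*x^3) - 32*(1+x)^2)) / (576*(1+x)^2) := by
      unfold psiP compP
      field_simp
      ring
    have h0 : 0 ≤ (1+r)^3/4 - compP x - (psiP x - 4/9) * ((1+r) - x) := by
      rw [e]
      refine div_nonneg ?_ (by positivity)
      rw [hxdef]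
      have key : (9*(16*(1+r)^3*(1+(1+r)*s/(1+s))^2 - 9*((1+r)*s/(1+s))^3*(1+(1+r)*s/(1+s)))
            - 8*((1+r)-(1+r)*s/(1+s))*(9*(16*((1+r)*s/(1+s))+11*((1+r)*s/(1+s))^2
              +2*((1+r)*s/(1+s))^3) - 32*(1+(1+r)*s/(1+s))^2))
          = (9*(16*(1+r)^3*(1+s)^2*(1+s+(1+r)*s)^2 - 9*(1+r)^3*s^3*(1+s+(1+r)*s))
            - 8*(1+r)*(9*(16*(1+r)*s*(1+s)^2+11*(1+r)^2*s^2*(1+s)+2*(1+r)^3*s^3)
              - 32*(1+s)*(1+s+(1+r)*s)^2)) / (1+s)^4 := by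
        field_simp
        ring
      rw [key]
      refine div_nonneg ?_ (by positivity)
      ring_nf
      positivity
    linarith
  · have h1 : compP (1+r) ≤ (9/64) * (1+r)^3 := by
      unfold compP
      exact div_le_self (by positivity) (by linarith)
    have h2 : (0:ℝ) ≤ (1+r)^3 := by positivity
    simp only [sub_self, mul_zero, add_zero]
    linarith

/-- The compensating function. -/
noncomputable def comp (u : ℝ) : ℝ := if 0 ≤ u then compP u else u^3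

/-- The derivative of the potential. -/
noncomputable def psi (u : ℝ) : ℝ :=
  if 0 ≤ u then psiP u else if -1 ≤ u then -psiN (-u) else -(4/9)

lemma psi_pos {u : ℝ} (h : 0 ≤ u) : psi u = psiP u := by simp [psi, h]
lemma comp_pos {u : ℝ} (h : 0 ≤ u) : comp u = compP u := by simp [comp, h]
lemma psi_neg {y : ℝ} (h : 0 ≤ y) (h1 : y ≤ 1) : psi (-y) = -psiN y := by
  rcases eq_or_lt_of_le h with rfl | h'
  · norm_num [psi, psiP, psiN]
  · have : ¬ (0:ℝ) ≤ -y := by linarith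
    have h2 : (-1:ℝ) ≤ -y := by linarith
    simp [psi, this, h1]
lemma comp_neg {y : ℝ} (h : 0 ≤ y) : comp (-y) = -y^3 := by
  rcases eq_or_lt_of_le h with rfl | h'
  · norm_num [comp, compP]
  · have : ¬ (0:ℝ) ≤ -y := by linarith
    simp [comp, this]
    ring

lemma tri_ppp {a b c : ℝ} (ha : 0 ≤ a) (hb : 0 ≤ b) (hc : 0 ≤ c) :
    compP a + compP b + compP c ≤ (psiP a + psiP b + psiP c) * (a + b + c) := by
  have key : ∀ u : ℝ, 0 ≤ u → compP u ≤ psiP u * u := by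
    intro u hu
    have := case_pn (x := u) (y := 0) le_rfl zero_le_one hu
    simpa [psiN] using this
  nlinarith [key a ha, key b hb, key c hc, mul_nonneg (psiP_nonneg ha) hb,
    mul_nonneg (psiP_nonneg ha) hc, mul_nonneg (psiP_nonneg hb) ha,
    mul_nonneg (psiP_nonneg hb) hc, mul_nonneg (psiP_nonneg hc) ha,
    mul_nonneg (psiP_nonneg hc) hb]

lemma tri_ppn {a b y : ℝ} (ha : 0 ≤ a) (hb : 0 ≤ b) (hy : 0 ≤ y) (hy1 : y ≤ 1) :
    compP a + compP b - y^3 ≤ (psiP a + psiP b - psiN y) * (a + b - y) := by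
  have hE := compP_add ha hb
  rcases le_total y (a+b) with h | h
  · have h1 := case_pn hy hy1 h
    have h2 := mul_le_mul_of_nonneg_right (psiP_add ha hb) (show 0 ≤ a + b - y by linarith)
    nlinarith [h1, h2, hE]
  · have h1 := case_ppn (add_nonneg ha hb) h hy1
    have h2 := mul_le_mul_of_nonneg_right (psiP_mid ha hb) (show 0 ≤ y - (a+b) by linarith)
    nlinarith [h1, h2, hE]

lemma tri_pnn {x a b : ℝ} (hx : 0 ≤ x) (ha : 0 ≤ a) (_ha1 : a ≤ 1) (hb : 0 ≤ b) (_hb1 : b ≤ 1) :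
    compP x - a^3 - b^3 ≤ (psiP x - psiN a - psiN b) * (x - a - b) := by
  have hcube : (a+b)^3/4 ≤ a^3 + b^3 := by
    nlinarith [mul_nonneg (add_nonneg ha hb) (sq_nonneg (a-b))]
  rcases le_total (a+b) x with h | h
  · have h1 := case_pnn (x := x) (m := (a+b)/2) (by linarith) (by linarith)
    have h2 := mul_le_mul_of_nonneg_right (psiN_mid ha hb) (show 0 ≤ x - a - b by linarith)
    nlinarith [h1, h2, hcube]
  · have hs := psiN_add ha hb
    rcases le_total (a+b) 1 with h' | h'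
    · have h1 := case_small hx h h'
      have h2 := mul_le_mul_of_nonneg_right hs (show 0 ≤ a + b - x by linarith)
      nlinarith [h1, h2, hcube]
    · have h1 := case_large hx h h'
      have h49 : (4/9:ℝ) ≤ psiN (a+b) := by
        have h0 := psiN_mono (a := 1) (b := a+b) zero_le_one h'
        have : psiN 1 = 4/9 := by norm_num [psiN]
        linarith
      have h2 := mul_le_mul_of_nonneg_right (h49.trans hs) (show 0 ≤ a + b - x by linarith)
      nlinarith [h1, h2, hcube]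

lemma tri_nnn {a b c : ℝ} (ha : 0 ≤ a) (hb : 0 ≤ b) (hc : 0 ≤ c) :
    -a^3 - b^3 - c^3 ≤ (-psiN a - psiN b - psiN c) * (-a - b - c) := by
  nlinarith [pow_nonneg ha 3, pow_nonneg hb 3, pow_nonneg hc 3,
    mul_nonneg (add_nonneg (add_nonneg (psiN_nonneg ha) (psiN_nonneg hb)) (psiN_nonneg hc))
      (add_nonneg (add_nonneg ha hb) hc)]

/-- The per-triangle inequality. -/
theorem triangle_ineq {a b c : ℝ} (ha : -1 ≤ a) (hb : -1 ≤ b) (hc : -1 ≤ c) :
    comp a + comp b + comp c ≤ (psi a + psi b + psi c) * (a + b + c) := by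
  have split : ∀ u : ℝ, -1 ≤ u → 0 ≤ u ∨ ∃ y, u = -y ∧ 0 ≤ y ∧ y ≤ 1 := fun u hu => by
    rcases le_total 0 u with h | h
    · exact Or.inl h
    · exact Or.inr ⟨-u, by ring, by linarith, by linarith⟩
  rcases split a ha with hA | ⟨a, rfl, hA, hA1⟩ <;>
    rcases split b hb with hB | ⟨b, rfl, hB, hB1⟩ <;>
      rcases split c hc with hC | ⟨c, rfl, hC, hC1⟩ <;>
        simp (discharger := assumption) only [psi_pos, comp_pos, psi_neg, comp_neg]
  · exact tri_ppp hA hB hC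
  · nlinarith [tri_ppn hA hB hC hC1]
  · nlinarith [tri_ppn hA hC hB hB1]
  · nlinarith [tri_pnn hA hB hB1 hC hC1]
  · nlinarith [tri_ppn hB hC hA hA1]
  · nlinarith [tri_pnn hB hA hA1 hC hC1]
  · nlinarith [tri_pnn hC hA hA1 hB hB1]
  · nlinarith [tri_nnn hA hB hC]

end Vale.Agent.P046
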