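import Mathlib
import Vale.Agent.P046.Pot

/-!
# P046: properties of the potential
-/

namespace Vale.Agent.P046

/-- The potential on the positive side. -/
noncomputable def phiP (x : ℝ) : ℝ := x^2/8 + 7/8*(x^2/(1+x))

/-- The potential on `[-1,0]`, as a function of `y = -u`. -/
noncomputable def phiN (y : ℝ) : ℝ := y^2/(1+2*y)

/-- The potential. -/
noncomputable def phi (u : ℝ) : ℝ :=
  if 0 ≤ u then phiP u else if -1 ≤ u then phiN (-u) else 1/3 + 4/9*(-1-u)

/-- Truncation from below at `-1`. -/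
noncomputable def trunc (u : ℝ) : ℝ := max u (-1)

lemma phi_nonneg (u : ℝ) : 0 ≤ phi u := by
  unfold phi
  split_ifs with h1 h2
  · unfold phiP; positivity
  · have : 0 ≤ -u := by linarith
    unfold phiN; positivity
  · linarith

lemma phi_zero : phi 0 = 0 := by norm_num [phi, phiP]

lemma psi_mid {u : ℝ} (h : u ≤ 0) (h' : -1 ≤ u) : psi u = -psiN (-u) := by
  have := psi_neg (y := -u) (by linarith) (by linarith)
  simpa using this

lemma phi_mid {u : ℝ} (h : u ≤ 0) (h' : -1 ≤ u) : phi u = phiN (-u) := by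
  rcases eq_or_lt_of_le h with rfl | h1
  · norm_num [phi, phiP, phiN]
  · simp [phi, not_le.2 h1, h']

lemma psi_low {u : ℝ} (h : u ≤ -1) : psi u = -(4/9) := by
  rcases eq_or_lt_of_le h with rfl | h1
  · rw [psi_mid (by norm_num) le_rfl]; norm_num [psiN]
  · have : ¬ (0:ℝ) ≤ u := by linarith
    simp [psi, this, not_le.2 h1]

lemma phi_low {u : ℝ} (h : u ≤ -1) : phi u = 1/3 + 4/9*(-1-u) := by
  rcases eq_or_lt_of_le h with rfl | h1
  · rw [phi_mid (by norm_num) le_rfl]; norm_num [phiN]
  · have : ¬ (0:ℝ) ≤ u := by linarith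
    simp [phi, this, not_le.2 h1]

lemma phi_high {u : ℝ} (h : 0 ≤ u) : phi u = phiP u := by simp [phi, h]

lemma psi_trunc (u : ℝ) : psi (trunc u) = psi u := by
  unfold trunc
  rcases le_total u (-1) with h | h
  · rw [max_eq_right h, psi_low h, psi_low le_rfl]
  · rw [max_eq_left h]

lemma psi_mono {a b : ℝ} (h : a ≤ b) : psi a ≤ psi b := by
  have lowle : ∀ x : ℝ, -(4/9) ≤ psi x := by
    intro x
    rcases le_total x (-1) with h1 | h1
    · rw [psi_low h1]
    rcases le_total x 0 with h2 | h2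
    · rw [psi_mid h2 h1]
      have h3 := psiN_mono (a := -x) (b := 1) (by linarith) (by linarith)
      have : psiN 1 = 4/9 := by norm_num [psiN]
      linarith
    · rw [psi_pos h2]; linarith [psiP_nonneg h2]
  rcases le_total a (-1) with h1 | h1
  · rw [psi_low h1]; exact lowle b
  rcases le_total a 0 with h2 | h2
  · rw [psi_mid h2 h1]
    rcases le_total b 0 with h3 | h3
    · rw [psi_mid h3 (h1.trans h)]
      linarith [psiN_mono (a := -b) (b := -a) (by linarith) (by linarith)]
    · rw [psi_pos h3]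
      linarith [psiP_nonneg h3, psiN_nonneg (y := -a) (by linarith)]
  · rw [psi_pos h2, psi_pos (h2.trans h)]
    exact psiP_mono h2 h

/-- Gluing two adjacent intervals on which the tangent inequality holds. -/
lemma tangent_glue {P Q : ℝ → Prop} (c : ℝ) (hP : P c) (hQ : Q c)
    (h1 : ∀ a b, P a → P b → phi b - phi a ≤ psi b * (b - a))
    (h2 : ∀ a b, Q a → Q b → phi b - phi a ≤ psi b * (b - a))
    (hPle : ∀ a, P a → a ≤ c) (hQge : ∀ a, Q a → c ≤ a) :
    ∀ a b, (P a ∨ Q a) → (P b ∨ Q b) → phi b - phi a ≤ psi b * (b - a) := by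
  rintro a b (ha | ha) (hb | hb)
  · exact h1 a b ha hb
  · have e1 := h2 c b hQ hb
    have e2 := h1 a c ha hP
    have e3 := mul_le_mul_of_nonneg_right (psi_mono (hQge b hb)) (sub_nonneg.2 (hPle a ha))
    nlinarith
  · have e1 := h1 c b hP hb
    have e2 := h2 a c ha hQ
    have e3 := mul_le_mul_of_nonneg_right (psi_mono (hPle b hb)) (sub_nonneg.2 (hQge a ha))
    nlinarith
  · exact h2 a b ha hb

lemma recip_tangent {p q : ℝ} (hp : 0 < p) (hq : 0 < q) : 1/q - 1/p ≤ -(1/q^2) * (q - p) := by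
  have e : -(1/q^2) * (q - p) - (1/q - 1/p) = (q-p)^2/(p*q^2) := by field_simp; ring
  have : 0 ≤ (q-p)^2/(p*q^2) := by positivity
  linarith

lemma phi_tangent (a b : ℝ) : phi b - phi a ≤ psi b * (b - a) := by
  have hhigh : ∀ a b : ℝ, 0 ≤ a → 0 ≤ b → phi b - phi a ≤ psi b * (b - a) := by
    intro a b ha hb
    rw [phi_high ha, phi_high hb, psi_pos hb, psiP_eq hb]
    have e : ∀ x : ℝ, 0 ≤ x → phiP x = x^2/8 + 7/8*(x - 1 + 1/(1+x)) := by
      intro x hx
      unfold phiP
      have : 1 + x ≠ 0 := by positivity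
      field_simp
      ring
    rw [e a ha, e b hb]
    have := recip_tangent (p := 1+a) (q := 1+b) (by positivity) (by positivity)
    nlinarith [sq_nonneg (a-b)]
  have hmid : ∀ a b : ℝ, (a ≤ 0 ∧ -1 ≤ a) → (b ≤ 0 ∧ -1 ≤ b) →
      phi b - phi a ≤ psi b * (b - a) := by
    rintro a b ⟨ha, ha'⟩ ⟨hb, hb'⟩
    rw [phi_mid ha ha', phi_mid hb hb', psi_mid hb hb', psiN_eq (by linarith)]
    have e : ∀ y : ℝ, 0 ≤ y → phiN y = y/2 - 1/4 + 1/4*(1/(1+2*y)) := by
      intro y hy
      unfold phiN
      have : 1 + 2*y ≠ 0 := by positivity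
      field_simp
      ring
    rw [e (-a) (by linarith), e (-b) (by linarith)]
    have := recip_tangent (p := 1+2*(-a)) (q := 1+2*(-b)) (by linarith) (by linarith)
    nlinarith
  have hlow : ∀ a b : ℝ, a ≤ -1 → b ≤ -1 → phi b - phi a ≤ psi b * (b - a) := by
    intro a b ha hb
    rw [phi_low ha, phi_low hb, psi_low hb]
    linarith
  have hneg : ∀ a b : ℝ, a ≤ 0 → b ≤ 0 → phi b - phi a ≤ psi b * (b - a) := by
    intro a b ha hb
    refine tangent_glue (P := fun x => x ≤ -1) (Q := fun x => x ≤ 0 ∧ -1 ≤ x) (-1) le_rfl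
      ⟨by norm_num, le_rfl⟩ hlow hmid (fun x hx => hx) (fun x hx => hx.2) a b ?_ ?_
    · rcases le_total a (-1) with h | h
      · exact Or.inl h
      · exact Or.inr ⟨ha, h⟩
    · rcases le_total b (-1) with h | h
      · exact Or.inl h
      · exact Or.inr ⟨hb, h⟩
  exact tangent_glue (P := fun x => x ≤ 0) (Q := fun x => 0 ≤ x) 0 le_rfl le_rfl hneg hhigh
    (fun x hx => hx) (fun x hx => hx) a b (le_total a 0) (le_total b 0)

lemma trunc_sq_le_phi (u : ℝ) : trunc u ^ 2 ≤ 8 * phi u := by
  unfold trunc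
  rcases le_total u (-1) with h | h
  · rw [max_eq_right h, phi_low h]; nlinarith
  rw [max_eq_left h]
  rcases le_total u 0 with h2 | h2
  · rw [phi_mid h2 h]
    unfold phiN
    have : 0 < 1 + 2*(-u) := by linarith
    rw [← mul_div_assoc, le_div_iff₀ this]
    nlinarith [sq_nonneg u]
  · rw [phi_high h2]
    unfold phiP
    have : 0 ≤ u^2/(1+u) := by positivity
    nlinarith

lemma abs_psi_le (u : ℝ) : |psi u| ≤ 2 * |trunc u| := by
  unfold trunc
  rcases le_total u (-1) with h | h
  · rw [max_eq_right h, psi_low h]; norm_num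
  rw [max_eq_left h]
  rcases le_total u 0 with h2 | h2
  · rw [psi_mid h2 h, abs_neg, abs_of_nonneg (psiN_nonneg (by linarith)), abs_of_nonpos h2]
    unfold psiN
    rw [div_le_iff₀ (by nlinarith)]
    nlinarith [sq_nonneg u, mul_nonneg (neg_nonneg.2 h2) (sq_nonneg u)]
  · rw [psi_pos h2, abs_of_nonneg (psiP_nonneg h2), abs_of_nonneg h2]
    unfold psiP
    rw [div_le_iff₀ (by positivity)]
    nlinarith [pow_nonneg h2 2, pow_nonneg h2 3]

/-- The pointwise part of the drift inequality for the potential. -/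
lemma pointwise_drift {u Z : ℝ} (hu : -1 ≤ u) :
    -u * phi Z + (1 + u) * (psi (trunc Z) * trunc Z - comp (trunc Z))
      ≤ 2 * phi Z + 4 * |u - Z| * trunc Z ^ 2 := by
  unfold trunc
  rcases le_total Z (-1) with h | h
  · rw [max_eq_right h, psi_low le_rfl, phi_low h]
    have hc : comp (-1) = -1 := by norm_num [comp]
    rw [hc]
    have hM : 1 + u ≤ |u - Z| := le_trans (by linarith) (le_abs_self _)
    nlinarith [mul_nonneg (show 0 ≤ 1 + u by linarith) (show 0 ≤ -1 - Z by linarith)]
  rw [max_eq_left h]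
  rcases le_total Z 0 with h2 | h2
  · obtain ⟨y, rfl⟩ : ∃ y, Z = -y := ⟨-Z, by ring⟩
    have hy : 0 ≤ y := by linarith
    have hy1 : y ≤ 1 := by linarith
    rw [phi_mid h2 h, psi_mid h2 h, neg_neg, comp_neg hy]
    have key : -(-y + 2) * phiN y + (1 - y) * (psiN y * y + y^3) ≤ 0 := by
      have e : -(-y + 2) * phiN y + (1 - y) * (psiN y * y + y^3)
          = y^3*((1-y)*(1+2*y)^2 - 3)/(1+2*y)^2 := by
        unfold phiN psiN; field_simp; ring
      rw [e]
      refine div_nonpos_of_nonpos_of_nonneg ?_ (by positivity)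
      refine mul_nonpos_of_nonneg_of_nonpos (by positivity) ?_
      nlinarith [sq_nonneg (2*y-1), mul_nonneg (mul_nonneg hy hy) hy]
    have hcoef : |(-phiN y + psiN y * y + y^3)| ≤ 4 * y^2 := by
      have a1 : 0 ≤ phiN y := by unfold phiN; positivity
      have a2 : phiN y ≤ y^2 := by
        unfold phiN; exact div_le_self (by positivity) (by linarith)
      have a3 : psiN y ≤ 2*y := by
        unfold psiN
        rw [div_le_iff₀ (by positivity)]
        nlinarith [sq_nonneg y, mul_nonneg hy (sq_nonneg y)]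
      have a4 := psiN_nonneg hy
      have a5 : y^3 ≤ y^2 := by nlinarith [mul_nonneg (sq_nonneg y) (show 0 ≤ 1 - y by linarith)]
      have a6 : psiN y * y ≤ 2*y*y := mul_le_mul_of_nonneg_right a3 hy
      have a7 : 0 ≤ psiN y * y := mul_nonneg a4 hy
      have a8 : 0 ≤ y^3 := by positivity
      rw [abs_le]; constructor <;> nlinarith
    have hM : (u - -y) * (-phiN y + psiN y * y + y^3) ≤ |u - -y| * (4 * y^2) := by
      refine (le_abs_self _).trans ?_
      rw [abs_mul]
      exact mul_le_mul_of_nonneg_left hcoef (abs_nonneg _)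
    nlinarith
  · rw [phi_high h2, psi_pos h2, comp_pos h2]
    have key : -(Z + 2) * phiP Z + (1 + Z) * (psiP Z * Z - compP Z) ≤ 0 := by
      have e : -(Z + 2) * phiP Z + (1 + Z) * (psiP Z * Z - compP Z) = -Z^3/64 := by
        unfold phiP psiP compP; field_simp; ring
      rw [e]
      have : 0 ≤ Z^3 := by positivity
      linarith
    have hcoef : |(-phiP Z + (psiP Z * Z - compP Z))| ≤ 4 * Z^2 := by
      have b0 : 0 ≤ Z^2/(1+Z) := by positivity
      have b1 : Z^2/(1+Z) ≤ Z^2 := div_le_self (by positivity) (by linarith)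
      have a3 : psiP Z ≤ 2*Z := by
        unfold psiP
        rw [div_le_iff₀ (by positivity)]
        nlinarith [pow_nonneg h2 2, pow_nonneg h2 3]
      have a6 : psiP Z * Z ≤ 2*Z*Z := mul_le_mul_of_nonneg_right a3 h2
      have a7 : 0 ≤ psiP Z * Z := mul_nonneg (psiP_nonneg h2) h2
      have a8 := compP_nonneg h2
      have a9 : compP Z ≤ Z^2 := by
        unfold compP
        rw [div_le_iff₀ (by positivity)]
        nlinarith [pow_nonneg h2 2, pow_nonneg h2 3]
      unfold phiP
      rw [abs_le]; constructor <;> nlinarith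
    have hM : (u - Z) * (-phiP Z + (psiP Z * Z - compP Z)) ≤ |u - Z| * (4 * Z^2) := by
      refine (le_abs_self _).trans ?_
      rw [abs_mul]
      exact mul_le_mul_of_nonneg_left hcoef (abs_nonneg _)
    nlinarith

end Vale.Agent.P046
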