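import Mathlib
import Vale.Agent.P046.Comb
import Vale.Agent.P046.PhiFun

/-!
# P046: one-step drifts of the observables
-/

open Finset

namespace Vale.Agent.P046

variable {V : Type*} [DecidableEq V] {H : Finset (Finset V)}

/-- The scaled degree. -/
noncomputable def sdeg (H : Finset (Finset V)) (w : ℝ) (A : Finset V) (f : V) : ℝ := w * deg H A f

/-- The martingale part of the scaled degree. -/
noncomputable def mart (H : Finset (Finset V)) (w : ℝ) (A : Finset V) (Z : V → ℝ) (f : V) : ℝ :=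
  sdeg H w A f - 1 - Z f

/-- `w` times the sum over live triangles at `f` of the two other points. -/
noncomputable def avgNb (H : Finset (Finset V)) (w : ℝ) (A : Finset V) (h : V → ℝ) (f : V) : ℝ :=
  w * ∑ T ∈ star H A f, ∑ g ∈ T.erase f, h g

/-- The neighbourhood average of the martingale part. -/
noncomputable def martNb (H : Finset (Finset V)) (w : ℝ) (A : Finset V) (Z : V → ℝ) (f : V) : ℝ :=
  avgNb H w A (mart H w A Z) f

lemma sdeg_nonneg {w : ℝ} (hw : 0 ≤ w) (A : Finset V) (f : V) : 0 ≤ sdeg H w A f :=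
  mul_nonneg hw (deg_nonneg A f)

lemma sq_loss_eq (hH : Linear H) (w : ℝ) (A : Finset V) (f : V) :
    w^2 * loss H A f = avgNb H w A (sdeg H w A) f - 2 * w * sdeg H w A f := by
  unfold avgNb sdeg loss
  simp only [Finset.sum_sub_distrib, ← Finset.mul_sum]
  have e : ∑ T ∈ star H A f, ∑ g ∈ T.erase f, (1:ℝ) = 2 * deg H A f := by
    rw [← sum_nbr hH A f (fun _ => (1:ℝ)), Finset.sum_const, nsmul_eq_mul, mul_one, card_nbr hH]
  rw [e]
  ring

/-- Generic form of the jump of a sum over live points. -/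
lemma jump_sum (G : Finset V → (V → ℝ) → V → ℝ) (σ : St V) :
    jump H (fun τ => ∑ f ∈ τ.1, G τ.1 τ.2 f) σ
      = -(∑ f ∈ σ.1, deg H σ.1 f * G σ.1 σ.2 f)
        + ∑ f ∈ σ.1, ∑ T ∈ (alive H σ.1).filter (fun T => f ∉ T),
            (G (σ.1 \ T) σ.2 f - G σ.1 σ.2 f) := by
  obtain ⟨A, Z⟩ := σ
  simp only [jump]
  rw [sum_deg, Finset.sum_comm' (s := A) (t := fun f => (alive H A).filter (fun T => f ∉ T))
    (t' := alive H A) (s' := fun T => A \ T)]
  · rw [← Finset.sum_neg_distrib, ← Finset.sum_add_distrib]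
    refine Finset.sum_congr rfl ?_
    intro T hT
    have hTA := (mem_alive.1 hT).2
    rw [Finset.sum_sub_distrib]
    have : ∑ f ∈ A \ T, G A Z f + ∑ f ∈ T, G A Z f = ∑ f ∈ A, G A Z f :=
      Finset.sum_sdiff hTA
    linarith
  · intro f T
    simp only [Finset.mem_filter, Finset.mem_sdiff]
    tauto

lemma avgNb_add (w : ℝ) (A : Finset V) (h h' : V → ℝ) (f : V) :
    avgNb H w A (fun g => h g + h' g) f = avgNb H w A h f + avgNb H w A h' f := by
  simp only [avgNb, Finset.sum_add_distrib, mul_add]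

/-- Both points of an incidence are weighted by the scaled degree. -/
lemma sum_avgNb (hH : Linear H) (w : ℝ) (A : Finset V) (h : V → ℝ) :
    ∑ f ∈ A, avgNb H w A h f = 2 * ∑ g ∈ A, sdeg H w A g * h g := by
  simp only [avgNb, ← Finset.mul_sum]
  rw [sum_star_erase hH, ← mul_assoc, mul_comm w 2, mul_assoc, Finset.mul_sum]
  congr 1
  refine Finset.sum_congr rfl ?_
  intro g _
  unfold sdeg; ring

/-! ### Powers -/

lemma pow_tangent_le {x y : ℝ} (hx : 0 ≤ x) (hxy : x ≤ y) :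
    ∀ j : ℕ, y^j - x^j ≤ (j:ℝ) * y^(j-1) * (y - x)
  | 0 => by simp
  | j + 1 => by
    have h := pow_tangent_le hx hxy j
    have hy : 0 ≤ y := hx.trans hxy
    have hp : x^j ≤ y^j := pow_le_pow_left₀ hx hxy j
    have key : y^(j+1) - x^(j+1) = y * (y^j - x^j) + x^j * (y - x) := by ring
    rw [key]
    rcases Nat.eq_zero_or_pos j with rfl | hj
    · simp
    · have e : y * ((j:ℝ) * y^(j-1) * (y-x)) = (j:ℝ) * y^j * (y - x) := by
        conv_rhs => rw [show j = j - 1 + 1 by omega, pow_succ]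
        rw [show j - 1 + 1 = j by omega]
        ring
      have := mul_le_mul_of_nonneg_left h hy
      rw [e] at this
      have h2 := mul_le_mul_of_nonneg_right hp (sub_nonneg.2 hxy)
      simp only [Nat.add_sub_cancel]
      push_cast
      linarith

lemma even_pow_tangent (x y : ℝ) (m : ℕ) :
    y^(2*m+2) - x^(2*m+2) ≤ ((2*m+2 : ℕ):ℝ) * y^(2*m+1) * (y - x) := by
  rcases eq_or_ne y 0 with rfl | hy
  · have : 0 ≤ x^(2*m+2) := by
      rw [show 2*m+2 = 2*(m+1) by ring, pow_mul]; positivity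
    rw [zero_pow (show 2*m+2 ≠ 0 by omega), zero_pow (show 2*m+1 ≠ 0 by omega), mul_zero, zero_mul]
    linarith
  obtain ⟨r, rfl⟩ : ∃ r, x = r * y := ⟨x / y, by field_simp⟩
  have hb : 1 + ((2*m+2 : ℕ):ℝ) * (r - 1) ≤ r^(2*m+2) := by
    rcases le_total (-1) r with h | h
    · simpa using one_add_mul_le_pow (show (-2:ℝ) ≤ r - 1 by linarith) (2*m+2)
    · have h1 : ((2*m+2 : ℕ):ℝ) * (r - 1) ≤ 0 :=
        mul_nonpos_of_nonneg_of_nonpos (by positivity) (by linarith)
      have h2 : (1:ℝ) ≤ r^(2*m+2) := by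
        rw [show 2*m+2 = 2*(m+1) by ring, pow_mul]
        refine one_le_pow₀ ?_
        nlinarith
      linarith
  have hy2 : 0 ≤ y^(2*m+2) := by
    rw [show 2*m+2 = 2*(m+1) by ring, pow_mul]; positivity
  have := mul_le_mul_of_nonneg_left hb hy2
  have e : y^(2*m+1) * (y - r * y) = y^(2*m+2) * (1 - r) := by ring
  rw [mul_assoc, e, mul_pow]
  nlinarith

lemma even_pow_taylor (x y : ℝ) (m : ℕ) :
    (x + y)^(2*m+2) - x^(2*m+2) - ((2*m+2 : ℕ):ℝ) * x^(2*m+1) * y
      ≤ ((2*m+2 : ℕ):ℝ) * ((2*m+1 : ℕ):ℝ) * 2^(2*m) * (x^(2*m) + y^(2*m)) * y^2 := by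
  have h1 := even_pow_tangent x (x + y) m
  have e : x + y - x = y := by ring
  rw [e] at h1
  have h2 : |(x+y)^(2*m+1) - x^(2*m+1)|
      ≤ |y| * ((2*m+1 : ℕ):ℝ) * (max |x+y| |x|)^(2*m) := by
    have := abs_pow_sub_pow_le (x+y) x (2*m+1)
    simpa [e] using this
  have h3 : (max |x+y| |x|)^(2*m) ≤ 2^(2*m) * (x^(2*m) + y^(2*m)) := by
    have hb : max |x+y| |x| ≤ 2 * max |x| |y| := by
      refine max_le ?_ ?_
      · linarith [abs_add_le x y, le_max_left |x| |y|, le_max_right |x| |y|]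
      · linarith [le_max_left |x| |y|, abs_nonneg x]
    refine (pow_le_pow_left₀ (le_trans (abs_nonneg _) (le_max_right _ _)) hb _).trans ?_
    rw [mul_pow]
    refine mul_le_mul_of_nonneg_left ?_ (by positivity)
    rcases max_cases |x| |y| with ⟨he, -⟩ | ⟨he, -⟩ <;> rw [he, pow_mul, sq_abs, ← pow_mul]
    · linarith [show (0:ℝ) ≤ y^(2*m) by rw [pow_mul]; positivity]
    · linarith [show (0:ℝ) ≤ x^(2*m) by rw [pow_mul]; positivity]
  have h4 : ((x+y)^(2*m+1) - x^(2*m+1)) * y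
      ≤ ((2*m+1 : ℕ):ℝ) * (2^(2*m) * (x^(2*m) + y^(2*m))) * y^2 := by
    refine (le_abs_self _).trans ?_
    rw [abs_mul]
    refine (mul_le_mul_of_nonneg_right (h2.trans (mul_le_mul_of_nonneg_left h3 (by positivity)))
      (abs_nonneg y)).trans (le_of_eq ?_)
    rw [show y^2 = |y| * |y| by rw [← sq, sq_abs]]
    ring
  have h5 := mul_le_mul_of_nonneg_left h4 (show (0:ℝ) ≤ ((2*m+2 : ℕ):ℝ) by positivity)
  nlinarith [h1, h5]

/-! ### Number of live points and powers of the scaled degree -/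

lemma jump_card (w : ℝ) (σ : St V) :
    w * jump H (fun τ => (τ.1.card : ℝ)) σ = -∑ f ∈ σ.1, sdeg H w σ.1 f := by
  obtain ⟨A, Z⟩ := σ
  have e : ∀ τ : St V, (τ.1.card : ℝ) = ∑ f ∈ τ.1, (1:ℝ) := fun τ => by simp
  simp only [e]
  rw [jump_sum (fun _ _ _ => (1:ℝ))]
  simp only [sub_self, Finset.sum_const_zero, add_zero, mul_one, mul_neg, Finset.mul_sum, sdeg]

lemma jump_sdeg_pow_le (w : ℝ) (hw : 0 ≤ w) (j : ℕ) (σ : St V) :
    jump H (fun τ => ∑ f ∈ τ.1, sdeg H w τ.1 f ^ j) σ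
      ≤ -∑ f ∈ σ.1, deg H σ.1 f * sdeg H w σ.1 f ^ j := by
  rw [jump_sum (fun A _ f => sdeg H w A f ^ j)]
  have : ∑ f ∈ σ.1, ∑ T ∈ (alive H σ.1).filter (fun T => f ∉ T),
      (sdeg H w (σ.1 \ T) f ^ j - sdeg H w σ.1 f ^ j) ≤ 0 := by
    refine Finset.sum_nonpos fun f _ => Finset.sum_nonpos fun T _ => sub_nonpos.2 ?_
    refine pow_le_pow_left₀ (sdeg_nonneg hw _ _) ?_ j
    unfold sdeg
    refine mul_le_mul_of_nonneg_left ?_ hw
    rw [deg_sdiff]
    linarith [show (0:ℝ) ≤ (hit H σ.1 f T : ℝ) from Nat.cast_nonneg _]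
  linarith

/-- Rate bound for the powers of the scaled degree. -/
lemma drift_sdeg (w : ℝ) (hw : 0 ≤ w) (j : ℕ) (σ : St V) :
    w * ((∑ f ∈ σ.1, 2 * (j:ℝ) * deg H σ.1 f * sdeg H w σ.1 f ^ (j-1))
        + jump H (fun τ => ∑ f ∈ τ.1, sdeg H w τ.1 f ^ j) σ)
      ≤ ∑ f ∈ σ.1, (2 * (j:ℝ) - sdeg H w σ.1 f) * sdeg H w σ.1 f ^ j := by
  have h := mul_le_mul_of_nonneg_left (jump_sdeg_pow_le (H := H) w hw j σ) hw
  rw [mul_add]
  refine (add_le_add le_rfl h).trans (le_of_eq ?_)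
  rw [mul_neg, Finset.mul_sum, Finset.mul_sum, ← Finset.sum_neg_distrib, ← Finset.sum_add_distrib]
  refine Finset.sum_congr rfl ?_
  intro f _
  rcases Nat.eq_zero_or_pos j with rfl | hj
  · simp [sdeg]
  · conv_rhs => rw [show j = j - 1 + 1 by omega, pow_succ]
    conv_lhs => arg 2; rw [show j = j - 1 + 1 by omega, pow_succ]
    rw [show j - 1 + 1 = j by omega]
    unfold sdeg
    ring

/-- Rate bound for the even moments of the martingale part. -/
lemma drift_mart (hH : Linear H) {w : ℝ} (hw : 0 ≤ w) (m : ℕ) (σ : St V) :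
    w * ((∑ f ∈ σ.1, ((2*m+2 : ℕ):ℝ) * mart H w σ.1 σ.2 f ^ (2*m+1) * (w * loss H σ.1 f))
        + jump H (fun τ => ∑ f ∈ τ.1, mart H w τ.1 τ.2 f ^ (2*m+2)) σ)
      ≤ -(∑ f ∈ σ.1, sdeg H w σ.1 f * mart H w σ.1 σ.2 f ^ (2*m+2))
        + 3 * ((2*m+2 : ℕ):ℝ) * ((2*m+1 : ℕ):ℝ) * 2^(2*m) * w *
          ∑ f ∈ σ.1, (mart H w σ.1 σ.2 f ^ (2*m) + (3*w)^(2*m))
            * avgNb H w σ.1 (sdeg H w σ.1) f := by
  obtain ⟨A, Z⟩ := σ
  rw [jump_sum (fun A Z f => mart H w A Z f ^ (2*m+2))]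
  dsimp only
  set C : ℝ := ((2*m+2 : ℕ):ℝ) * ((2*m+1 : ℕ):ℝ) * 2^(2*m) with hC
  have hC0 : 0 ≤ C := by positivity
  have key : ∀ f ∈ A, w * (((2*m+2 : ℕ):ℝ) * mart H w A Z f ^ (2*m+1) * (w * loss H A f))
      + w * ∑ T ∈ (alive H A).filter (fun T => f ∉ T),
          (mart H w (A \ T) Z f ^ (2*m+2) - mart H w A Z f ^ (2*m+2))
      ≤ 3 * C * w * ((mart H w A Z f ^ (2*m) + (3*w)^(2*m)) * avgNb H w A (sdeg H w A) f) := by
    intro f _
    set x := mart H w A Z f with hx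
    have hxp : 0 ≤ x^(2*m) := by rw [pow_mul]; positivity
    set B := x^(2*m) + (3*w)^(2*m) with hB
    have hB0 : 0 ≤ B := by positivity
    have hT : ∀ T ∈ (alive H A).filter (fun T => f ∉ T),
        mart H w (A \ T) Z f ^ (2*m+2) - x^(2*m+2)
          ≤ -(((2*m+2 : ℕ):ℝ) * x^(2*m+1) * (w * (hit H A f T : ℝ)))
            + 3 * C * B * w^2 * (hit H A f T : ℝ) := by
      intro T hT
      obtain ⟨hT1, hT2⟩ := Finset.mem_filter.1 hT
      have hh : (hit H A f T : ℝ) ≤ 3 := by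
        exact_mod_cast hit_le_three hH A (mem_alive.1 hT1).1 hT2
      have hh0 : (0:ℝ) ≤ (hit H A f T : ℝ) := Nat.cast_nonneg _
      have e : mart H w (A \ T) Z f = x + -(w * (hit H A f T : ℝ)) := by
        rw [hx]; unfold mart sdeg; rw [deg_sdiff]; ring
      have ht := even_pow_taylor x (-(w * (hit H A f T : ℝ))) m
      rw [e]
      have he : (-(w * (hit H A f T : ℝ)))^(2*m) ≤ (3*w)^(2*m) := by
        rw [pow_mul, neg_sq, ← pow_mul]
        exact pow_le_pow_left₀ (mul_nonneg hw hh0) (by nlinarith) _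
      have he2 : (-(w * (hit H A f T : ℝ)))^2 ≤ 3 * w^2 * (hit H A f T : ℝ) := by
        nlinarith [mul_nonneg (mul_nonneg (sq_nonneg w) hh0) (sub_nonneg.2 hh)]
      have h2 := mul_le_mul_of_nonneg_left
        (mul_le_mul (add_le_add (le_refl (x^(2*m))) he) he2 (sq_nonneg _) hB0) hC0
      rw [hC] at h2 ⊢
      nlinarith [ht, h2]
    have hsum := Finset.sum_le_sum hT
    rw [Finset.sum_add_distrib, Finset.sum_neg_distrib, ← Finset.mul_sum, ← Finset.mul_sum,
      ← Finset.mul_sum, sum_hit hH A f] at hsum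
    have h3 := mul_le_mul_of_nonneg_left hsum hw
    have h4 : w^2 * loss H A f ≤ avgNb H w A (sdeg H w A) f := by
      rw [sq_loss_eq hH]; nlinarith [mul_nonneg hw (sdeg_nonneg (H := H) hw A f)]
    have h5 := mul_le_mul_of_nonneg_left h4 (show 0 ≤ 3 * C * w * B by positivity)
    nlinarith
  have hs := Finset.sum_le_sum key
  rw [Finset.sum_add_distrib, ← Finset.mul_sum, ← Finset.mul_sum, ← Finset.mul_sum] at hs
  have e2 : w * ∑ f ∈ A, deg H A f * mart H w A Z f ^ (2*m+2)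
      = ∑ f ∈ A, sdeg H w A f * mart H w A Z f ^ (2*m+2) := by
    rw [Finset.mul_sum]; exact Finset.sum_congr rfl fun f _ => by unfold sdeg; ring
  rw [hC] at hs
  nlinarith [hs, e2]

/-- Rate bound for the potential of the compensator. -/
lemma drift_phi (hH : Linear H) {w : ℝ} (hw : 0 ≤ w) (σ : St V) :
    w * ((∑ f ∈ σ.1, psi (σ.2 f) * vel H w σ.1 f)
        + jump H (fun τ => ∑ f ∈ τ.1, phi (τ.2 f)) σ)
      ≤ (∑ f ∈ σ.1, phi (σ.2 f))
        + 4 * (∑ f ∈ σ.1, |mart H w σ.1 σ.2 f| * trunc (σ.2 f) ^ 2)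
        + (∑ f ∈ σ.1, |psi (σ.2 f)| * |martNb H w σ.1 σ.2 f|)
        + (∑ f ∈ σ.1, avgNb H w σ.1
            (fun g => 2 * |trunc (σ.2 f)| * |mart H w σ.1 σ.2 g| * trunc (σ.2 g) ^ 2) f)
        + 2 * w * ∑ f ∈ σ.1, sdeg H w σ.1 f * |psi (σ.2 f)| := by
  obtain ⟨A, Z⟩ := σ
  rw [jump_sum (fun _ Z f => phi (Z f))]
  simp only [sub_self, Finset.sum_const_zero, add_zero]
  set a := sdeg H w A with ha
  set M := mart H w A Z with hM
  set t : V → ℝ := fun g => trunc (Z g) with ht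
  set e : V → ℝ := fun g => t g - Z g with he
  -- the triangle inequality
  have htri : -(∑ f ∈ A, psi (Z f) * avgNb H w A t f)
      ≤ ∑ f ∈ A, a f * (psi (t f) * t f - comp (t f)) := by
    have l : ∑ f ∈ A, psi (Z f) * avgNb H w A t f
        = w * ∑ T ∈ alive H A, ∑ f ∈ T, psi (Z f) * ∑ g ∈ T.erase f, t g := by
      rw [← sum_star_swap, Finset.mul_sum]
      refine Finset.sum_congr rfl fun f _ => ?_
      simp only [avgNb, Finset.mul_sum]
      exact Finset.sum_congr rfl fun T _ => Finset.sum_congr rfl fun g _ => by ring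
    have r : ∑ f ∈ A, a f * (psi (t f) * t f - comp (t f))
        = w * ∑ T ∈ alive H A, ∑ f ∈ T, (psi (t f) * t f - comp (t f)) := by
      rw [← sum_deg, Finset.mul_sum]
      exact Finset.sum_congr rfl fun f _ => by simp only [ha, sdeg]; ring
    rw [l, r, ← mul_neg, ← Finset.sum_neg_distrib]
    refine mul_le_mul_of_nonneg_left (Finset.sum_le_sum fun T hT => ?_) hw
    obtain ⟨x, y, z, hxy, hxz, hyz, rfl⟩ :=
      Finset.card_eq_three.1 (hH.card3 T (mem_alive.1 hT).1)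
    have ex : ({x, y, z} : Finset V).erase x = {y, z} :=
      Finset.erase_insert (by simp [hxy, hxz])
    have ey : ({x, y, z} : Finset V).erase y = {x, z} := by
      rw [Finset.insert_comm]; exact Finset.erase_insert (by simp [hxy.symm, hyz])
    have ez : ({x, y, z} : Finset V).erase z = {x, y} := by
      rw [Finset.pair_comm y z, Finset.insert_comm]
      exact Finset.erase_insert (by simp [hxz.symm, hyz.symm])
    simp only [Finset.sum_insert (show x ∉ ({y, z} : Finset V) by simp [hxy, hxz]),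
      Finset.sum_insert (show y ∉ ({z} : Finset V) by simp [hyz]), Finset.sum_singleton,
      ex, ey, ez, Finset.sum_insert (show x ∉ ({z} : Finset V) by simp [hxz]),
      Finset.sum_insert (show x ∉ ({y} : Finset V) by simp [hxy])]
    have tb : ∀ g, -1 ≤ t g := fun g => le_max_right _ _
    have h := triangle_ineq (tb x) (tb y) (tb z)
    simp only [ht, psi_trunc] at h ⊢
    linarith
  -- per point
  have hdec : ∀ f ∈ A, avgNb H w A (fun g => a g - 1) f
      = avgNb H w A t f + martNb H w A Z f - avgNb H w A e f := by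
    intro f _
    simp only [martNb, avgNb, ← mul_add, ← mul_sub, ← Finset.sum_add_distrib,
      ← Finset.sum_sub_distrib]
    congr 1
    refine Finset.sum_congr rfl fun T _ => Finset.sum_congr rfl fun g _ => ?_
    simp only [he, ha, mart]; ring
  have hv : ∀ f ∈ A, w * vel H w A f
      = -avgNb H w A (fun g => a g - 1) f + 2 * w * a f := by
    intro f _
    have h1 := sq_loss_eq hH w A f
    have h2 : avgNb H w A (fun g => a g - 1) f = avgNb H w A a f - 2 * a f := by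
      simp only [avgNb, Finset.sum_sub_distrib, mul_sub, ha, sdeg]
      rw [← sum_nbr hH A f (fun _ => (1:ℝ)), Finset.sum_const, nsmul_eq_mul, mul_one, card_nbr hH]
      ring
    rw [← ha] at h1
    rw [h2]
    unfold vel
    simp only [ha, sdeg] at h1 ⊢
    nlinarith [h1]
  have he_le : ∀ g ∈ A, 0 ≤ e g ∧ e g ≤ |M g| * t g ^ 2 := by
    intro g _
    simp only [he, ht, trunc]
    rcases le_total (Z g) (-1) with h | h
    · rw [max_eq_right h]
      refine ⟨by linarith, ?_⟩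
      have : 0 ≤ a g := sdeg_nonneg hw _ _
      have h2 : -1 - Z g ≤ |M g| := le_trans (by simp only [hM, mart, ← ha]; linarith) (le_abs_self _)
      simpa using h2
    · rw [max_eq_left h, sub_self]
      exact ⟨le_rfl, by positivity⟩
  have hterm : ∀ f ∈ A, psi (Z f) * avgNb H w A e f
      ≤ avgNb H w A (fun g => 2 * |t f| * |M g| * t g ^ 2) f := by
    intro f _
    simp only [avgNb]
    rw [mul_left_comm]
    refine mul_le_mul_of_nonneg_left ?_ hw
    rw [Finset.mul_sum]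
    refine Finset.sum_le_sum fun T hT => ?_
    rw [Finset.mul_sum]
    refine Finset.sum_le_sum fun g hg => ?_
    obtain ⟨h0, h1⟩ := he_le g ((mem_star.1 hT).2.1 (Finset.mem_of_mem_erase hg))
    calc psi (Z f) * e g ≤ |psi (Z f)| * e g := mul_le_mul_of_nonneg_right (le_abs_self _) h0
      _ ≤ (2 * |t f|) * (|M g| * t g ^ 2) := mul_le_mul (abs_psi_le _) h1 h0 (by positivity)
      _ = _ := by ring
  have hpt : ∀ f ∈ A, -(a f * phi (Z f)) + a f * (psi (t f) * t f - comp (t f))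
      ≤ phi (Z f) + 4 * (|M f| * t f ^ 2) := by
    intro f _
    have h0 : 0 ≤ a f := sdeg_nonneg hw _ _
    have := pointwise_drift (u := a f - 1) (Z := Z f) (by linarith)
    simp only [ht] at this ⊢
    have e1 : a f - 1 - Z f = M f := by simp only [hM, mart, ha]
    rw [e1] at this
    nlinarith
  have s1 : w * ∑ f ∈ A, psi (Z f) * vel H w A f
      = -(∑ f ∈ A, psi (Z f) * avgNb H w A t f) - (∑ f ∈ A, psi (Z f) * martNb H w A Z f)
        + (∑ f ∈ A, psi (Z f) * avgNb H w A e f) + 2 * w * ∑ f ∈ A, a f * psi (Z f) := by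
    rw [Finset.mul_sum, Finset.mul_sum, ← Finset.sum_neg_distrib, ← Finset.sum_sub_distrib,
      ← Finset.sum_add_distrib, ← Finset.sum_add_distrib]
    refine Finset.sum_congr rfl fun f hf => ?_
    rw [mul_left_comm, hv f hf, hdec f hf]; ring
  have s2 : w * ∑ f ∈ A, deg H A f * phi (Z f) = ∑ f ∈ A, a f * phi (Z f) := by
    rw [Finset.mul_sum]; exact Finset.sum_congr rfl fun f _ => by simp only [ha, sdeg]; ring
  have p1 := Finset.sum_le_sum hpt
  rw [Finset.sum_add_distrib, Finset.sum_neg_distrib, Finset.sum_add_distrib,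
    ← Finset.mul_sum] at p1
  have p2 : -(∑ f ∈ A, psi (Z f) * martNb H w A Z f)
      ≤ ∑ f ∈ A, |psi (Z f)| * |martNb H w A Z f| := by
    rw [← Finset.sum_neg_distrib]
    exact Finset.sum_le_sum fun f _ => by rw [← abs_mul]; exact neg_le_abs _
  have p3 := Finset.sum_le_sum hterm
  have p4 : ∑ f ∈ A, a f * psi (Z f) ≤ ∑ f ∈ A, a f * |psi (Z f)| :=
    Finset.sum_le_sum fun f _ =>
      mul_le_mul_of_nonneg_left (le_abs_self _) (sdeg_nonneg hw _ _)
  have p4' := mul_le_mul_of_nonneg_left p4 (show 0 ≤ 2 * w by linarith)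
  nlinarith [htri, p1, p2, p3, p4', s1, s2]

end Vale.Agent.P046
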