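import Mathlib
import Vale.Agent.P046.Comb

/-!
# P046: quads of triangles

A quad is a cycle `f g z g'` of four live triangles covering eight points. Squared codegrees are
bounded by quads, and the drift of the number of quads is bounded.
-/

open Finset

namespace Vale.Agent.P046

variable {V : Type*} [DecidableEq V]

/-- The union of the triangles through two points. -/
def tri (H : Finset (Finset V)) (f g : V) : Finset V :=
  (H.filter (fun T => f ∈ T ∧ g ∈ T)).biUnion id

/-- The union of the four triangles of `q = (f, z, g, g')`. -/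
def quadSupp (H : Finset (Finset V)) (q : V × V × V × V) : Finset V :=
  tri H q.1 q.2.2.1 ∪ tri H q.1 q.2.2.2 ∪ tri H q.2.1 q.2.2.1 ∪ tri H q.2.1 q.2.2.2

/-- The quads with given opposite points `f` and `z`. -/
def quadsAt (H : Finset (Finset V)) (A : Finset V) (f z : V) : Finset (V × V) :=
  (common H A f z ×ˢ common H A f z).filter
    (fun p => p.1 ≠ p.2 ∧ (quadSupp H (f, z, p.1, p.2)).card = 8)

/-- All live quads. -/
def quads (H : Finset (Finset V)) (A : Finset V) : Finset (V × V × V × V) :=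
  (A ×ˢ (A ×ˢ (A ×ˢ A))).filter
    (fun q => q.1 ≠ q.2.1 ∧ q.2.2 ∈ quadsAt H A q.1 q.2.1)

/-- The number of live quads. -/
noncomputable def quadCount (H : Finset (Finset V)) (A : Finset V) : ℝ := ((quads H A).card : ℝ)

variable {H : Finset (Finset V)}

lemma tri_comm (f g : V) : tri H f g = tri H g f := by
  unfold tri
  congr 1
  exact Finset.filter_congr fun T _ => and_comm

lemma tri_eq (hH : Linear H) {T : Finset V} {f g : V} (hT : T ∈ H) (hne : f ≠ g) (hf : f ∈ T)
    (hg : g ∈ T) : tri H f g = T := by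
  ext x
  simp only [tri, Finset.mem_biUnion, Finset.mem_filter, id]
  constructor
  · rintro ⟨S, ⟨hS, hfS, hgS⟩, hx⟩
    exact hH.eq_of_two hS hT hne hfS hgS hf hg ▸ hx
  · exact fun hx => ⟨T, ⟨hT, hf, hg⟩, hx⟩

lemma exists_of_mem_tri {f g x : V} (hx : x ∈ tri H f g) : ∃ T ∈ H, f ∈ T ∧ g ∈ T := by
  simp only [tri, Finset.mem_biUnion, Finset.mem_filter] at hx
  obtain ⟨T, ⟨a, b, c⟩, -⟩ := hx
  exact ⟨T, a, b, c⟩

lemma card_erase_tri (hH : Linear H) {f g : V} (hne : f ≠ g) :
    ((tri H f g).erase f).card ≤ 2 := by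
  rcases (tri H f g).eq_empty_or_nonempty with h | ⟨x, hx⟩
  · simp [h]
  · obtain ⟨T, a, b, c⟩ := exists_of_mem_tri hx
    rw [tri_eq hH a hne b c, Finset.card_erase_of_mem b, hH.card3 T a]

lemma nbr_spec (hH : Linear H) {A : Finset V} {f g : V} (h : g ∈ nbr H A f) :
    g ≠ f ∧ tri H f g ∈ star H A f ∧ g ∈ tri H f g := by
  obtain ⟨h1, T, hT, hgT⟩ := mem_nbr.1 h
  obtain ⟨a, -, c⟩ := mem_star.1 hT
  rw [tri_eq hH a (Ne.symm h1) c hgT]
  exact ⟨h1, hT, hgT⟩

lemma mem_quadsAt {A : Finset V} {f z g g' : V} :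
    (g, g') ∈ quadsAt H A f z ↔ g ∈ common H A f z ∧ g' ∈ common H A f z ∧ g ≠ g' ∧
      (quadSupp H (f, z, g, g')).card = 8 := by
  simp [quadsAt, and_assoc]

lemma mem_quads {A : Finset V} {f z g g' : V} :
    (f, z, g, g') ∈ quads H A ↔ f ∈ A ∧ z ∈ A ∧ f ≠ z ∧ g ∈ common H A f z ∧
      g' ∈ common H A f z ∧ g ≠ g' ∧ (quadSupp H (f, z, g, g')).card = 8 := by
  simp only [quads, Finset.mem_filter, Finset.mem_product, mem_quadsAt]
  constructor
  · rintro ⟨⟨a, b, -, -⟩, h⟩; exact ⟨a, b, h⟩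
  · rintro ⟨a, b, c, d, e, h⟩
    exact ⟨⟨a, b, nbr_sub A f (Finset.mem_inter.1 d).1, nbr_sub A f (Finset.mem_inter.1 e).1⟩,
      c, d, e, h⟩

/-! ### Squared codegrees -/

/-- The points `g'` that can form a degenerate pair with `g`. -/
def badSet (H : Finset (Finset V)) (f z g : V) : Finset V :=
  (tri H f g).erase f ∪ (tri H z g).erase z ∪ (tri H f z).erase f ∪
    (((tri H f g).erase f).erase g).biUnion (fun w => (tri H z w).erase z) ∪
    (((tri H z g).erase z).erase g).biUnion (fun w => (tri H f w).erase f)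

lemma card_badSet (hH : Linear H) {A : Finset V} {f z g : V} (hg : g ∈ common H A f z)
    (hfz : f ≠ z) (hz : z ∉ tri H f g) (hf : f ∉ tri H z g) : (badSet H f z g).card ≤ 10 := by
  obtain ⟨h1, h1'⟩ := Finset.mem_inter.1 hg
  obtain ⟨e1, e2, e3⟩ := nbr_spec hH h1
  obtain ⟨e1', e2', e3'⟩ := nbr_spec hH h1'
  have c1 := card_erase_tri hH (Ne.symm e1)
  have c2 := card_erase_tri hH (Ne.symm e1')
  have c3 := card_erase_tri hH hfz
  have one : ∀ {p : V}, g ≠ p → g ∈ tri H p g →
      ((tri H p g).erase p).card ≤ 2 → (((tri H p g).erase p).erase g).card ≤ 1 := by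
    intro p hne hmem hc
    rw [Finset.card_erase_of_mem (Finset.mem_erase.2 ⟨hne, hmem⟩)]
    omega
  have c4 : ((((tri H f g).erase f).erase g).biUnion (fun w => (tri H z w).erase z)).card ≤ 2 := by
    refine (Finset.card_biUnion_le_card_mul _ _ 2 fun w hw => card_erase_tri hH ?_).trans
      (le_trans (Nat.mul_le_mul_right 2 (one e1 e3 c1)) le_rfl)
    intro e
    exact hz (e ▸ (Finset.mem_erase.1 (Finset.mem_erase.1 hw).2).2)
  have c5 : ((((tri H z g).erase z).erase g).biUnion (fun w => (tri H f w).erase f)).card ≤ 2 := by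
    refine (Finset.card_biUnion_le_card_mul _ _ 2 fun w hw => card_erase_tri hH ?_).trans
      (le_trans (Nat.mul_le_mul_right 2 (one e1' e3' c2)) le_rfl)
    intro e
    exact hf (e ▸ (Finset.mem_erase.1 (Finset.mem_erase.1 hw).2).2)
  unfold badSet
  refine (Finset.card_union_le _ _).trans ?_
  refine le_trans (Nat.add_le_add ((Finset.card_union_le _ _).trans (Nat.add_le_add
    ((Finset.card_union_le _ _).trans (Nat.add_le_add
      ((Finset.card_union_le _ _).trans (Nat.add_le_add c1 c2)) c3)) c4)) c5) ?_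
  norm_num

lemma quad_card_eight (hH : Linear H) {A : Finset V} {f z g g' : V} (hfz : f ≠ z)
    (hg : g ∈ common H A f z) (hg' : g' ∈ common H A f z) (hz : z ∉ tri H f g)
    (hb : g' ∉ badSet H f z g) : g ≠ g' ∧ (quadSupp H (f, z, g, g')).card = 8 := by
  obtain ⟨h1, h2⟩ := Finset.mem_inter.1 hg
  obtain ⟨h3, h4⟩ := Finset.mem_inter.1 hg'
  obtain ⟨a1, b1, c1⟩ := nbr_spec hH h1
  obtain ⟨a2, b2, c2⟩ := nbr_spec hH h2
  obtain ⟨a3, b3, c3⟩ := nbr_spec hH h3
  obtain ⟨a4, b4, c4⟩ := nbr_spec hH h4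
  obtain ⟨t1, -, f1⟩ := mem_star.1 b1
  obtain ⟨t2, -, z2⟩ := mem_star.1 b2
  obtain ⟨t3, -, f3⟩ := mem_star.1 b3
  obtain ⟨t4, -, z4⟩ := mem_star.1 b4
  simp only [badSet, Finset.mem_union, not_or, Finset.mem_erase, Finset.mem_biUnion] at hb
  obtain ⟨⟨⟨⟨n1, n2⟩, n3⟩, n4⟩, n5⟩ := hb
  have g'1 : g' ∉ tri H f g := fun h => n1 ⟨a3, h⟩
  have g'2 : g' ∉ tri H z g := fun h => n2 ⟨a4, h⟩
  have g'fz : g' ∉ tri H f z := fun h => n3 ⟨a3, h⟩
  have hgg : g ≠ g' := fun e => g'1 (e ▸ c1)
  set T1 := tri H f g with hT1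
  set T2 := tri H z g with hT2
  set T3 := tri H f g' with hT3
  set T4 := tri H z g' with hT4
  have f2 : f ∉ T2 := fun h => hz (by
    rw [hT1, tri_eq hH t2 (Ne.symm a1) h c2]; exact z2)
  have z3 : z ∉ T3 := fun h => g'fz (by rw [tri_eq hH t3 hfz f3 h]; exact c3)
  have f4 : f ∉ T4 := fun h => g'fz (by rw [tri_eq hH t4 hfz h z4]; exact c4)
  have g4 : g ∉ T4 := fun h => g'2 (by rw [hT2, tri_eq hH t4 (Ne.symm a2) z4 h]; exact c4)
  have g3 : g ∉ T3 := fun h => g'1 (by rw [hT1, tri_eq hH t3 (Ne.symm a1) f3 h]; exact c3)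
  have i12 : T1 ∩ T2 = {g} := by
    ext x
    simp only [Finset.mem_inter, Finset.mem_singleton]
    refine ⟨fun ⟨x1, x2⟩ => by_contra fun hx => hz ?_, fun e => e ▸ ⟨c1, c2⟩⟩
    rw [hH.eq_of_two t1 t2 hx x1 c1 x2 c2]
    exact z2
  have i34 : T3 ∩ T4 = {g'} := by
    ext x
    simp only [Finset.mem_inter, Finset.mem_singleton]
    refine ⟨fun ⟨x1, x2⟩ => by_contra fun hx => z3 ?_, fun e => e ▸ ⟨c3, c4⟩⟩
    rw [hH.eq_of_two t3 t4 hx x1 c3 x2 c4]
    exact z4
  have p13 : ∀ x, x ∈ T1 → x ∈ T3 → x = f := fun x x1 x3 => by_contra fun hx => g'1 (by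
    rw [hH.eq_of_two t1 t3 hx x1 f1 x3 f3]; exact c3)
  have p24 : ∀ x, x ∈ T2 → x ∈ T4 → x = z := fun x x1 x3 => by_contra fun hx => g'2 (by
    rw [hH.eq_of_two t2 t4 hx x1 z2 x3 z4]; exact c4)
  have p14 : ∀ x, x ∈ T1 → x ∈ T4 → False := fun x x1 x4 => by
    have hxf : x ≠ f := fun e => f4 (e ▸ x4)
    have hxg : x ≠ g := fun e => g4 (e ▸ x4)
    refine n4 ⟨x, ⟨hxg, hxf, x1⟩, a4, ?_⟩
    rw [tri_eq hH t4 (fun e : z = x => hz (e ▸ x1)) z4 x4]
    exact c4
  have p23 : ∀ x, x ∈ T2 → x ∈ T3 → False := fun x x1 x4 => by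
    have hxf : x ≠ z := fun e => z3 (e ▸ x4)
    have hxg : x ≠ g := fun e => g3 (e ▸ x4)
    refine n5 ⟨x, ⟨hxg, hxf, x1⟩, a3, ?_⟩
    rw [tri_eq hH t3 (fun e : f = x => f2 (e ▸ x1)) f3 x4]
    exact c3
  have i : (T1 ∪ T2) ∩ (T3 ∪ T4) = {f, z} := by
    ext x
    simp only [Finset.mem_inter, Finset.mem_union, Finset.mem_insert, Finset.mem_singleton]
    constructor
    · rintro ⟨h | h, h' | h'⟩
      · exact Or.inl (p13 x h h')
      · exact (p14 x h h').elim
      · exact (p23 x h h').elim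
      · exact Or.inr (p24 x h h')
    · rintro (rfl | rfl)
      · exact ⟨Or.inl f1, Or.inl f3⟩
      · exact ⟨Or.inr z2, Or.inr z4⟩
  have e : quadSupp H (f, z, g, g') = (T1 ∪ T2) ∪ (T3 ∪ T4) := by
    show T1 ∪ T3 ∪ T2 ∪ T4 = _
    rw [Finset.union_assoc T1 T3 T2, Finset.union_comm T3 T2, ← Finset.union_assoc T1,
      Finset.union_assoc _ T3]
  have u := Finset.card_union_add_card_inter (T1 ∪ T2) (T3 ∪ T4)
  have u12 := Finset.card_union_add_card_inter T1 T2
  have u34 := Finset.card_union_add_card_inter T3 T4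
  rw [i, Finset.card_pair hfz] at u
  rw [i12, Finset.card_singleton, hH.card3 T1 t1, hH.card3 T2 t2] at u12
  rw [i34, Finset.card_singleton, hH.card3 T3 t3, hH.card3 T4 t4] at u34
  exact ⟨hgg, by rw [e]; omega⟩

/-- Q1: a squared codegree is at most linear plus the quads. -/
lemma codeg_sq_le (hH : Linear H) {A : Finset V} {f z : V} (hfz : f ≠ z) :
    codeg H A f z ^ 2 ≤ 12 * codeg H A f z + ((quadsAt H A f z).card : ℝ) := by
  classical
  set C := common H A f z with hC
  have hsub : C ×ˢ C ⊆ quadsAt H A f z ∪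
      ((C.filter (fun g => z ∈ tri H f g)) ×ˢ C ∪
        (C.filter (fun g => z ∉ tri H f g)).biUnion (fun g => (badSet H f z g).image (fun x => (g, x)))) := by
    rintro ⟨g, g'⟩ hp
    obtain ⟨hg, hg'⟩ := Finset.mem_product.1 hp
    by_cases hz : z ∈ tri H f g
    · exact Finset.mem_union_right _ (Finset.mem_union_left _
        (Finset.mem_product.2 ⟨Finset.mem_filter.2 ⟨hg, hz⟩, hg'⟩))
    · by_cases hb : g' ∈ badSet H f z g
      · exact Finset.mem_union_right _ (Finset.mem_union_right _ (Finset.mem_biUnion.2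
          ⟨g, Finset.mem_filter.2 ⟨hg, hz⟩, Finset.mem_image.2 ⟨g', hb, rfl⟩⟩))
      · exact Finset.mem_union_left _
          (mem_quadsAt.2 ⟨hg, hg', quad_card_eight hH hfz hg hg' hz hb⟩)
  have hspecial : (C.filter (fun g => z ∈ tri H f g)).card ≤ 1 := by
    refine Finset.card_le_one.2 fun g hg g1 hg1 => ?_
    obtain ⟨hgC, hzg⟩ := Finset.mem_filter.1 hg
    obtain ⟨hg1C, hzg1⟩ := Finset.mem_filter.1 hg1
    obtain ⟨x1, x2, x3⟩ := nbr_spec hH (Finset.mem_inter.1 hgC).1
    obtain ⟨y1, y2, y3⟩ := nbr_spec hH (Finset.mem_inter.1 hg1C).1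
    obtain ⟨xH, -, xf⟩ := mem_star.1 x2
    obtain ⟨yH, -, yf⟩ := mem_star.1 y2
    have e := hH.eq_of_two xH yH hfz xf hzg yf hzg1
    by_contra hne
    have hgz := (nbr_spec hH (Finset.mem_inter.1 hgC).2).1
    have hg1z := (nbr_spec hH (Finset.mem_inter.1 hg1C).2).1
    have h4 : ({f, z, g, g1} : Finset V) ⊆ tri H f g := by
      simp only [Finset.insert_subset_iff, Finset.singleton_subset_iff]
      exact ⟨xf, hzg, x3, e ▸ y3⟩
    have := Finset.card_le_card h4
    rw [hH.card3 _ xH, Finset.card_insert_of_notMem (by simp [hfz, Ne.symm x1, Ne.symm y1]),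
      Finset.card_insert_of_notMem (by simp [Ne.symm hgz, Ne.symm hg1z]),
      Finset.card_pair hne] at this
    omega
  have hbad : ((C.filter (fun g => z ∉ tri H f g)).biUnion
      (fun g => (badSet H f z g).image (fun x => (g, x)))).card ≤ C.card * 10 := by
    refine (Finset.card_biUnion_le_card_mul _ _ 10 fun g hg => ?_).trans
      (Nat.mul_le_mul_right _ (Finset.card_filter_le _ _))
    obtain ⟨hgC, hz⟩ := Finset.mem_filter.1 hg
    refine Finset.card_image_le.trans (card_badSet hH hgC hfz hz fun h => hz ?_)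
    obtain ⟨x1, x2, x3⟩ := nbr_spec hH (Finset.mem_inter.1 hgC).1
    obtain ⟨y1, y2, y3⟩ := nbr_spec hH (Finset.mem_inter.1 hgC).2
    obtain ⟨yH, -, yz⟩ := mem_star.1 y2
    rw [tri_eq hH yH (Ne.symm x1) h y3]
    exact yz
  have := (Finset.card_le_card hsub).trans ((Finset.card_union_le _ _).trans
    (Nat.add_le_add_left ((Finset.card_union_le _ _).trans (Nat.add_le_add
      ((Finset.card_product _ _).le.trans (Nat.mul_le_mul_right _ hspecial)) hbad)) _))
  rw [Finset.card_product] at this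
  have : C.card * C.card ≤ 12 * C.card + (quadsAt H A f z).card := by omega
  unfold codeg
  rw [← hC, sq]
  exact_mod_cast this

/-! ### Drift -/

lemma quadSupp_subset (hH : Linear H) {A : Finset V} {q : V × V × V × V} (hq : q ∈ quads H A) :
    quadSupp H q ⊆ A := by
  obtain ⟨f, z, g, g'⟩ := q
  obtain ⟨-, -, -, hg, hg', -, -⟩ := mem_quads.1 hq
  obtain ⟨h1, h2⟩ := Finset.mem_inter.1 hg
  obtain ⟨h3, h4⟩ := Finset.mem_inter.1 hg'
  refine Finset.union_subset (Finset.union_subset (Finset.union_subset ?_ ?_) ?_) ?_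
  · exact (mem_star.1 (nbr_spec hH h1).2.1).2.1
  · exact (mem_star.1 (nbr_spec hH h3).2.1).2.1
  · exact (mem_star.1 (nbr_spec hH h2).2.1).2.1
  · exact (mem_star.1 (nbr_spec hH h4).2.1).2.1

lemma common_mono {A B : Finset V} (hAB : A ⊆ B) (f z : V) :
    common H A f z ⊆ common H B f z := by
  have hn : ∀ f, nbr H A f ⊆ nbr H B f := fun f g hg => by
    obtain ⟨h1, T, hT, hgT⟩ := mem_nbr.1 hg
    obtain ⟨a, b, c⟩ := mem_star.1 hT
    exact mem_nbr.2 ⟨h1, T, mem_star.2 ⟨a, b.trans hAB, c⟩, hgT⟩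
  exact Finset.inter_subset_inter (hn f) (hn z)

lemma quads_sdiff_subset (hH : Linear H) (A T : Finset V) :
    quads H (A \ T) ⊆ (quads H A).filter (fun q => Disjoint (quadSupp H q) T) := by
  intro q hq
  have h8 := quadSupp_subset hH hq
  obtain ⟨f, z, g, g'⟩ := q
  obtain ⟨a, b, c, d, e, k, l⟩ := mem_quads.1 hq
  exact Finset.mem_filter.2 ⟨mem_quads.2 ⟨(Finset.mem_sdiff.1 a).1, (Finset.mem_sdiff.1 b).1, c,
    common_mono Finset.sdiff_subset _ _ d, common_mono Finset.sdiff_subset _ _ e, k, l⟩,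
    (Finset.subset_sdiff.1 h8).2⟩

lemma quad_supp_card {A : Finset V} {q : V × V × V × V} (hq : q ∈ quads H A) :
    (quadSupp H q).card = 8 := by
  obtain ⟨f, z, g, g'⟩ := q
  exact (mem_quads.1 hq).2.2.2.2.2.2

/-- Triangles meeting a set of eight points are at least the degree sum minus `28`. -/
lemma meet_eight (hH : Linear H) (A : Finset V) {S : Finset V} (h8 : S.card = 8) :
    ∑ x ∈ S, deg H A x ≤ (((alive H A).filter (fun T => ¬ Disjoint S T)).card : ℝ) + 28 := by
  classical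
  have e : ∑ x ∈ S, (star H A x).card = ∑ T ∈ alive H A, (S ∩ T).card := by
    simp only [star, Finset.card_filter, ← Finset.filter_mem_eq_inter (s := S)]
    exact Finset.sum_comm
  have hp : ∑ T ∈ alive H A, (S ∩ T).offDiag.card ≤ 56 := by
    rw [← Finset.card_biUnion]
    · refine (Finset.card_le_card (Finset.biUnion_subset.2 fun T _ =>
        Finset.offDiag_mono Finset.inter_subset_left)).trans ?_
      rw [Finset.offDiag_card, h8]
    · intro T hT T' hT' hne
      rw [Function.onFun, Finset.disjoint_left]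
      rintro ⟨x, y⟩ h h'
      simp only [Finset.mem_offDiag, Finset.mem_inter] at h h'
      exact hne (hH.eq_of_two (mem_alive.1 hT).1 (mem_alive.1 hT').1 h.2.2 h.1.2 h.2.1.2 h'.1.2
        h'.2.1.2)
  have hpt : ∀ T ∈ alive H A, 2 * (S ∩ T).card ≤
      2 * (if ¬ Disjoint S T then 1 else 0) + (S ∩ T).offDiag.card := fun T _ => by
    rw [Finset.offDiag_card]
    by_cases hd : Disjoint S T
    · simp [Finset.disjoint_iff_inter_eq_empty.1 hd]
    · rw [if_pos hd]
      have h1 : 1 ≤ (S ∩ T).card :=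
        Finset.card_pos.2 (Finset.nonempty_iff_ne_empty.2 fun h =>
          hd (Finset.disjoint_iff_inter_eq_empty.2 h))
      rcases Nat.lt_or_ge (S ∩ T).card 3 with h | h
      · interval_cases hk : (S ∩ T).card <;> omega
      · have : 3 * (S ∩ T).card ≤ (S ∩ T).card * (S ∩ T).card := Nat.mul_le_mul_right _ h
        generalize (S ∩ T).card * (S ∩ T).card = m at this ⊢
        omega
  have hs := Finset.sum_le_sum hpt
  rw [← Finset.mul_sum, ← e, Finset.sum_add_distrib, ← Finset.mul_sum, ← Finset.card_filter] at hs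
  have : ∑ x ∈ S, (star H A x).card ≤
      ((alive H A).filter (fun T => ¬ Disjoint S T)).card + 28 := by omega
  unfold deg
  exact_mod_cast this

/-- Q2: the drift of the number of quads. -/
lemma jump_quad (hH : Linear H) (A : Finset V) :
    ∑ T ∈ alive H A, (quadCount H (A \ T) - quadCount H A) ≤
      28 * quadCount H A - ∑ q ∈ quads H A, ∑ x ∈ quadSupp H q, deg H A x := by
  classical
  have h1 : ∀ T ∈ alive H A, quadCount H (A \ T) - quadCount H A ≤
      -∑ q ∈ quads H A, (if ¬ Disjoint (quadSupp H q) T then (1:ℝ) else 0) := by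
    intro T _
    have h := Finset.card_le_card (quads_sdiff_subset hH A T)
    have h2 := Finset.card_filter_add_card_filter_not (fun q => Disjoint (quadSupp H q) T)
      (s := quads H A)
    rw [Finset.sum_boole]
    unfold quadCount
    have hh : (quads H (A \ T)).card +
        ((quads H A).filter (fun q => ¬ Disjoint (quadSupp H q) T)).card ≤ (quads H A).card := by
      omega
    have : ((quads H (A \ T)).card : ℝ) +
        (((quads H A).filter (fun q => ¬ Disjoint (quadSupp H q) T)).card : ℝ)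
        ≤ ((quads H A).card : ℝ) := by exact_mod_cast hh
    linarith
  refine (Finset.sum_le_sum h1).trans ?_
  rw [Finset.sum_neg_distrib, Finset.sum_comm]
  have h2 : ∑ q ∈ quads H A, ∑ x ∈ quadSupp H q, deg H A x ≤
      ∑ q ∈ quads H A, ((∑ T ∈ alive H A,
        if ¬ Disjoint (quadSupp H q) T then (1:ℝ) else 0) + 28) := by
    refine Finset.sum_le_sum fun q hq => ?_
    rw [Finset.sum_boole]
    exact meet_eight hH A (quad_supp_card hq)
  rw [Finset.sum_add_distrib, Finset.sum_const, nsmul_eq_mul] at h2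
  unfold quadCount
  linarith

/-! ### Weights -/

/-- Q5: a sum over opposite points is a sum over quads. -/
lemma quads_split (A : Finset V) (F : V → V → ℝ) :
    ∑ f ∈ A, ∑ z ∈ A.erase f, F f z * ((quadsAt H A f z).card : ℝ) =
      ∑ q ∈ quads H A, F q.1 q.2.1 := by
  classical
  simp only [quads, Finset.sum_filter, Finset.sum_product]
  refine Finset.sum_congr rfl fun f _ => ?_
  rw [← Finset.filter_ne A f, Finset.sum_filter]
  refine Finset.sum_congr rfl fun z _ => ?_
  by_cases hfz : f = z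
  · simp [hfz]
  · have hsub : quadsAt H A f z ⊆ A ×ˢ A := by
      rintro ⟨g, g'⟩ h
      obtain ⟨a, b, -, -⟩ := mem_quadsAt.1 h
      exact Finset.mem_product.2
        ⟨nbr_sub A f (Finset.mem_inter.1 a).1, nbr_sub A f (Finset.mem_inter.1 b).1⟩
    rw [if_pos hfz, ← Finset.sum_product' A A]
    simp only [hfz, not_false_eq_true, ne_eq, true_and, Prod.mk.eta]
    rw [← Finset.sum_filter, Finset.filter_mem_eq_inter, Finset.inter_eq_right.2 hsub,
      Finset.sum_const, nsmul_eq_mul, mul_comm]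

lemma common_symm {A : Finset V} {f z g g' : V} (hg : g ∈ common H A f z)
    (hg' : g' ∈ common H A f z) : f ∈ common H A g g' :=
  Finset.mem_inter.2 ⟨nbr_symm (Finset.mem_inter.1 hg).1, nbr_symm (Finset.mem_inter.1 hg').1⟩

lemma quads_swap_opp {A : Finset V} {f z g g' : V} (h : (f, z, g, g') ∈ quads H A) :
    (z, f, g, g') ∈ quads H A := by
  obtain ⟨a, b, c, d, e, k, l⟩ := mem_quads.1 h
  refine mem_quads.2 ⟨b, a, c.symm, common_comm (H := H) A f z ▸ d,
    common_comm (H := H) A f z ▸ e, k, ?_⟩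
  have : quadSupp H (z, f, g, g') = quadSupp H (f, z, g, g') := by
    ext x; simp only [quadSupp, Finset.mem_union]; tauto
  rw [this]; exact l

lemma quads_swap_mid {A : Finset V} {f z g g' : V} (h : (f, z, g, g') ∈ quads H A) :
    (f, z, g', g) ∈ quads H A := by
  obtain ⟨a, b, c, d, e, k, l⟩ := mem_quads.1 h
  refine mem_quads.2 ⟨a, b, c, e, d, k.symm, ?_⟩
  have : quadSupp H (f, z, g', g) = quadSupp H (f, z, g, g') := by
    ext x; simp only [quadSupp, Finset.mem_union]; tauto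
  rw [this]; exact l

lemma quads_rotate {A : Finset V} {f z g g' : V} (h : (f, z, g, g') ∈ quads H A) :
    (g, g', f, z) ∈ quads H A := by
  obtain ⟨a, b, c, d, e, k, l⟩ := mem_quads.1 h
  refine mem_quads.2 ⟨nbr_sub A f (Finset.mem_inter.1 d).1, nbr_sub A f (Finset.mem_inter.1 e).1, k,
    common_symm d e, common_symm (common_comm (H := H) A f z ▸ d) (common_comm (H := H) A f z ▸ e),
    c, ?_⟩
  have : quadSupp H (g, g', f, z) = quadSupp H (f, z, g, g') := by
    ext x
    simp only [quadSupp, Finset.mem_union, tri_comm (H := H) g f, tri_comm (H := H) g z,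
      tri_comm (H := H) g' f, tri_comm (H := H) g' z]
    tauto
  rw [this]; exact l

lemma sum_quads_invol (A : Finset V) (σ : V × V × V × V → V × V × V × V)
    (hσ : ∀ q ∈ quads H A, σ q ∈ quads H A) (hσ2 : ∀ q, σ (σ q) = q) (F : V × V × V × V → ℝ) :
    ∑ q ∈ quads H A, F (σ q) = ∑ q ∈ quads H A, F q :=
  Finset.sum_nbij' σ σ hσ hσ (fun q _ => hσ2 q) (fun q _ => hσ2 q) (fun _ _ => rfl)

/-- The weight of the third points of the triangle through two points. -/
def third (H : Finset (Finset V)) (h : V → ℝ) (f g : V) : ℝ :=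
  ∑ x ∈ ((tri H f g).erase f).erase g, h x

lemma sum_union_le' {h : V → ℝ} (h0 : ∀ x, 0 ≤ h x) (s t : Finset V) :
    ∑ x ∈ s ∪ t, h x ≤ ∑ x ∈ s, h x + ∑ x ∈ t, h x := by
  rw [← Finset.sum_union_inter]
  exact le_add_of_nonneg_right (Finset.sum_nonneg fun x _ => h0 x)

lemma supp_weight_le {h : V → ℝ} (h0 : ∀ x, 0 ≤ h x) (f z g g' : V) :
    ∑ x ∈ quadSupp H (f, z, g, g'), h x ≤ (h f + h z + h g + h g') +
      (third H h f g + third H h f g' + third H h z g + third H h z g') := by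
  have hsub : quadSupp H (f, z, g, g') ⊆ ({f} ∪ {z} ∪ {g} ∪ {g'}) ∪
      (((tri H f g).erase f).erase g ∪ ((tri H f g').erase f).erase g' ∪
        ((tri H z g).erase z).erase g ∪ ((tri H z g').erase z).erase g') := by
    intro x hx
    simp only [quadSupp, Finset.mem_union, Finset.mem_erase, Finset.mem_singleton] at hx ⊢
    by_cases h1 : x = f <;> by_cases h2 : x = z <;> by_cases h3 : x = g <;> by_cases h4 : x = g' <;>
      simp_all
  refine (Finset.sum_le_sum_of_subset_of_nonneg hsub fun x _ _ => h0 x).trans ?_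
  refine (sum_union_le' h0 _ _).trans (add_le_add ?_ ?_)
  · refine (sum_union_le' h0 _ _).trans (add_le_add ?_ (Finset.sum_singleton h g').le)
    refine (sum_union_le' h0 _ _).trans (add_le_add ?_ (Finset.sum_singleton h g).le)
    exact (sum_union_le' h0 _ _).trans
      (add_le_add (Finset.sum_singleton h f).le (Finset.sum_singleton h z).le)
  · refine (sum_union_le' h0 _ _).trans (add_le_add ?_ le_rfl)
    refine (sum_union_le' h0 _ _).trans (add_le_add ?_ le_rfl)
    exact (sum_union_le' h0 _ _).trans le_rfl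

lemma sum_corner_le (hH : Linear H) (A : Finset V) {h : V → ℝ} (h0 : ∀ x, 0 ≤ h x) :
    ∑ q ∈ quads H A, h q.1 ≤
      4 * ∑ f ∈ A, h f * deg H A f * ∑ g ∈ nbr H A f, deg H A g := by
  rw [← quads_split A (fun f _ => h f), Finset.mul_sum]
  refine Finset.sum_le_sum fun f hf => ?_
  have h1 : ∀ z, ((quadsAt H A f z).card : ℝ) ≤ codeg H A f z ^ 2 := fun z => by
    unfold codeg
    rw [sq]
    exact_mod_cast (Finset.card_filter_le _ _).trans (Finset.card_product _ _).le
  refine (Finset.sum_le_sum fun z _ => mul_le_mul_of_nonneg_left (h1 z) (h0 f)).trans ?_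
  rw [← Finset.mul_sum]
  refine (mul_le_mul_of_nonneg_left ((Finset.sum_le_sum_of_subset_of_nonneg
    (Finset.erase_subset f A) fun z _ _ => sq_nonneg _).trans (sum_codeg_sq_le hH A f)) (h0 f)).trans ?_
  exact le_of_eq (by ring)

lemma sum_third_le (hH : Linear H) (A : Finset V) {h : V → ℝ} (h0 : ∀ x, 0 ≤ h x) :
    ∑ q ∈ quads H A, third H h q.1 q.2.2.1 ≤
      8 * ∑ x ∈ A, h x * ∑ T ∈ star H A x, ∏ g ∈ T.erase x, deg H A g := by
  classical
  have hnn : ∀ f g, 0 ≤ third H h f g := fun f g => Finset.sum_nonneg fun x _ => h0 x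
  have hsub : quads H A ⊆ (A.biUnion fun f => (nbr H A f).biUnion fun g =>
      ((nbr H A g) ×ˢ (nbr H A f)).image (fun p => (f, p.1, g, p.2))) := by
    rintro ⟨f, z, g, g'⟩ hq
    obtain ⟨a, -, -, d, e, -, -⟩ := mem_quads.1 hq
    simp only [Finset.mem_biUnion, Finset.mem_image, Finset.mem_product]
    exact ⟨f, a, g, (Finset.mem_inter.1 d).1, (z, g'),
      ⟨nbr_symm (Finset.mem_inter.1 d).2, (Finset.mem_inter.1 e).1⟩, rfl⟩
  have step1 : ∑ q ∈ quads H A, third H h q.1 q.2.2.1 ≤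
      ∑ f ∈ A, ∑ g ∈ nbr H A f, (4 * deg H A f * deg H A g) * third H h f g := by
    refine (Finset.sum_le_sum_of_subset_of_nonneg hsub fun q _ _ => hnn _ _).trans ?_
    refine le_of_eq ?_
    rw [Finset.sum_biUnion]
    · refine Finset.sum_congr rfl fun f _ => ?_
      rw [Finset.sum_biUnion]
      · refine Finset.sum_congr rfl fun g _ => ?_
        rw [Finset.sum_image (by
          rintro ⟨a, b⟩ _ ⟨c, e⟩ _ hh
          simp only [Prod.mk.injEq] at hh
          exact Prod.ext hh.2.1 hh.2.2.2)]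
        dsimp only
        rw [Finset.sum_const, nsmul_eq_mul, Finset.card_product]
        push_cast
        rw [card_nbr hH, card_nbr hH]
        ring
      · intro g _ g1 _ hne
        rw [Function.onFun, Finset.disjoint_left]
        intro q h1 h2
        obtain ⟨p, -, e⟩ := Finset.mem_image.1 h1
        obtain ⟨p', -, e'⟩ := Finset.mem_image.1 h2
        exact hne ((congrArg (fun q : V × V × V × V => q.2.2.1) e).trans
          (congrArg (fun q : V × V × V × V => q.2.2.1) e').symm)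
    · intro f _ f1 _ hne
      rw [Function.onFun, Finset.disjoint_left]
      intro q h1 h2
      obtain ⟨g, -, h1'⟩ := Finset.mem_biUnion.1 h1
      obtain ⟨p, -, e⟩ := Finset.mem_image.1 h1'
      obtain ⟨g', -, h2'⟩ := Finset.mem_biUnion.1 h2
      obtain ⟨p', -, e'⟩ := Finset.mem_image.1 h2'
      exact hne ((congrArg Prod.fst e).trans (congrArg Prod.fst e').symm)
  refine step1.trans (le_of_eq ?_)
  have e1 : ∀ f ∈ A, ∑ g ∈ nbr H A f, (4 * deg H A f * deg H A g) * third H h f g =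
      ∑ T ∈ star H A f, ∑ g ∈ T.erase f,
        (4 * deg H A f * deg H A g) * ∑ x ∈ (T.erase f).erase g, h x := by
    intro f _
    rw [sum_nbr hH]
    refine Finset.sum_congr rfl fun T hT => Finset.sum_congr rfl fun g hg => ?_
    obtain ⟨a, -, c⟩ := mem_star.1 hT
    obtain ⟨hg1, hg2⟩ := Finset.mem_erase.1 hg
    rw [third, tri_eq hH a (Ne.symm hg1) c hg2]
  simp only [Finset.mul_sum (s := A)]
  rw [Finset.sum_congr rfl e1, sum_star_swap A (fun f T => ∑ g ∈ T.erase f,
    (4 * deg H A f * deg H A g) * ∑ x ∈ (T.erase f).erase g, h x)]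
  simp only [Finset.mul_sum]
  rw [sum_star_swap A (fun x T => 8 * (h x * ∏ g ∈ T.erase x, deg H A g))]
  refine Finset.sum_congr rfl fun T hT => ?_
  obtain ⟨a, b, c, hab, hac, hbc, rfl⟩ := Finset.card_eq_three.1 (hH.card3 T (mem_alive.1 hT).1)
  simp [Finset.erase_insert_of_ne, hab, hac, hbc]
  ring

/-- Q3: weights over the supports of quads. -/
lemma quad_weight_le (hH : Linear H) (A : Finset V) {h : V → ℝ} (h0 : ∀ x, 0 ≤ h x) :
    ∑ q ∈ quads H A, ∑ x ∈ quadSupp H q, h x ≤
      16 * ∑ f ∈ A, h f * deg H A f * ∑ g ∈ nbr H A f, deg H A g +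
      32 * ∑ x ∈ A, h x * ∑ T ∈ star H A x, ∏ g ∈ T.erase x, deg H A g := by
  classical
  refine (Finset.sum_le_sum (g := fun q => (h q.1 + h q.2.1 + h q.2.2.1 + h q.2.2.2) +
    (third H h q.1 q.2.2.1 + third H h q.1 q.2.2.2 + third H h q.2.1 q.2.2.1 +
      third H h q.2.1 q.2.2.2)) fun q _ => supp_weight_le h0 q.1 q.2.1 q.2.2.1 q.2.2.2).trans ?_
  simp only [Finset.sum_add_distrib]
  let s1 : V × V × V × V → V × V × V × V := fun q => (q.2.1, q.1, q.2.2.1, q.2.2.2)
  let s2 : V × V × V × V → V × V × V × V := fun q => (q.1, q.2.1, q.2.2.2, q.2.2.1)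
  let s3 : V × V × V × V → V × V × V × V := fun q => (q.2.2.1, q.2.2.2, q.1, q.2.1)
  have i1 := sum_quads_invol (H := H) A s1 (fun _ hq => quads_swap_opp hq) (fun _ => rfl)
  have i2 := sum_quads_invol (H := H) A s2 (fun _ hq => quads_swap_mid hq) (fun _ => rfl)
  have i3 := sum_quads_invol (H := H) A s3 (fun _ hq => quads_rotate hq) (fun _ => rfl)
  have z_ : ∑ q ∈ quads H A, h q.2.1 = ∑ q ∈ quads H A, h q.1 := i1 fun q => h q.1
  have g_ : ∑ q ∈ quads H A, h q.2.2.1 = ∑ q ∈ quads H A, h q.1 := i3 fun q => h q.1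
  have g'_ : ∑ q ∈ quads H A, h q.2.2.2 = ∑ q ∈ quads H A, h q.2.2.1 := i2 fun q => h q.2.2.1
  have t2 : ∑ q ∈ quads H A, third H h q.1 q.2.2.2 = ∑ q ∈ quads H A, third H h q.1 q.2.2.1 :=
    i2 fun q => third H h q.1 q.2.2.1
  have t3 : ∑ q ∈ quads H A, third H h q.2.1 q.2.2.1 = ∑ q ∈ quads H A, third H h q.1 q.2.2.1 :=
    i1 fun q => third H h q.1 q.2.2.1
  have t4 : ∑ q ∈ quads H A, third H h q.2.1 q.2.2.2 = ∑ q ∈ quads H A, third H h q.1 q.2.2.2 :=
    i1 fun q => third H h q.1 q.2.2.2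
  have := sum_corner_le hH A h0
  have := sum_third_le hH A h0
  linarith

/-- Q4: the crude bound. -/
lemma quadCount_le (hH : Linear H) (A : Finset V) {D : ℝ} (hD : ∀ f, deg H A f ≤ D) :
    quadCount H A ≤ 8 * (A.card : ℝ) * D ^ 3 := by
  have h := sum_corner_le hH A (h := fun _ => (1:ℝ)) (fun _ => zero_le_one)
  rw [Finset.sum_const, nsmul_eq_mul, mul_one] at h
  refine h.trans ?_
  have hb : ∀ f ∈ A, 1 * deg H A f * ∑ g ∈ nbr H A f, deg H A g ≤ 2 * D ^ 3 := by
    intro f _
    have d0 := deg_nonneg (H := H) A f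
    have hD0 : 0 ≤ D := d0.trans (hD f)
    have hs : ∑ g ∈ nbr H A f, deg H A g ≤ 2 * D * D := by
      refine (Finset.sum_le_sum fun g _ => hD g).trans ?_
      rw [Finset.sum_const, nsmul_eq_mul, card_nbr hH]
      exact mul_le_mul_of_nonneg_right (by linarith [hD f]) hD0
    have := mul_le_mul (hD f) hs (Finset.sum_nonneg fun g _ => deg_nonneg A g) hD0
    linarith [show D * (2 * D * D) = 2 * D ^ 3 by ring]
  have := mul_le_mul_of_nonneg_left (Finset.sum_le_sum hb) (show (0:ℝ) ≤ 4 by norm_num)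
  rw [Finset.sum_const, nsmul_eq_mul] at this
  linarith [show (4:ℝ) * ((A.card : ℝ) * (2 * D ^ 3)) = 8 * (A.card : ℝ) * D ^ 3 by ring]

end Vale.Agent.P046
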