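import Mathlib
import Vale.Agent.P046.Drift
import Vale.Agent.P046.Quad

/-!
# P046: the observables of the uniform upper bound
-/

open Finset

namespace Vale.Agent.P046

variable {V : Type*} [DecidableEq V]

/-- The `48`-th moment of the scaled degree. -/
noncomputable def obsPow (H : Finset (Finset V)) (w : ℝ) (σ : St V) : ℝ :=
  ∑ f ∈ σ.1, sdeg H w σ.1 f ^ 48

/-- The even moments of the martingale part. -/
noncomputable def obsMom (H : Finset (Finset V)) (w : ℝ) (j : ℕ) (σ : St V) : ℝ :=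
  ∑ f ∈ σ.1, mart H w σ.1 σ.2 f ^ (2 * j + 2)

/-- The total potential of the compensator. -/
noncomputable def obsPhi (σ : St V) : ℝ := ∑ f ∈ σ.1, phi (σ.2 f)

/-- The squared neighbourhood average of the martingale part. -/
noncomputable def obsNb (H : Finset (Finset V)) (w : ℝ) (σ : St V) : ℝ :=
  ∑ f ∈ σ.1, martNb H w σ.1 σ.2 f ^ 2

/-- The scaled number of quads. -/
noncomputable def obsQuad (H : Finset (Finset V)) (w : ℝ) (σ : St V) : ℝ :=
  w ^ 4 * quadCount H σ.1

/-- The pointwise yardstick: `a` the scaled degree, `m` the martingale part, `z` the truncated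
compensator. -/
noncomputable def base (w a m z : ℝ) : ℝ :=
  1 + a ^ 48 + ∑ j ∈ Finset.range 20, m ^ (2 * j + 2) / w ^ (j + 1) + z ^ 2 / w

/-- The total yardstick. -/
noncomputable def obsBase (H : Finset (Finset V)) (w : ℝ) (σ : St V) : ℝ :=
  ∑ f ∈ σ.1, base w (sdeg H w σ.1 f) (mart H w σ.1 σ.2 f) (trunc (σ.2 f))

/-- The yardstick in terms of the six basic observables. -/
lemma obsBase_le (H : Finset (Finset V)) {w : ℝ} (hw : 0 < w) (σ : St V) :
    obsBase H w σ ≤ (σ.1.card : ℝ) + obsPow H w σ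
      + ∑ j ∈ Finset.range 20, obsMom H w j σ / w ^ (j + 1) + 8 * obsPhi σ / w := by
  have e : ∑ j ∈ Finset.range 20, obsMom H w j σ / w ^ (j + 1)
      = ∑ f ∈ σ.1, ∑ j ∈ Finset.range 20, mart H w σ.1 σ.2 f ^ (2 * j + 2) / w ^ (j + 1) := by
    unfold obsMom
    rw [Finset.sum_comm]
    exact Finset.sum_congr rfl fun j _ => Finset.sum_div _ _ _
  have hz : ∑ f ∈ σ.1, trunc (σ.2 f) ^ 2 / w ≤ 8 * obsPhi σ / w := by
    unfold obsPhi
    rw [Finset.mul_sum, Finset.sum_div]
    exact Finset.sum_le_sum fun f _ => by gcongr; exact trunc_sq_le_phi _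
  unfold obsBase base
  rw [Finset.sum_add_distrib, Finset.sum_add_distrib, Finset.sum_add_distrib, e]
  simp only [Finset.sum_const, nsmul_eq_mul, mul_one, obsPow]
  linarith

end Vale.Agent.P046
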