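import Mathlib
import Vale.Agent.P046.Obs

/-!
# P046: pointwise absorption inequalities

With `t = w^(1/8)`, every error term at a point is bounded by a power of `t` times the yardstick.
-/

open Finset

namespace Vale.Agent.P046

/-- The admissible values at one point: `t⁸ = w`, `a` the scaled degree, `m` the martingale part,
`z` the truncated compensator. -/
structure Pt (t w a m z : ℝ) : Prop where
  t_pos : 0 < t
  t_le : t ≤ 1
  t_pow : t ^ 8 = w
  a_nonneg : 0 ≤ a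
  z_le : |z| ≤ 1 + a + |m|
  u_le : |a - 1| ≤ |z| + |m|

/-- The constant of the power bound. -/
def KR : ℝ := 5 * 3 ^ 40

lemma one_le_KR : 1 ≤ KR := by norm_num [KR]

lemma young_split {t : ℝ} (ht : 0 < t) {x : ℝ} (hx : 0 ≤ x) :
    t ^ 2 * x ≤ t + t ^ 12 * x ^ 11 := by
  rcases le_total (t * x) 1 with h | h
  · have h1 := mul_le_mul_of_nonneg_left h ht.le
    have : 0 ≤ t ^ 12 * x ^ 11 := by positivity
    nlinarith
  · have h1 : (1:ℝ) ≤ (t * x) ^ 10 := one_le_pow₀ h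
    have h2 := mul_le_mul_of_nonneg_left h1 (show 0 ≤ t ^ 2 * x by positivity)
    nlinarith

namespace Pt

variable {t w a m z : ℝ} (h : Pt t w a m z)
include h

lemma w_pos : 0 < w := h.t_pow ▸ pow_pos h.t_pos 8

lemma w_le : w ≤ 1 := h.t_pow ▸ pow_le_one₀ h.t_pos.le h.t_le

lemma pow_t {i j : ℕ} (hij : j ≤ i) : t ^ i ≤ t ^ j :=
  pow_le_pow_of_le_one h.t_pos.le h.t_le hij

lemma sum_nonneg : 0 ≤ ∑ j ∈ Finset.range 20, m ^ (2 * j + 2) / w ^ (j + 1) := by
  refine Finset.sum_nonneg fun j _ => div_nonneg ?_ (pow_nonneg h.w_pos.le _)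
  rw [show 2 * j + 2 = 2 * (j + 1) by ring, pow_mul]; positivity

lemma one_le : 1 ≤ base w a m z := by
  have h1 := h.sum_nonneg
  have h2 := h.w_pos
  have : 0 ≤ a ^ 48 + z ^ 2 / w := by positivity
  unfold base; linarith

lemma base_nonneg : 0 ≤ base w a m z := zero_le_one.trans h.one_le

lemma pow48 : a ^ 48 ≤ base w a m z := by
  have h1 := h.sum_nonneg
  have h2 := h.w_pos
  have : 0 ≤ 1 + z ^ 2 / w := by positivity
  unfold base; linarith

lemma mom {j : ℕ} (hj : j < 20) : m ^ (2 * j + 2) ≤ w ^ (j + 1) * base w a m z := by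
  have h2 := h.w_pos
  have h1 : m ^ (2 * j + 2) / w ^ (j + 1)
      ≤ ∑ i ∈ Finset.range 20, m ^ (2 * i + 2) / w ^ (i + 1) := by
    refine Finset.single_le_sum (f := fun i => m ^ (2 * i + 2) / w ^ (i + 1)) (fun i _ => ?_)
      (Finset.mem_range.2 hj)
    refine div_nonneg ?_ (by positivity)
    rw [show 2 * i + 2 = 2 * (i + 1) by ring, pow_mul]; positivity
  have h3 : 0 ≤ 1 + a ^ 48 + z ^ 2 / w := by positivity
  have h4 : m ^ (2 * j + 2) / w ^ (j + 1) ≤ base w a m z := by unfold base; linarith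
  rw [div_le_iff₀ (by positivity)] at h4
  linarith

lemma mom' (j : ℕ) (hj : j < 20) : m ^ (2 * j + 2) ≤ t ^ (8 * (j + 1)) * base w a m z := by
  rw [pow_mul, h.t_pow]; exact h.mom hj

lemma z_sq : z ^ 2 ≤ t ^ 8 * base w a m z := by
  have h2 := h.w_pos
  have h1 := h.sum_nonneg
  have h3 : 0 ≤ 1 + a ^ 48 := by positivity
  have h4 : z ^ 2 / w ≤ base w a m z := by unfold base; linarith
  rw [div_le_iff₀ h2] at h4
  rw [h.t_pow]; linarith

lemma R_pow {k : ℕ} (hk : k ≤ 40) : (1 + a + |m|) ^ k ≤ KR * base w a m z := by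
  have hB := h.one_le
  have ha := h.a_nonneg
  have e1 : a ^ k ≤ 1 + a ^ 48 := by
    rcases le_total a 1 with h1 | h1
    · have : a ^ k ≤ 1 := pow_le_one₀ ha h1
      have : 0 ≤ a ^ 48 := by positivity
      linarith
    · have : a ^ k ≤ a ^ 48 := pow_le_pow_right₀ h1 (by omega)
      linarith
  have e2 : |m| ^ k ≤ 1 + |m| ^ 40 := by
    rcases le_total |m| 1 with h1 | h1
    · have : |m| ^ k ≤ 1 := pow_le_one₀ (abs_nonneg m) h1
      have : 0 ≤ |m| ^ 40 := by positivity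
      linarith
    · have : |m| ^ k ≤ |m| ^ 40 := pow_le_pow_right₀ h1 hk
      linarith
  have e3 : |m| ^ 40 ≤ base w a m z := by
    rw [Even.pow_abs (show Even 40 by decide)]
    have := h.mom' 19 (by norm_num)
    norm_num at this
    exact this.trans (mul_le_of_le_one_left h.base_nonneg (pow_le_one₀ h.t_pos.le h.t_le))
  have e4 : (1 + a + |m|) ^ k ≤ 3 ^ k * (1 + a ^ k + |m| ^ k) := by
    have h0 : 0 ≤ |m| := abs_nonneg m
    set M := max 1 (max a |m|) with hM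
    have hle : 1 + a + |m| ≤ 3 * M := by
      linarith [le_max_left (1:ℝ) (max a |m|), le_max_right (1:ℝ) (max a |m|), le_max_left a |m|,
        le_max_right a |m|]
    refine (pow_le_pow_left₀ (by positivity) hle k).trans ?_
    rw [mul_pow]
    refine mul_le_mul_of_nonneg_left ?_ (by positivity)
    have hak : 0 ≤ a ^ k := by positivity
    have hmk : 0 ≤ |m| ^ k := by positivity
    rcases max_cases (1:ℝ) (max a |m|) with ⟨he, -⟩ | ⟨he, -⟩ <;> rw [hM, he]
    · simp; linarith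
    · rcases max_cases a |m| with ⟨he', -⟩ | ⟨he', -⟩ <;> rw [he'] <;> linarith
  refine e4.trans ?_
  have h3k : (3:ℝ) ^ k ≤ 3 ^ 40 := pow_le_pow_right₀ (by norm_num) hk
  calc (3:ℝ) ^ k * (1 + a ^ k + |m| ^ k)
      ≤ 3 ^ 40 * (5 * base w a m z) := by
        refine mul_le_mul h3k ?_ (by positivity) (by positivity)
        linarith [h.pow48]
    _ = KR * base w a m z := by rw [KR]; ring

lemma pow_R {x : ℝ} (hx : 0 ≤ x) (hxR : x ≤ 1 + a + |m|) {k : ℕ} (hk : k ≤ 40) :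
    x ^ k ≤ KR * base w a m z := (pow_le_pow_left₀ hx hxR k).trans (h.R_pow hk)

lemma a_le_R : a ≤ 1 + a + |m| := by linarith [abs_nonneg m, h.t_pos]

lemma u_le_R : |a - 1| ≤ 1 + a + |m| := by
  rw [abs_le]; constructor <;> linarith [abs_nonneg m, h.a_nonneg]

lemma u_sq : (a - 1) ^ 2 ≤ 4 * (t ^ 8 * base w a m z) := by
  have h1 := pow_le_pow_left₀ (abs_nonneg _) h.u_le 2
  have h2 := h.mom' 0 (by norm_num)
  have h3 := h.z_sq
  rw [sq_abs] at h1
  norm_num at h2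
  nlinarith [two_mul_le_add_sq |z| |m|, sq_abs z, sq_abs m]

lemma abs_u : |a - 1| ≤ 5 * t ^ 4 * base w a m z := by
  have ht4 : 0 < t ^ 4 := pow_pos h.t_pos 4
  have h1 := h.u_sq
  have h2 := h.one_le
  rcases le_total |a - 1| (t ^ 4) with h3 | h3
  · nlinarith
  · have h4 := mul_le_mul_of_nonneg_right h3 (abs_nonneg (a - 1))
    rw [← sq, sq_abs] at h4
    refine le_of_mul_le_mul_left (a := t ^ 4) ?_ ht4
    nlinarith [mul_nonneg h.base_nonneg (pow_nonneg h.t_pos.le 8)]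

lemma mz_sq : |m| * z ^ 2 ≤ (2 + KR) * t ^ 9 * base w a m z := by
  have ht := h.t_pos
  have hB := h.base_nonneg
  have h1 : |m| * z ^ 2 ≤ t ^ 2 * z ^ 2 + (m ^ 10 / t ^ 28 + t ^ 12 * z ^ 4) := by
    rcases le_total |m| (t ^ 2) with hm | hm
    · have : 0 ≤ m ^ 10 / t ^ 28 + t ^ 12 * z ^ 4 := by
        have : 0 ≤ m ^ 10 := (show Even 10 by decide).pow_nonneg m
        positivity
      nlinarith [mul_le_mul_of_nonneg_right hm (sq_nonneg z)]
    · have h2 : t ^ 8 ≤ |m| ^ 4 := by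
        have := pow_le_pow_left₀ (by positivity) hm 4
        linarith [show (t ^ 2) ^ 4 = t ^ 8 by ring]
      have h3 : |m| * z ^ 2 ≤ |m| ^ 5 * z ^ 2 / t ^ 8 := by
        rw [le_div_iff₀ (by positivity)]
        nlinarith [mul_le_mul_of_nonneg_left h2 (show 0 ≤ |m| * z ^ 2 by positivity)]
      have h4 : |m| ^ 5 * z ^ 2 / t ^ 8 ≤ m ^ 10 / t ^ 28 + t ^ 12 * z ^ 4 := by
        have e := two_mul_le_add_sq (|m| ^ 5 / t ^ 14) (t ^ 6 * z ^ 2)
        have e1 : (|m| ^ 5 / t ^ 14) ^ 2 = m ^ 10 / t ^ 28 := by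
          rw [div_pow, ← pow_mul, ← pow_mul, Even.pow_abs (show Even (5 * 2) by decide)]
        have e2 : (|m| ^ 5 / t ^ 14) * (t ^ 6 * z ^ 2) = |m| ^ 5 * z ^ 2 / t ^ 8 := by
          field_simp
        have : 0 ≤ |m| ^ 5 * z ^ 2 / t ^ 8 := by positivity
        nlinarith
      nlinarith [mul_nonneg (pow_nonneg ht.le 2) (sq_nonneg z)]
  have h2 : t ^ 2 * z ^ 2 ≤ t ^ 10 * base w a m z := by
    nlinarith [mul_le_mul_of_nonneg_left h.z_sq (pow_nonneg ht.le 2)]
  have h3 : m ^ 10 / t ^ 28 ≤ t ^ 12 * base w a m z := by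
    rw [div_le_iff₀ (by positivity)]
    have := h.mom' 4 (by norm_num)
    norm_num at this
    linarith [show t ^ 12 * base w a m z * t ^ 28 = t ^ 40 * base w a m z by ring]
  have h4 : t ^ 12 * z ^ 4 ≤ t ^ 12 * (KR * base w a m z) := by
    refine mul_le_mul_of_nonneg_left ?_ (by positivity)
    rw [← Even.pow_abs (show Even 4 by decide) z]
    exact h.pow_R (abs_nonneg z) h.z_le (by norm_num)
  have h5 := mul_le_mul_of_nonneg_right (h.pow_t (show 9 ≤ 10 by norm_num)) hB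
  have h6 := mul_le_mul_of_nonneg_right (h.pow_t (show 9 ≤ 12 by norm_num)) hB
  have h7 := mul_le_mul_of_nonneg_left h6 (show (0:ℝ) ≤ KR by linarith [one_le_KR])
  nlinarith

lemma az_sq : t ^ 2 * (a * z ^ 2) ≤ (1 + KR) * t ^ 9 * base w a m z := by
  have ht := h.t_pos
  have h1 := mul_le_mul_of_nonneg_right (young_split ht h.a_nonneg) (sq_nonneg z)
  have h2 := mul_le_mul_of_nonneg_left h.z_sq ht.le
  have h3 : a ^ 11 * z ^ 2 ≤ KR * base w a m z := by
    refine le_trans ?_ (h.R_pow (show 13 ≤ 40 by norm_num))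
    rw [← sq_abs z, pow_add _ 11 2]
    exact mul_le_mul (pow_le_pow_left₀ h.a_nonneg h.a_le_R 11)
      (pow_le_pow_left₀ (abs_nonneg z) h.z_le 2) (by positivity)
      (pow_nonneg (by linarith [h.a_nonneg, abs_nonneg m]) _)
  have h4 := mul_le_mul_of_nonneg_left h3 (pow_nonneg ht.le 12)
  have h5 := mul_le_mul_of_nonneg_right (h.pow_t (show 9 ≤ 12 by norm_num))
    (mul_nonneg (zero_le_one.trans one_le_KR) h.base_nonneg)
  nlinarith

lemma a_mul_pow {x : ℝ} (hx : 0 ≤ x) (hxR : x ≤ 1 + a + |m|) {k : ℕ} (hk : k + 1 ≤ 40) :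
    a * x ^ k ≤ KR * base w a m z := by
  refine le_trans ?_ (h.R_pow hk)
  rw [pow_succ', ]
  exact mul_le_mul h.a_le_R (pow_le_pow_left₀ hx hxR k) (by positivity)
    (by linarith [h.a_nonneg, abs_nonneg m])

lemma a_mom {j : ℕ} (hj : 2 * j + 1 < 20) :
    a * m ^ (2 * j + 2) ≤ 2 * KR * t ^ (8 * (j + 1)) * base w a m z := by
  have hp : 0 < t ^ (8 * (j + 1)) := pow_pos h.t_pos _
  have h2 := h.mom' (2 * j + 1) hj
  have h3 := h.pow_R h.a_nonneg h.a_le_R (show 2 ≤ 40 by norm_num)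
  have e : m ^ (2 * (2 * j + 1) + 2) = (m ^ (2 * j + 2)) ^ 2 := by rw [← pow_mul]; ring_nf
  have e2 : t ^ (8 * (2 * j + 1 + 1)) = (t ^ (8 * (j + 1))) ^ 2 := by rw [← pow_mul]; ring_nf
  rw [e, e2] at h2
  set μ := t ^ (8 * (j + 1))
  set X := m ^ (2 * j + 2)
  refine le_of_mul_le_mul_left (a := μ) ?_ hp
  nlinarith [two_mul_le_add_sq (μ * a) X, mul_le_mul_of_nonneg_left h3 (sq_nonneg μ),
    mul_nonneg (sq_nonneg μ) h.base_nonneg, one_le_KR,
    mul_le_mul_of_nonneg_right one_le_KR (mul_nonneg (sq_nonneg μ) h.base_nonneg)]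

lemma t4_au_sq : t ^ 4 * (a * (a - 1) ^ 2) ≤ (2 + 6 * KR) * t ^ 11 * base w a m z := by
  have ht := h.t_pos
  have hB := h.base_nonneg
  have hK := zero_le_one.trans one_le_KR
  have h1 := pow_le_pow_left₀ (abs_nonneg _) h.u_le 2
  rw [sq_abs] at h1
  have h2 : (a - 1) ^ 2 ≤ 2 * z ^ 2 + 2 * m ^ 2 := by
    nlinarith [two_mul_le_add_sq |z| |m|, sq_abs z, sq_abs m]
  have h3 := mul_le_mul_of_nonneg_left h.az_sq (pow_nonneg ht.le 2)
  have h4 := h.a_mom (show 2 * 0 + 1 < 20 by norm_num)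
  norm_num at h4
  have h5 := mul_le_mul_of_nonneg_left h4 (pow_nonneg ht.le 4)
  have h6 := mul_le_mul_of_nonneg_left h2 (mul_nonneg (pow_nonneg ht.le 4) h.a_nonneg)
  have h7 := mul_le_mul_of_nonneg_right (h.pow_t (show 11 ≤ 12 by norm_num)) (mul_nonneg hK hB)
  nlinarith

end Pt

/-- The values at a point of a state are admissible. -/
lemma pt_of {V : Type*} [DecidableEq V] (H : Finset (Finset V)) {t w : ℝ} (ht : 0 < t) (ht1 : t ≤ 1)
    (htw : t ^ 8 = w) (σ : St V) (f : V) :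
    Pt t w (sdeg H w σ.1 f) (mart H w σ.1 σ.2 f) (trunc (σ.2 f)) := by
  have ha : 0 ≤ sdeg H w σ.1 f := sdeg_nonneg (htw ▸ pow_nonneg ht.le 8) _ _
  have hm := le_abs_self (mart H w σ.1 σ.2 f)
  have hm' := neg_le_abs (mart H w σ.1 σ.2 f)
  refine ⟨ht, ht1, htw, ha, ?_, ?_⟩
  · unfold trunc
    rcases le_total (σ.2 f) (-1) with hZ | hZ
    · rw [max_eq_right hZ, abs_neg, abs_one]
      linarith [abs_nonneg (mart H w σ.1 σ.2 f)]
    · rw [max_eq_left hZ, abs_le]
      unfold mart at hm hm' ⊢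
      constructor <;> linarith
  · unfold trunc
    rcases le_total (σ.2 f) (-1) with hZ | hZ
    · rw [max_eq_right hZ, abs_neg, abs_one, abs_le]
      unfold mart at hm hm' ⊢
      constructor <;> linarith [abs_nonneg (sdeg H w σ.1 f - 1 - σ.2 f)]
    · rw [max_eq_left hZ]
      have e : sdeg H w σ.1 f - 1 = σ.2 f + mart H w σ.1 σ.2 f := by unfold mart; ring
      rw [e]
      exact abs_add_le _ _

end Vale.Agent.P046
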