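import Mathlib
import Vale.Agent.P046.Base

/-!
# P046: absorption of the error terms (live points, moments, potential, quads)
-/

open Finset

namespace Vale.Agent.P046

variable {V : Type*} [DecidableEq V] {H : Finset (Finset V)}

lemma obsBase_ge (H : Finset (Finset V)) {w : ℝ} (hw : 0 < w) (σ : St V) :
    (σ.1.card : ℝ) + obsPow H w σ ≤ obsBase H w σ := by
  have e : (σ.1.card : ℝ) + obsPow H w σ = ∑ f ∈ σ.1, (1 + sdeg H w σ.1 f ^ 48) := by
    simp [obsPow, Finset.sum_add_distrib]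
  rw [e]
  refine Finset.sum_le_sum fun f _ => ?_
  have h1 : 0 ≤ ∑ j ∈ Finset.range 20, mart H w σ.1 σ.2 f ^ (2 * j + 2) / w ^ (j + 1) :=
    Finset.sum_nonneg fun j _ => div_nonneg
      ((show Even (2 * j + 2) by simp [parity_simps]).pow_nonneg _) (by positivity)
  have h2 : 0 ≤ trunc (σ.2 f) ^ 2 / w := by positivity
  unfold base; linarith

/-- A sum over incidences of a decoupled summand. -/
lemma sum_avgNb_le (hH : Linear H) {w : ℝ} (hw : 0 ≤ w) (A : Finset V) {F : V → V → ℝ}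
    {p q : V → ℝ} (hF : ∀ f ∈ A, ∀ g ∈ A, F f g ≤ p f + q g) :
    ∑ f ∈ A, avgNb H w A (F f) f ≤ 2 * ∑ f ∈ A, sdeg H w A f * (p f + q f) := by
  have h1 : ∀ f ∈ A, avgNb H w A (F f) f ≤ 2 * sdeg H w A f * p f + avgNb H w A q f := by
    intro f hf
    have e : 2 * sdeg H w A f * p f = avgNb H w A (fun _ => p f) f := by
      unfold avgNb sdeg
      rw [← sum_nbr hH A f (fun _ => p f), Finset.sum_const, nsmul_eq_mul, card_nbr hH]
      ring
    rw [e, ← avgNb_add]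
    unfold avgNb
    refine mul_le_mul_of_nonneg_left (Finset.sum_le_sum fun T hT => Finset.sum_le_sum fun g hg => ?_) hw
    exact hF f hf g ((mem_star.1 hT).2.1 (Finset.mem_of_mem_erase hg))
  refine (Finset.sum_le_sum h1).trans (le_of_eq ?_)
  rw [Finset.sum_add_distrib, sum_avgNb hH, Finset.mul_sum, Finset.mul_sum, ← Finset.sum_add_distrib]
  exact Finset.sum_congr rfl fun f _ => by ring

/-- Jensen for a neighbourhood average. -/
lemma avgNb_pow_le (hH : Linear H) {w : ℝ} (hw : 0 ≤ w) (A : Finset V) {h : V → ℝ}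
    (h0 : ∀ g, 0 ≤ h g) (n : ℕ) (f : V) :
    avgNb H w A h f ^ (n + 1)
      ≤ avgNb H w A (fun g => (2 * sdeg H w A f) ^ n * h g ^ (n + 1)) f := by
  have e : ∀ k : V → ℝ, avgNb H w A k f = w * ∑ g ∈ nbr H A f, k g := fun k => by
    rw [avgNb, sum_nbr hH]
  rw [e, e, mul_pow, ← Finset.mul_sum]
  have h1 := pow_sum_le_card_mul_sum_pow (s := nbr H A f) (f := h) (fun g _ => h0 g) n
  have h2 := mul_le_mul_of_nonneg_left h1 (pow_nonneg hw (n + 1))
  refine h2.trans (le_of_eq ?_)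
  rw [card_nbr hH]
  unfold sdeg; ring

/-- Moments of neighbourhood averages of powers of the scaled degree. -/
lemma sum_avgNb_pow_le (hH : Linear H) {w : ℝ} (hw : 0 ≤ w) (σ : St V) (i n : ℕ)
    (hi : 2 * (i * (n + 1)) + 1 ≤ 48) (hn : 2 * n + 1 ≤ 48) :
    ∑ f ∈ σ.1, avgNb H w σ.1 (fun g => sdeg H w σ.1 g ^ i) f ^ (n + 1)
      ≤ 2 * (4 ^ n + 1) * ((σ.1.card : ℝ) + obsPow H w σ) := by
  obtain ⟨A, Z⟩ := σ
  dsimp only
  set a := sdeg H w A with ha
  have ha0 : ∀ g, 0 ≤ a g := fun g => sdeg_nonneg hw _ _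
  refine (Finset.sum_le_sum fun f _ => avgNb_pow_le hH hw A (fun g => pow_nonneg (ha0 g) i) n f).trans ?_
  refine (sum_avgNb_le hH hw A (p := fun f => (2 * a f) ^ (2 * n))
    (q := fun g => a g ^ (2 * (i * (n + 1)))) fun f _ g _ => ?_).trans ?_
  · have := two_mul_le_add_sq ((2 * a f) ^ n) ((a g ^ i) ^ (n + 1))
    have : 0 ≤ (2 * a f) ^ n * (a g ^ i) ^ (n + 1) := by
      have := ha0 f; have := ha0 g; positivity
    rw [pow_mul' (2 * a f) 2 n, pow_mul' (a g) 2, pow_mul (a g) i]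
    linarith
  rw [mul_assoc 2]
  refine mul_le_mul_of_nonneg_left ?_ (by norm_num)
  have e : ((A, Z).1.card : ℝ) + obsPow H w (A, Z) = ∑ f ∈ A, (1 + a f ^ 48) := by
    simp [obsPow, Finset.sum_add_distrib, ha]
  dsimp only at e
  rw [e, Finset.mul_sum]
  refine Finset.sum_le_sum fun f _ => ?_
  have hk : ∀ k ≤ 48, a f ^ k ≤ 1 + a f ^ 48 := by
    intro k hk
    rcases le_total (a f) 1 with h1 | h1
    · linarith [pow_le_one₀ (n := k) (ha0 f) h1, pow_nonneg (ha0 f) 48]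
    · linarith [pow_le_pow_right₀ h1 hk]
  rw [mul_add, mul_pow, mul_left_comm, ← pow_succ' (a f), ← pow_succ' (a f),
    pow_mul (2:ℝ) 2 n, show ((2:ℝ) ^ 2) = 4 by norm_num, add_mul, one_mul]
  exact add_le_add (mul_le_mul_of_nonneg_left (hk _ hn) (by positivity)) (hk _ hi)

variable {t w : ℝ}

/-- Live points. -/
theorem absorb_card (ht : 0 < t) (ht1 : t ≤ 1) (htw : t ^ 8 = w) (σ : St V) :
    -∑ f ∈ σ.1, sdeg H w σ.1 f ≤ -(σ.1.card : ℝ) + 5 * t ^ 4 * obsBase H w σ := by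
  rw [obsBase, Finset.mul_sum, ← Finset.sum_neg_distrib]
  have e : (σ.1.card : ℝ) = ∑ f ∈ σ.1, (1:ℝ) := by simp
  rw [e, ← Finset.sum_neg_distrib, ← Finset.sum_add_distrib]
  refine Finset.sum_le_sum fun f _ => ?_
  have h := pt_of H ht ht1 htw σ f
  linarith [h.abs_u, neg_le_abs (sdeg H w σ.1 f - 1)]

/-- Scaled degree moment. -/
theorem absorb_pow (hw : 0 ≤ w) (σ : St V) :
    ∑ f ∈ σ.1, (2 * ((48:ℕ):ℝ) - sdeg H w σ.1 f) * sdeg H w σ.1 f ^ 48
      ≤ 98 * 98 ^ 48 * (σ.1.card : ℝ) - 2 * obsPow H w σ := by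
  have e : 98 * 98 ^ 48 * (σ.1.card : ℝ) = ∑ f ∈ σ.1, (98 * 98 ^ 48 : ℝ) := by
    rw [Finset.sum_const, nsmul_eq_mul]; ring
  rw [e, obsPow, Finset.mul_sum, ← Finset.sum_sub_distrib]
  refine Finset.sum_le_sum fun f _ => ?_
  have ha := sdeg_nonneg (H := H) hw σ.1 f
  set a := sdeg H w σ.1 f
  push_cast
  rcases le_total a 98 with h | h
  · have h1 := pow_le_pow_left₀ ha h 48
    have h0 : 0 ≤ a ^ 48 := pow_nonneg ha 48
    generalize a ^ 48 = y at h1 h0 ⊢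
    generalize (98:ℝ) ^ 48 = Y at h1 ⊢
    nlinarith
  · have h0 : 0 ≤ a ^ 48 := pow_nonneg ha 48
    have hc : (0:ℝ) ≤ 98 ^ 48 := by positivity
    generalize a ^ 48 = y at h0 ⊢
    generalize (98:ℝ) ^ 48 = Y at hc ⊢
    nlinarith

/-- The constant of the moment absorption. -/
def CM (m : ℕ) : ℝ :=
  let K : ℝ := 3 * ((2*m+2 : ℕ):ℝ) * ((2*m+1 : ℕ):ℝ) * 2 ^ (2 * m)
  ((2 * K) ^ (m + 1) + K * 9 ^ m) * 4 ^ (m + 3)

/-- Moments of the martingale part. -/
theorem absorb_mom (hH : Linear H) (hw : 0 < w) (hw1 : w ≤ 1) {m : ℕ} (hm : m < 20) (σ : St V) :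
    -(∑ f ∈ σ.1, sdeg H w σ.1 f * mart H w σ.1 σ.2 f ^ (2*m+2))
        + 3 * ((2*m+2 : ℕ):ℝ) * ((2*m+1 : ℕ):ℝ) * 2^(2*m) * w *
          ∑ f ∈ σ.1, (mart H w σ.1 σ.2 f ^ (2*m) + (3*w)^(2*m))
            * avgNb H w σ.1 (sdeg H w σ.1) f
      ≤ 1/2 * obsMom H w m σ + CM m * w ^ (m+1) * ((σ.1.card : ℝ) + obsPow H w σ) := by
  set K : ℝ := 3 * ((2*m+2 : ℕ):ℝ) * ((2*m+1 : ℕ):ℝ) * 2 ^ (2 * m) with hK
  have hK0 : 0 ≤ K := by positivity
  have hCM : CM m = ((2 * K) ^ (m + 1) + K * 9 ^ m) * 4 ^ (m + 3) := rfl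
  set Λ := avgNb H w σ.1 (sdeg H w σ.1) with hΛ
  have key : ∀ f ∈ σ.1, K * w * ((mart H w σ.1 σ.2 f ^ (2*m) + (3*w)^(2*m)) * Λ f)
      ≤ 1/2 * mart H w σ.1 σ.2 f ^ (2*m+2)
        + ((2*K)^(m+1) + K * 9^m) * w^(m+1) * Λ f ^ (m+1) + K * 9^m * w^(m+1) := by
    intro f _
    have hL : 0 ≤ Λ f := mul_nonneg hw.le (Finset.sum_nonneg fun _ _ =>
      Finset.sum_nonneg fun g _ => sdeg_nonneg hw.le _ _)
    set X := mart H w σ.1 σ.2 f ^ 2 with hX
    have hX0 : 0 ≤ X := sq_nonneg _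
    rw [pow_mul (mart H w σ.1 σ.2 f), show 2*m+2 = 2*(m+1) by ring, pow_mul (mart H w σ.1 σ.2 f) 2, ← hX]
    have h1 : K * w * Λ f * X ^ m ≤ 1/2 * X ^ (m+1) + (2*K)^(m+1) * w^(m+1) * Λ f ^ (m+1) := by
      rcases le_total (2 * (K * w * Λ f)) X with hc | hc
      · have : 0 ≤ (2*K)^(m+1) * w^(m+1) * Λ f ^ (m+1) := by positivity
        have h2 := mul_le_mul_of_nonneg_right hc (pow_nonneg hX0 m)
        rw [pow_succ' X]; linarith
      · have h2 := pow_le_pow_left₀ hX0 hc m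
        have h3 := mul_le_mul_of_nonneg_left h2 (show 0 ≤ K * w * Λ f by positivity)
        have e : (2*K)^(m+1) * w^(m+1) * Λ f ^ (m+1)
            = 2 * (K * w * Λ f) * (2 * (K * w * Λ f))^m := by
          rw [← pow_succ', ← mul_pow, ← mul_pow]; ring
        have : 0 ≤ X ^ (m+1) := pow_nonneg hX0 _
        have : 0 ≤ K * w * Λ f * (2 * (K * w * Λ f))^m := by positivity
        linarith
    have h2 : K * w * (3*w)^(2*m) * Λ f ≤ K * 9^m * w^(m+1) * (1 + Λ f ^ (m+1)) := by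
      have e : K * w * (3*w)^(2*m) = K * 9^m * (w^(m+1) * w^m) := by
        rw [mul_pow, pow_mul (3:ℝ), pow_mul w]; ring
      have h3 : w^(m+1) * w^m ≤ w^(m+1) :=
        mul_le_of_le_one_right (by positivity) (pow_le_one₀ hw.le hw1)
      have h4 : Λ f ≤ 1 + Λ f ^ (m+1) := by
        rcases le_total (Λ f) 1 with h | h
        · linarith [pow_nonneg hL (m+1)]
        · linarith [le_self_pow₀ h (show m + 1 ≠ 0 by omega)]
      rw [e]
      exact mul_le_mul (mul_le_mul_of_nonneg_left h3 (by positivity)) h4 hL (by positivity)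
    linarith
  have hs := Finset.sum_le_sum key
  simp only [Finset.sum_add_distrib, ← Finset.mul_sum] at hs
  rw [Finset.sum_const, nsmul_eq_mul] at hs
  have hΛp : ∑ f ∈ σ.1, Λ f ^ (m+1) ≤ 2 * (4^m + 1) * ((σ.1.card : ℝ) + obsPow H w σ) := by
    have h := sum_avgNb_pow_le hH hw.le σ 1 m (by omega) (by omega)
    simpa [pow_one, hΛ] using h
  have h1 := mul_le_mul_of_nonneg_left hΛp
    (show 0 ≤ ((2*K)^(m+1) + K * 9^m) * w^(m+1) by positivity)
  have hp : (σ.1.card : ℝ) ≤ (σ.1.card : ℝ) + obsPow H w σ :=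
    le_add_of_nonneg_right (Finset.sum_nonneg fun f _ => pow_nonneg (sdeg_nonneg hw.le _ _) _)
  have h2 := mul_le_mul_of_nonneg_left hp (show 0 ≤ K * 9^m * w^(m+1) by positivity)
  have h3 : 0 ≤ ∑ f ∈ σ.1, sdeg H w σ.1 f * mart H w σ.1 σ.2 f ^ (2*m+2) :=
    Finset.sum_nonneg fun f _ => mul_nonneg (sdeg_nonneg hw.le _ _)
      ((show Even (2*m+2) by simp [parity_simps]).pow_nonneg _)
  have h4 : (2 * (4^m + 1) + 1 : ℝ) ≤ 4 ^ (m+3) := by
    have : (1:ℝ) ≤ 4^m := one_le_pow₀ (by norm_num)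
    rw [pow_add]; norm_num; linarith
  have h5 := mul_le_mul_of_nonneg_left h4
    (show 0 ≤ ((2*K)^(m+1) + K * 9^m) * w^(m+1) * ((σ.1.card : ℝ) + obsPow H w σ) by
      have : 0 ≤ obsPow H w σ := Finset.sum_nonneg fun f _ => pow_nonneg (sdeg_nonneg hw.le _ _) _
      positivity)
  have h6 : 0 ≤ (2*K)^(m+1) * w^(m+1) * ((σ.1.card : ℝ) + obsPow H w σ) := by
    have : 0 ≤ obsPow H w σ := Finset.sum_nonneg fun f _ => pow_nonneg (sdeg_nonneg hw.le _ _) _
    positivity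
  rw [hCM]
  unfold obsMom
  linarith

/-- The constant of the potential absorption. -/
def CP : ℝ := 4 * (2 + KR) + 1 + 2 * (3 + 6 * KR) + 2 + 2 * KR

/-- The potential. -/
theorem absorb_phi (hH : Linear H) (ht : 0 < t) (ht1 : t ≤ 1) (htw : t ^ 8 = w) {β : ℝ}
    (hβ : t ≤ β) (σ : St V) :
    (∑ f ∈ σ.1, phi (σ.2 f))
        + 4 * (∑ f ∈ σ.1, |mart H w σ.1 σ.2 f| * trunc (σ.2 f) ^ 2)
        + (∑ f ∈ σ.1, |psi (σ.2 f)| * |martNb H w σ.1 σ.2 f|)
        + (∑ f ∈ σ.1, avgNb H w σ.1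
            (fun g => 2 * |trunc (σ.2 f)| * |mart H w σ.1 σ.2 g| * trunc (σ.2 g) ^ 2) f)
        + 2 * w * ∑ f ∈ σ.1, sdeg H w σ.1 f * |psi (σ.2 f)|
      ≤ obsPhi σ + obsNb H w σ / β + CP * β * w * obsBase H w σ := by
  have hw : 0 ≤ w := htw ▸ pow_nonneg ht.le 8
  have hβ0 : 0 < β := ht.trans_le hβ
  set A := σ.1
  set B : V → ℝ := fun f => base w (sdeg H w A f) (mart H w A σ.2 f) (trunc (σ.2 f)) with hB
  have hP : ∀ f, Pt t w (sdeg H w A f) (mart H w A σ.2 f) (trunc (σ.2 f)) :=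
    fun f => pt_of H ht ht1 htw σ f
  have hK := zero_le_one.trans one_le_KR
  have h9 : t ^ 9 ≤ β * w := by
    rw [← htw, pow_succ' t 8]
    exact mul_le_mul_of_nonneg_right hβ (pow_nonneg ht.le 8)
  have h12 : t ^ 12 ≤ β * w := (pow_le_pow_of_le_one ht.le ht1 (by norm_num)).trans h9
  have hB0 : ∀ f, 0 ≤ B f := fun f => (hP f).base_nonneg
  have s1 : ∑ f ∈ A, |mart H w A σ.2 f| * trunc (σ.2 f) ^ 2 ≤ (2 + KR) * (β * w) * ∑ f ∈ A, B f := by
    rw [Finset.mul_sum]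
    exact Finset.sum_le_sum fun f _ => (hP f).mz_sq.trans
      (mul_le_mul_of_nonneg_right (mul_le_mul_of_nonneg_left h9 (by linarith)) (hB0 f))
  have s2 : ∑ f ∈ A, |psi (σ.2 f)| * |martNb H w A σ.2 f|
      ≤ (∑ f ∈ A, martNb H w A σ.2 f ^ 2) / β + β * w * ∑ f ∈ A, B f := by
    rw [Finset.sum_div, Finset.mul_sum, ← Finset.sum_add_distrib]
    refine Finset.sum_le_sum fun f _ => ?_
    set D := martNb H w A σ.2 f
    set z := trunc (σ.2 f) with hz
    have h1 := mul_le_mul_of_nonneg_right (abs_psi_le (σ.2 f)) (abs_nonneg D)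
    rw [← hz] at h1
    have h2 : 2 * |z| * |D| ≤ D ^ 2 / β + β * z ^ 2 := by
      have e : D ^ 2 / β + β * z ^ 2 - 2 * |z| * |D| = (|D| - β * |z|) ^ 2 / β := by
        field_simp
        rw [← sq_abs D, ← sq_abs z]; ring
      linarith [div_nonneg (sq_nonneg (|D| - β * |z|)) hβ0.le]
    have h3 := mul_le_mul_of_nonneg_left (hP f).z_sq hβ0.le
    rw [htw, ← hz] at h3
    simp only [hB, ← hz] at *
    linarith
  have s3 : ∑ f ∈ A, avgNb H w A
      (fun g => 2 * |trunc (σ.2 f)| * |mart H w A σ.2 g| * trunc (σ.2 g) ^ 2) f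
      ≤ 2 * (3 + 6 * KR) * (β * w) * ∑ f ∈ A, B f := by
    refine (sum_avgNb_le hH hw A (p := fun f => t ^ 12 * |trunc (σ.2 f)| ^ 20)
      (q := fun g => 2 * t ^ 2 * trunc (σ.2 g) ^ 2 + t ^ 12 * |trunc (σ.2 g)| ^ 8
        + mart H w A σ.2 g ^ 10 / t ^ 28) fun f _ g _ => ?_).trans ?_
    · set x := |trunc (σ.2 f)| with hx
      set z := trunc (σ.2 g)
      set m := mart H w A σ.2 g
      have hx0 : 0 ≤ x := abs_nonneg _
      have hm10 : m ^ 10 = |m| ^ 10 := (Even.pow_abs (show Even 10 by decide) m).symm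
      rw [hm10]
      rcases le_total (x * |m|) (t ^ 2) with hc | hc
      · have : 0 ≤ t ^ 12 * x ^ 20 + t ^ 12 * |z| ^ 8 + |m| ^ 10 / t ^ 28 := by positivity
        nlinarith [mul_le_mul_of_nonneg_right hc (sq_nonneg z)]
      · have h2 : t ^ 8 ≤ (x * |m|) ^ 4 := by
          have := pow_le_pow_left₀ (by positivity) hc 4
          linarith [show (t ^ 2) ^ 4 = t ^ 8 by ring]
        have h3 : x * |m| * z ^ 2 ≤ (x * |m|) ^ 5 * z ^ 2 / t ^ 8 := by
          rw [le_div_iff₀ (by positivity)]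
          nlinarith [mul_le_mul_of_nonneg_left h2 (show 0 ≤ x * |m| * z ^ 2 by positivity)]
        have e := two_mul_le_add_sq (|m| ^ 5 / t ^ 14) (t ^ 6 * (x ^ 5 * z ^ 2))
        have e1 : (|m| ^ 5 / t ^ 14) ^ 2 = |m| ^ 10 / t ^ 28 := by
          rw [div_pow, ← pow_mul, ← pow_mul]
        have e2 : (|m| ^ 5 / t ^ 14) * (t ^ 6 * (x ^ 5 * z ^ 2)) = (x * |m|) ^ 5 * z ^ 2 / t ^ 8 := by
          field_simp
        have e3 : (t ^ 6 * (x ^ 5 * z ^ 2)) ^ 2 ≤ t ^ 12 * x ^ 20 + t ^ 12 * |z| ^ 8 := by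
          have h := two_mul_le_add_sq (x ^ 10) (|z| ^ 4)
          have h' : 0 ≤ x ^ 10 * |z| ^ 4 := by positivity
          have := mul_le_mul_of_nonneg_left (show x ^ 10 * |z| ^ 4 ≤ x ^ 20 + |z| ^ 8 by
            nlinarith) (pow_nonneg ht.le 12)
          rw [← sq_abs z]; linarith
        have : 0 ≤ 2 * t ^ 2 * z ^ 2 := by positivity
        rw [e1] at e
        linarith
    rw [mul_assoc 2, mul_assoc 2]
    refine mul_le_mul_of_nonneg_left ?_ (by norm_num)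
    rw [Finset.mul_sum]
    refine Finset.sum_le_sum fun f _ => ?_
    have h := hP f
    have p1 := mul_le_mul_of_nonneg_left
      (h.a_mul_pow (abs_nonneg _) h.z_le (show 20 + 1 ≤ 40 by norm_num)) (pow_nonneg ht.le 12)
    have p2 := mul_le_mul_of_nonneg_left
      (h.a_mul_pow (abs_nonneg _) h.z_le (show 8 + 1 ≤ 40 by norm_num)) (pow_nonneg ht.le 12)
    have p3 := h.az_sq
    have p4 : sdeg H w A f * (mart H w A σ.2 f ^ 10 / t ^ 28) ≤ 2 * KR * t ^ 12 * B f := by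
      rw [mul_div_assoc', div_le_iff₀ (by positivity)]
      have := h.a_mom (show 2 * 4 + 1 < 20 by norm_num)
      norm_num at this
      simp only [hB]
      linarith [show 2 * KR * t ^ 12 * base w (sdeg H w A f) (mart H w A σ.2 f) (trunc (σ.2 f))
        * t ^ 28 = 2 * KR * t ^ 40 * base w (sdeg H w A f) (mart H w A σ.2 f) (trunc (σ.2 f)) by ring]
    have q1 := mul_le_mul_of_nonneg_left h9
      (show 0 ≤ 2 * (1 + KR) * B f by nlinarith [hB0 f, mul_nonneg hK (hB0 f)])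
    have q2 := mul_le_mul_of_nonneg_left h12 (mul_nonneg hK (hB0 f))
    have q3 := mul_nonneg (mul_nonneg hβ0.le hw) (hB0 f)
    simp only [hB] at *
    nlinarith
  have s4 : 2 * w * ∑ f ∈ A, sdeg H w A f * |psi (σ.2 f)|
      ≤ (2 + 2 * KR) * (β * w) * ∑ f ∈ A, B f := by
    rw [Finset.mul_sum, Finset.mul_sum]
    refine Finset.sum_le_sum fun f _ => ?_
    have h := hP f
    have h1 := mul_le_mul_of_nonneg_left (abs_psi_le (σ.2 f)) (mul_nonneg hw h.a_nonneg)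
    have h2 := two_mul_le_add_sq (t ^ 2 * |trunc (σ.2 f)|) (t ^ 6 * sdeg H w A f)
    have h3 := mul_le_mul_of_nonneg_left h.z_sq (pow_nonneg ht.le 4)
    have h4 := mul_le_mul_of_nonneg_left
      (h.pow_R h.a_nonneg h.a_le_R (show 2 ≤ 40 by norm_num)) (pow_nonneg ht.le 12)
    have q1 := mul_le_mul_of_nonneg_left h12 (hB0 f)
    have q2 := mul_le_mul_of_nonneg_left h12 (mul_nonneg hK (hB0 f))
    rw [mul_pow, mul_pow, sq_abs] at h2
    rw [← htw] at h1 ⊢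
    simp only [hB, ← htw] at *
    nlinarith
  have e : ∑ f ∈ A, B f = obsBase H w σ := rfl
  rw [e] at s1 s2 s3 s4
  unfold obsPhi obsNb CP
  linarith

/-- The drift of the scaled number of quads. -/
lemma drift_quad (hH : Linear H) (hw : 0 ≤ w) (σ : St V) :
    w * (8 * w ^ 3 * quadCount H σ.1 + jump H (obsQuad H w) σ)
      ≤ 28 * w * obsQuad H w σ
        + w ^ 4 * ∑ q ∈ quads H σ.1, ∑ x ∈ quadSupp H q, |sdeg H w σ.1 x - 1| := by
  obtain ⟨A, Z⟩ := σ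
  have hj := mul_le_mul_of_nonneg_left (jump_quad hH A) (pow_nonneg hw 5)
  have e : jump H (obsQuad H w) (A, Z)
      = w ^ 4 * ∑ T ∈ alive H A, (quadCount H (A \ T) - quadCount H A) := by
    simp only [jump, obsQuad, Finset.mul_sum, mul_sub]
  have e8 : 8 * quadCount H A - w * ∑ q ∈ quads H A, ∑ x ∈ quadSupp H q, deg H A x
      = -∑ q ∈ quads H A, ∑ x ∈ quadSupp H q, (sdeg H w A x - 1) := by
    have c : ∀ q ∈ quads H A, ∑ x ∈ quadSupp H q, (1:ℝ) = 8 := fun q hq => by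
      rw [Finset.sum_const, quad_supp_card hq]; norm_num
    simp only [Finset.sum_sub_distrib, sdeg, ← Finset.mul_sum]
    rw [Finset.sum_congr rfl c, Finset.sum_const, nsmul_eq_mul]
    unfold quadCount; ring
  have hn : -∑ q ∈ quads H A, ∑ x ∈ quadSupp H q, (sdeg H w A x - 1)
      ≤ ∑ q ∈ quads H A, ∑ x ∈ quadSupp H q, |sdeg H w A x - 1| := by
    rw [← Finset.sum_neg_distrib]
    refine Finset.sum_le_sum fun q _ => ?_
    rw [← Finset.sum_neg_distrib]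
    exact Finset.sum_le_sum fun x _ => neg_le_abs _
  have h1 := mul_le_mul_of_nonneg_left (e8.le.trans hn) (pow_nonneg hw 4)
  rw [e]
  unfold obsQuad
  dsimp only
  linear_combination hj + h1

/-- The constant of the quad absorption. -/
def CQ : ℝ := 300 + 50000 * KR

/-- The quads. -/
theorem absorb_quad (hH : Linear H) (ht : 0 < t) (ht1 : t ≤ 1) (htw : t ^ 8 = w)
    (hw256 : w ≤ 1/256) (σ : St V) :
    28 * w * obsQuad H w σ
        + w ^ 4 * ∑ q ∈ quads H σ.1, ∑ x ∈ quadSupp H q, |sdeg H w σ.1 x - 1|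
      ≤ 1/8 * obsQuad H w σ + CQ * t ^ 12 * obsBase H w σ := by
  have hw : 0 ≤ w := htw ▸ pow_nonneg ht.le 8
  have hwpos : 0 < w := htw ▸ pow_pos ht 8
  have hK := zero_le_one.trans one_le_KR
  set A := σ.1 with hA
  set a := sdeg H w A with ha
  set u : V → ℝ := fun x => |a x - 1| with hu
  set Λ := avgNb H w A a with hΛ
  set Λ2 := avgNb H w A (fun g => a g ^ 2) with hΛ2
  have h1 := mul_le_mul_of_nonneg_left (quad_weight_le hH A (h := u) fun x => abs_nonneg _)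
    (pow_nonneg hw 4)
  have c1 : w ^ 4 * ∑ f ∈ A, u f * deg H A f * ∑ g ∈ nbr H A f, deg H A g
      = w * ∑ f ∈ A, u f * (a f * Λ f) := by
    rw [Finset.mul_sum, Finset.mul_sum]
    refine Finset.sum_congr rfl fun f _ => ?_
    simp only [hΛ, ha, avgNb, sdeg]
    rw [← sum_nbr hH, ← Finset.mul_sum]; ring
  have c2 : w ^ 4 * ∑ x ∈ A, u x * ∑ T ∈ star H A x, ∏ g ∈ T.erase x, deg H A g
      ≤ w * ∑ f ∈ A, u f * Λ2 f := by
    rw [Finset.mul_sum, Finset.mul_sum]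
    refine Finset.sum_le_sum fun x _ => ?_
    rw [mul_left_comm, mul_left_comm w]
    refine mul_le_mul_of_nonneg_left ?_ (abs_nonneg _)
    simp only [hΛ2, avgNb, Finset.mul_sum]
    refine Finset.sum_le_sum fun T hT => ?_
    obtain ⟨g, k, hgk, e⟩ := Finset.card_eq_two.1 (show (T.erase x).card = 2 by
      rw [Finset.card_erase_of_mem (mem_star.1 hT).2.2, hH.card3 T (mem_star.1 hT).1])
    rw [e, Finset.prod_pair hgk, Finset.sum_pair hgk]
    simp only [ha, sdeg]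
    have := mul_le_mul_of_nonneg_left (show deg H A g * deg H A k ≤ deg H A g ^ 2 + deg H A k ^ 2 by
      nlinarith [two_mul_le_add_sq (deg H A g) (deg H A k), deg_nonneg (H := H) A g,
        deg_nonneg (H := H) A k]) (pow_nonneg hw 4)
    linarith
  have hΛ0 : ∀ f, 0 ≤ Λ f := fun f => mul_nonneg hw (Finset.sum_nonneg fun _ _ =>
    Finset.sum_nonneg fun g _ => sdeg_nonneg hw _ _)
  have split : ∀ X : V → ℝ, w * ∑ f ∈ A, u f * X f
      ≤ 4 * t ^ 12 * obsBase H w σ + t ^ 12 * ∑ f ∈ A, X f ^ 2 := by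
    intro X
    rw [obsBase, Finset.mul_sum, Finset.mul_sum, Finset.mul_sum, ← Finset.sum_add_distrib, ← hA]
    refine Finset.sum_le_sum fun f _ => ?_
    have h := pt_of H ht ht1 htw σ f
    set B := base w (sdeg H w A f) (mart H w A σ.2 f) (trunc (σ.2 f))
    have hu2 : (a f - 1) ^ 2 ≤ 4 * (t ^ 8 * B) := h.u_sq
    have h2 := mul_le_mul_of_nonneg_left hu2 (pow_nonneg ht.le 4)
    have h3 := two_mul_le_add_sq (t ^ 2 * u f) (t ^ 6 * X f)
    have h4 : u f ^ 2 = (a f - 1) ^ 2 := sq_abs _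
    have h5 : 0 ≤ B := h.base_nonneg
    rw [mul_pow, mul_pow, h4] at h3
    rw [← htw]
    nlinarith [mul_nonneg (pow_nonneg ht.le 12) h5, sq_nonneg (X f)]
  have hB0 : 0 ≤ obsBase H w σ := Finset.sum_nonneg fun f _ => (pt_of H ht ht1 htw σ f).base_nonneg
  have hbase : (A.card : ℝ) + obsPow H w σ ≤ obsBase H w σ := obsBase_ge H hwpos σ
  have m1 : ∑ f ∈ A, (a f * Λ f) ^ 2 ≤ 200 * obsBase H w σ := by
    have h4 := sum_avgNb_pow_le hH hw σ 1 3 (by norm_num) (by norm_num)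
    simp only [pow_one] at h4
    have e4 : ∑ f ∈ A, a f ^ 4 ≤ (σ.1.card : ℝ) + obsPow H w σ := by
      have e : (σ.1.card : ℝ) + obsPow H w σ = ∑ f ∈ A, (1 + a f ^ 48) := by
        simp [obsPow, Finset.sum_add_distrib, ha, hA]
      rw [e]
      refine Finset.sum_le_sum fun f _ => ?_
      rcases le_total (a f) 1 with h | h
      · linarith [pow_le_one₀ (n := 4) (sdeg_nonneg hw A f : 0 ≤ a f) h,
          pow_nonneg (sdeg_nonneg hw A f : 0 ≤ a f) 48]
      · linarith [pow_le_pow_right₀ h (show 4 ≤ 48 by norm_num)]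
    have e5 : ∑ f ∈ A, (a f * Λ f) ^ 2 ≤ ∑ f ∈ A, a f ^ 4 + ∑ f ∈ A, Λ f ^ 4 := by
      rw [← Finset.sum_add_distrib]
      exact Finset.sum_le_sum fun f _ => by
        nlinarith [two_mul_le_add_sq (a f ^ 2) (Λ f ^ 2), sq_nonneg (a f * Λ f)]
    norm_num at h4
    simp only [← hA, ← ha, ← hΛ] at h4 e4
    linarith
  have m2 : ∑ f ∈ A, Λ2 f ^ 2 ≤ 10 * obsBase H w σ := by
    have h4 := sum_avgNb_pow_le hH hw σ 2 1 (by norm_num) (by norm_num)
    norm_num at h4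
    simp only [← hA, ← ha, ← hΛ2] at h4
    linarith
  have m1' := mul_le_mul_of_nonneg_left m1 (pow_nonneg ht.le 12)
  have m2' := mul_le_mul_of_nonneg_left m2 (pow_nonneg ht.le 12)
  have hQ : 0 ≤ obsQuad H w σ := by unfold obsQuad quadCount; positivity
  have s1 : w * ∑ f ∈ A, u f * (a f * Λ f) ≤ _ := split (fun f => a f * Λ f)
  have s2 := split Λ2
  have hq := mul_le_mul_of_nonneg_right (show 28 * w ≤ 1/8 by linarith) hQ
  have hCQ : (4000:ℝ) ≤ CQ := by unfold CQ; linarith [one_le_KR]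
  have hc := mul_le_mul_of_nonneg_right hCQ (mul_nonneg (pow_nonneg ht.le 12) hB0)
  have h1' : w ^ 4 * ∑ q ∈ quads H A, ∑ x ∈ quadSupp H q, |sdeg H w A x - 1| ≤
      w ^ 4 * (16 * ∑ f ∈ A, u f * deg H A f * ∑ g ∈ nbr H A f, deg H A g +
        32 * ∑ x ∈ A, u x * ∑ T ∈ star H A x, ∏ g ∈ T.erase x, deg H A g) := h1
  refine le_trans (add_le_add le_rfl h1') ?_
  have hpos := mul_nonneg (pow_nonneg ht.le 12) hB0
  linear_combination 16 * c1 + 32 * c2 + 16 * s1 + 32 * s2 + 16 * m1' + 32 * m2' + hq + hc + 288 * hpos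

end Vale.Agent.P046
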