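import Mathlib
import Vale.Agent.P046.Drift

/-!
# P046: drift of the neighbourhood average of the martingale part
-/

open Finset

namespace Vale.Agent.P046

variable {V : Type*} [DecidableEq V] {H : Finset (Finset V)}

/-- `w⁵` times the sum of squared codegrees weighted by the degree of the far point. -/
noncomputable def codegMass (H : Finset (Finset V)) (w : ℝ) (A : Finset V) : ℝ :=
  w^5 * ∑ f ∈ A, ∑ z ∈ A.erase f, deg H A z * codeg H A f z ^ 2

/-- Sum of the martingale part over the two partners. -/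
noncomputable def partnerMart (H : Finset (Finset V)) (w : ℝ) (A : Finset V) (Z : V → ℝ) (f : V)
    (S : Finset V) : ℝ :=
  ∑ g ∈ S.erase f, mart H w A Z g

lemma sdeg_sdiff (w : ℝ) (A T : Finset V) (g : V) :
    sdeg H w (A \ T) g = sdeg H w A g - w * (hit H A g T : ℝ) := by
  unfold sdeg; rw [deg_sdiff]; ring

/-- The change of the neighbourhood average when `T` fires. -/
lemma martNb_sdiff (w : ℝ) (A : Finset V) (Z : V → ℝ) (f : V) (T : Finset V) :
    martNb H w (A \ T) Z f - martNb H w A Z f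
      = -(w * ∑ S ∈ (star H A f).filter (fun S => ¬ Disjoint S T), partnerMart H w A Z f S)
        - w^2 * ∑ S ∈ (star H A f).filter (fun S => Disjoint S T),
            ∑ g ∈ S.erase f, (hit H A g T : ℝ) := by
  have h1 := Finset.sum_filter_add_sum_filter_not (star H A f) (fun S => Disjoint S T)
    (fun S => partnerMart H w A Z f S)
  unfold martNb avgNb
  rw [star_sdiff]
  have e : ∀ S ∈ (star H A f).filter (fun S => Disjoint S T),
      ∑ g ∈ S.erase f, mart H w (A \ T) Z g
        = partnerMart H w A Z f S - w * ∑ g ∈ S.erase f, (hit H A g T : ℝ) := by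
    intro S _
    rw [partnerMart, Finset.mul_sum, ← Finset.sum_sub_distrib]
    refine Finset.sum_congr rfl fun g _ => ?_
    unfold mart; rw [sdeg_sdiff]; ring
  rw [Finset.sum_congr rfl e, Finset.sum_sub_distrib, ← Finset.mul_sum]
  simp only [partnerMart] at h1 ⊢
  linear_combination w * h1

/-- The excess: hits counted by the compensator although the triangle is killed. -/
lemma hit_excess_le (hH : Linear H) (A : Finset V) {f : V} {S : Finset V} (hS : S ∈ star H A f) :
    ∑ g ∈ S.erase f, loss H A g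
      - ∑ T ∈ (alive H A).filter (fun T => f ∉ T),
          (if Disjoint S T then ∑ g ∈ S.erase f, (hit H A g T : ℝ) else 0)
      ≤ 3 * ∑ g ∈ S.erase f, ∑ z ∈ S.erase g, deg H A z := by
  obtain ⟨hS1, hS2, hfS⟩ := mem_star.1 hS
  have e : ∑ T ∈ (alive H A).filter (fun T => f ∉ T),
        (if Disjoint S T then ∑ g ∈ S.erase f, (hit H A g T : ℝ) else 0)
      = ∑ g ∈ S.erase f, ∑ T ∈ (alive H A).filter (fun T => Disjoint S T), (hit H A g T : ℝ) := by
    rw [Finset.sum_comm' (s := S.erase f) (t := fun _ => (alive H A).filter (fun T => Disjoint S T))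
      (t' := (alive H A).filter (fun T => Disjoint S T)) (s' := fun _ => S.erase f)
      (fun x y => by tauto)]
    rw [← Finset.sum_filter, Finset.filter_filter]
    refine Finset.sum_congr (Finset.filter_congr fun T _ => ?_) fun T _ => rfl
    exact ⟨fun h => h.2, fun h => ⟨fun hf => Finset.disjoint_left.1 h hfS hf, h⟩⟩
  rw [e, ← Finset.sum_sub_distrib, Finset.mul_sum]
  refine Finset.sum_le_sum fun g hg => ?_
  have hgS := Finset.mem_of_mem_erase hg
  have hgstar : S ∈ star H A g := mem_star.2 ⟨hS1, hS2, hgS⟩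
  rw [← sum_hit hH A g]
  have hsub : (alive H A).filter (fun T => Disjoint S T)
      = ((alive H A).filter (fun T => g ∉ T)).filter (fun T => Disjoint S T) := by
    rw [Finset.filter_filter]
    refine Finset.filter_congr fun T _ => ?_
    exact ⟨fun h => ⟨fun hgT => Finset.disjoint_left.1 h hgS hgT, h⟩, fun h => h.2⟩
  rw [hsub, ← Finset.sum_filter_add_sum_filter_not ((alive H A).filter (fun T => g ∉ T))
    (fun T => Disjoint S T), add_sub_cancel_left]
  refine (Finset.sum_le_sum (g := fun _ => (3:ℝ)) fun T hT => ?_).trans ?_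
  · obtain ⟨hT1, -⟩ := Finset.mem_filter.1 hT
    obtain ⟨hT2, hT3⟩ := Finset.mem_filter.1 hT1
    exact_mod_cast hit_le_three hH A (mem_alive.1 hT2).1 hT3
  · rw [Finset.sum_const, nsmul_eq_mul, meet_count hH A hgstar, mul_comm]
    refine mul_le_mul_of_nonneg_left (Finset.sum_le_sum fun z _ => ?_) (by norm_num)
    linarith

/-- Rate bound for the squared neighbourhood average. -/
lemma drift_martNb (hH : Linear H) {w : ℝ} (hw : 0 ≤ w) (σ : St V) :
    w * ((∑ f ∈ σ.1, 2 * martNb H w σ.1 σ.2 f *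
            (2 * ∑ S ∈ star H σ.1 f, partnerMart H w σ.1 σ.2 f S
              + w^2 * ∑ S ∈ star H σ.1 f, ∑ g ∈ S.erase f, loss H σ.1 g))
        + jump H (fun τ => ∑ f ∈ τ.1, martNb H w τ.1 τ.2 f ^ 2) σ)
      ≤ -(∑ f ∈ σ.1, sdeg H w σ.1 f * martNb H w σ.1 σ.2 f ^ 2)
        + (∑ f ∈ σ.1, 2 * |martNb H w σ.1 σ.2 f| *
            (w * ∑ S ∈ star H σ.1 f,
              |∑ g ∈ S.erase f, (sdeg H w σ.1 g - 1)| * |partnerMart H w σ.1 σ.2 f S|))
        + (4 * w * ∑ f ∈ σ.1, martNb H w σ.1 σ.2 f ^ 2)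
        + (6 * w * ∑ f ∈ σ.1, |martNb H w σ.1 σ.2 f| *
            (2 * sdeg H w σ.1 f ^ 2 + avgNb H w σ.1 (sdeg H w σ.1) f))
        + (6 * w^2 * ∑ f ∈ σ.1, ∑ S ∈ star H σ.1 f,
            (2 + |∑ g ∈ S.erase f, (sdeg H w σ.1 g - 1)|) * partnerMart H w σ.1 σ.2 f S ^ 2)
        + 6 * codegMass H w σ.1 := by
  obtain ⟨A, Z⟩ := σ
  rw [jump_sum (fun A Z f => martNb H w A Z f ^ 2)]
  dsimp only
  set D := martNb H w A Z with hD
  set a := sdeg H w A with ha
  set P := fun f S => partnerMart H w A Z f S with hP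
  have key : ∀ f ∈ A,
      w * (2 * D f * (2 * ∑ S ∈ star H A f, P f S
              + w^2 * ∑ S ∈ star H A f, ∑ g ∈ S.erase f, loss H A g))
        + w * ∑ T ∈ (alive H A).filter (fun T => f ∉ T), (martNb H w (A \ T) Z f ^ 2 - D f ^ 2)
      ≤ 2 * |D f| * (w * ∑ S ∈ star H A f, |∑ g ∈ S.erase f, (a g - 1)| * |P f S|)
        + 4 * w * D f ^ 2 + 6 * w * (|D f| * (2 * a f ^ 2 + avgNb H w A a f))
        + 6 * w^2 * ∑ S ∈ star H A f, (2 + |∑ g ∈ S.erase f, (a g - 1)|) * P f S ^ 2
        + 6 * (w^5 * ∑ z ∈ A.erase f, deg H A z * codeg H A f z ^ 2) := by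
    intro f hf
    set 𝒯 := (alive H A).filter (fun T => f ∉ T) with h𝒯
    set σc := fun S : Finset V => ∑ g ∈ S.erase f, (deg H A g - 1) with hσc
    -- decomposition of the jumps
    set κ := fun T : Finset V => ∑ S ∈ (star H A f).filter (fun S => ¬ Disjoint S T), P f S with hκ
    set η := fun T : Finset V => ∑ S ∈ (star H A f).filter (fun S => Disjoint S T),
            ∑ g ∈ S.erase f, (hit H A g T : ℝ) with hη
    have hsplit : ∀ T ∈ 𝒯, martNb H w (A \ T) Z f ^ 2 - D f ^ 2
        ≤ -2 * w * D f * κ T - 2 * w^2 * D f * η T + 2 * w^2 * κ T ^ 2 + 2 * w^4 * η T ^ 2 := by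
      intro T _
      have h := martNb_sdiff (H := H) w A Z f T
      have e : martNb H w (A \ T) Z f = D f + (-(w * κ T) - w^2 * η T) := by
        simp only [hD, hκ, hη, hP] at h ⊢; linarith
      rw [e]
      nlinarith [sq_nonneg (w * κ T - w^2 * η T)]
    have hκsum : ∀ F : Finset V → ℝ,
        ∑ T ∈ 𝒯, ∑ S ∈ (star H A f).filter (fun S => ¬ Disjoint S T), F S
          = ∑ S ∈ star H A f, σc S * F S := by
      intro F
      rw [Finset.sum_comm' (s' := fun S => 𝒯.filter (fun T => ¬ Disjoint S T)) (t' := star H A f)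
        (fun T S => by simp only [Finset.mem_filter]; tauto)]
      refine Finset.sum_congr rfl fun S hS => ?_
      rw [Finset.sum_const, nsmul_eq_mul, h𝒯, meet_count hH A hS]
    have hηsum : ∑ S ∈ star H A f, ∑ g ∈ S.erase f, loss H A g - ∑ T ∈ 𝒯, η T
        ≤ 3 * ∑ S ∈ star H A f, ∑ g ∈ S.erase f, ∑ z ∈ S.erase g, deg H A z := by
      have e : ∑ T ∈ 𝒯, η T = ∑ S ∈ star H A f, ∑ T ∈ 𝒯,
          (if Disjoint S T then ∑ g ∈ S.erase f, (hit H A g T : ℝ) else 0) := by
        rw [Finset.sum_comm]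
        exact Finset.sum_congr rfl fun T _ => by simp only [hη]; rw [Finset.sum_filter]
      rw [e, ← Finset.sum_sub_distrib, Finset.mul_sum]
      exact Finset.sum_le_sum fun S hS => hit_excess_le hH A hS
    have hexc0 : 0 ≤ ∑ S ∈ star H A f, ∑ g ∈ S.erase f, loss H A g - ∑ T ∈ 𝒯, η T := by
      have e : ∑ S ∈ star H A f, ∑ g ∈ S.erase f, loss H A g
          = ∑ S ∈ star H A f, ∑ g ∈ S.erase f,
              ∑ T ∈ (alive H A).filter (fun T => g ∉ T), (hit H A g T : ℝ) := by
        simp only [sum_hit hH]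
      have e2 : ∑ T ∈ 𝒯, η T = ∑ S ∈ star H A f, ∑ g ∈ S.erase f,
          ∑ T ∈ 𝒯.filter (fun T => Disjoint S T), (hit H A g T : ℝ) := by
        rw [Finset.sum_comm' (s' := fun S => 𝒯.filter (fun T => Disjoint S T)) (t' := star H A f)
          (fun T S => by simp only [Finset.mem_filter]; tauto)]
        exact Finset.sum_congr rfl fun S _ => Finset.sum_comm
      rw [e, e2, sub_nonneg]
      refine Finset.sum_le_sum fun S _ => Finset.sum_le_sum fun g hg => ?_
      refine Finset.sum_le_sum_of_subset_of_nonneg ?_ (fun _ _ _ => Nat.cast_nonneg _)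
      intro T hT
      obtain ⟨hT1, hT2⟩ := Finset.mem_filter.1 hT
      exact Finset.mem_filter.2 ⟨(Finset.mem_filter.1 hT1).1,
        fun h => Finset.disjoint_left.1 hT2 (Finset.mem_of_mem_erase hg) h⟩
    have hκsq : ∀ T ∈ 𝒯, κ T ^ 2
        ≤ 3 * ∑ S ∈ (star H A f).filter (fun S => ¬ Disjoint S T), P f S ^ 2 := by
      intro T hT
      refine (sq_sum_le_card_mul_sum_sq).trans (mul_le_mul_of_nonneg_right ?_ (by positivity))
      obtain ⟨hT1, hT2⟩ := Finset.mem_filter.1 hT
      exact_mod_cast hit_le_three hH A (mem_alive.1 hT1).1 hT2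
    have hη_le : ∀ T ∈ 𝒯, η T ≤ ∑ z ∈ T, codeg H A f z := by
      intro T _
      calc η T ≤ ∑ S ∈ (star H A f).filter (fun S => Disjoint S T), ∑ g ∈ S.erase f,
              ∑ z ∈ T, (if g ∈ nbr H A z then (1:ℝ) else 0) := by
            refine Finset.sum_le_sum fun S hS => Finset.sum_le_sum fun g hg => ?_
            exact hit_adj_le hH A (fun h => Finset.disjoint_left.1 (Finset.mem_filter.1 hS).2
              (Finset.mem_of_mem_erase hg) h)
        _ ≤ ∑ S ∈ star H A f, ∑ g ∈ S.erase f,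
              ∑ z ∈ T, (if g ∈ nbr H A z then (1:ℝ) else 0) :=
            Finset.sum_le_sum_of_subset_of_nonneg (Finset.filter_subset _ _) (fun _ _ _ =>
              Finset.sum_nonneg fun _ _ => Finset.sum_nonneg fun _ _ => by split_ifs <;> norm_num)
        _ = ∑ g ∈ nbr H A f, ∑ z ∈ T, (if g ∈ nbr H A z then (1:ℝ) else 0) :=
            (sum_nbr hH A f _).symm
        _ = ∑ z ∈ T, codeg H A f z := by
            rw [Finset.sum_comm]
            refine Finset.sum_congr rfl fun z _ => ?_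
            rw [Finset.sum_boole, Finset.filter_mem_eq_inter]; rfl
    have hη0 : ∀ T, 0 ≤ η T := fun T =>
      Finset.sum_nonneg fun _ _ => Finset.sum_nonneg fun _ _ => Nat.cast_nonneg _
    have hηsq : ∑ T ∈ 𝒯, η T ^ 2 ≤ 3 * ∑ z ∈ A.erase f, deg H A z * codeg H A f z ^ 2 := by
      calc ∑ T ∈ 𝒯, η T ^ 2 ≤ ∑ T ∈ 𝒯, 3 * ∑ z ∈ T, codeg H A f z ^ 2 := by
            refine Finset.sum_le_sum fun T hT => ?_
            refine (pow_le_pow_left₀ (hη0 T) (hη_le T hT) 2).trans ?_
            refine (sq_sum_le_card_mul_sum_sq).trans (le_of_eq ?_)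
            rw [hH.card3 T (mem_alive.1 (Finset.mem_filter.1 hT).1).1]; norm_num
        _ = 3 * ∑ z ∈ A.erase f, ∑ T ∈ (star H A z).filter (fun T => f ∉ T),
              codeg H A f z ^ 2 := by
            rw [← Finset.mul_sum]
            congr 1
            refine Finset.sum_comm' fun T z => ?_
            simp only [h𝒯, Finset.mem_filter, mem_alive, mem_star, Finset.mem_erase]
            constructor
            · rintro ⟨⟨⟨h1, h2⟩, h3⟩, h4⟩
              exact ⟨⟨⟨h1, h2, h4⟩, h3⟩, fun h => h3 (h ▸ h4), h2 h4⟩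
            · rintro ⟨⟨⟨h1, h2, h4⟩, h3⟩, -⟩; exact ⟨⟨⟨h1, h2⟩, h3⟩, h4⟩
        _ ≤ _ := by
            refine mul_le_mul_of_nonneg_left (Finset.sum_le_sum fun z _ => ?_) (by norm_num)
            rw [Finset.sum_const, nsmul_eq_mul]
            refine mul_le_mul_of_nonneg_right ?_ (sq_nonneg _)
            unfold deg
            exact_mod_cast Finset.card_filter_le _ _
    have hsum := Finset.sum_le_sum hsplit
    simp only [Finset.sum_add_distrib, Finset.sum_sub_distrib, ← Finset.mul_sum] at hsum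
    have hk1 : ∑ T ∈ 𝒯, κ T = ∑ S ∈ star H A f, σc S * P f S := hκsum (fun S => P f S)
    have hk2 : ∑ T ∈ 𝒯, κ T ^ 2 ≤ 3 * ∑ S ∈ star H A f, σc S * P f S ^ 2 := by
      refine (Finset.sum_le_sum hκsq).trans (le_of_eq ?_)
      rw [← Finset.mul_sum, hκsum (fun S => P f S ^ 2)]
    -- rewrite in scaled degrees
    have hσw : ∀ S ∈ star H A f, w * σc S = 2 + (∑ g ∈ S.erase f, (a g - 1)) - 2 * w := by
      intro S hS
      obtain ⟨a1, -, a3⟩ := mem_star.1 hS
      simp only [hσc, ha, sdeg, Finset.sum_sub_distrib, Finset.sum_const, nsmul_eq_mul,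
        Finset.card_erase_of_mem a3, hH.card3 S a1, ← Finset.mul_sum]
      push_cast; ring
    have hlin : w * (∑ S ∈ star H A f, σc S * P f S)
        = ∑ S ∈ star H A f, (∑ g ∈ S.erase f, (a g - 1)) * P f S
          + (2 - 2 * w) * ∑ S ∈ star H A f, P f S := by
      rw [Finset.mul_sum, Finset.mul_sum, ← Finset.sum_add_distrib]
      refine Finset.sum_congr rfl fun S hS => ?_
      rw [← mul_assoc, hσw S hS]; ring
    have hDeq : D f = w * ∑ S ∈ star H A f, P f S := rfl
    have hw3 : w^2 * (∑ S ∈ star H A f, ∑ g ∈ S.erase f, ∑ z ∈ S.erase g, deg H A z)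
        = 2 * a f ^ 2 + avgNb H w A a f := by
      have e : ∀ S ∈ star H A f, ∑ g ∈ S.erase f, ∑ z ∈ S.erase g, deg H A z
          = 2 * deg H A f + ∑ g ∈ S.erase f, deg H A g := by
        intro S hS
        obtain ⟨a1, -, a3⟩ := mem_star.1 hS
        have e1 : ∀ g ∈ S.erase f, ∑ z ∈ S.erase g, deg H A z
            = (deg H A f + ∑ z ∈ S.erase f, deg H A z) - deg H A g := fun g hg => by
          rw [Finset.sum_erase_eq_sub (Finset.mem_of_mem_erase hg),
            ← Finset.add_sum_erase S _ a3]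
        rw [Finset.sum_congr rfl e1, Finset.sum_sub_distrib, Finset.sum_const, nsmul_eq_mul,
          Finset.card_erase_of_mem a3, hH.card3 S a1]
        push_cast; ring
      rw [Finset.sum_congr rfl e, Finset.sum_add_distrib, Finset.sum_const, nsmul_eq_mul]
      simp only [avgNb, ha, sdeg, deg, ← Finset.mul_sum]
      ring
    have hσ2 : w^3 * ∑ S ∈ star H A f, σc S * P f S ^ 2
        ≤ w^2 * ∑ S ∈ star H A f, (2 + |∑ g ∈ S.erase f, (a g - 1)|) * P f S ^ 2 := by
      rw [Finset.mul_sum, Finset.mul_sum]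
      refine Finset.sum_le_sum fun S hS => ?_
      have h1 : w * σc S ≤ 2 + |∑ g ∈ S.erase f, (a g - 1)| := by
        rw [hσw S hS]; linarith [le_abs_self (∑ g ∈ S.erase f, (a g - 1))]
      calc w^3 * (σc S * P f S ^ 2) = w^2 * ((w * σc S) * P f S ^ 2) := by ring
        _ ≤ _ := mul_le_mul_of_nonneg_left (mul_le_mul_of_nonneg_right h1 (sq_nonneg _)) (sq_nonneg _)
    have hA : -(2 * D f * (w * ∑ S ∈ star H A f, (∑ g ∈ S.erase f, (a g - 1)) * P f S))
        ≤ 2 * |D f| * (w * ∑ S ∈ star H A f, |∑ g ∈ S.erase f, (a g - 1)| * |P f S|) := by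
      refine (neg_le_abs _).trans ?_
      rw [abs_mul, abs_mul, abs_two, abs_mul, abs_of_nonneg hw]
      refine mul_le_mul_of_nonneg_left (mul_le_mul_of_nonneg_left ?_ hw) (by positivity)
      refine (Finset.abs_sum_le_sum_abs _ _).trans (le_of_eq ?_)
      exact Finset.sum_congr rfl fun S _ => abs_mul _ _
    have hB : 2 * w^3 * D f *
          (∑ S ∈ star H A f, ∑ g ∈ S.erase f, loss H A g - ∑ T ∈ 𝒯, η T)
        ≤ 6 * w * (|D f| * (2 * a f ^ 2 + avgNb H w A a f)) := by
      rw [← hw3]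
      have h1 := mul_le_mul_of_nonneg_left hηsum
        (show 0 ≤ 2 * w^3 * |D f| by positivity)
      have h2 := mul_le_mul_of_nonneg_right (le_abs_self (D f))
        (mul_nonneg (show 0 ≤ 2 * w^3 by positivity) hexc0)
      nlinarith
    have hw1 := mul_le_mul_of_nonneg_left hsum hw
    have hC : 6 * w^3 * ∑ S ∈ star H A f, σc S * P f S ^ 2
        ≤ 6 * w^2 * ∑ S ∈ star H A f, (2 + |∑ g ∈ S.erase f, (a g - 1)|) * P f S ^ 2 := by
      nlinarith [hσ2]
    have hC' := mul_le_mul_of_nonneg_left hk2 (show 0 ≤ 2 * w^3 by positivity)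
    have hE' := mul_le_mul_of_nonneg_left hηsq (show 0 ≤ 2 * w^5 by positivity)
    rw [Finset.sum_sub_distrib]
    rw [hk1] at hw1
    have e1 : 2 * w^2 * D f * (∑ S ∈ star H A f, σc S * P f S)
        = 2 * D f * (w * ∑ S ∈ star H A f, (∑ g ∈ S.erase f, (a g - 1)) * P f S)
          + (4 - 4 * w) * D f * D f := by
      linear_combination (2 * w * D f) * hlin + (-(4 - 4 * w) * D f) * hDeq
    have e0 : 4 * w * D f * (∑ S ∈ star H A f, P f S) = 4 * D f * D f := by
      linear_combination (-4 * D f) * hDeq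
    linear_combination hw1 + hA + hB + hC + hC' + hE' + e0 - e1
  have hs := Finset.sum_le_sum key
  simp only [Finset.sum_add_distrib, ← Finset.mul_sum] at hs
  have e2 : w * ∑ f ∈ A, deg H A f * D f ^ 2 = ∑ f ∈ A, a f * D f ^ 2 := by
    rw [Finset.mul_sum]; exact Finset.sum_congr rfl fun f _ => by simp only [ha, sdeg]; ring
  unfold codegMass
  simp only [hP] at hs
  nlinarith [hs, e2]

end Vale.Agent.P046
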