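import Mathlib
import Vale.Agent.P046.Absorb
import Vale.Agent.P046.DriftW

/-!
# P046: absorption for the neighbourhood average of the martingale part
-/

open Finset

namespace Vale.Agent.P046

variable {V : Type*} [DecidableEq V] {H : Finset (Finset V)} {t w : ℝ}

/-- The constant of the absorption for the neighbourhood average. -/
def CW : ℝ := 100000 * KR

lemma CW_nonneg : 0 ≤ CW := by norm_num [CW, KR]

private lemma term_le {t a u m : ℝ} (ht : 0 < t) :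
    a * u ^ 2 * m ^ 2 ≤ t ^ 4 * u ^ 2 + m ^ 8 / t ^ 20 + t ^ 12 * (a ^ 8 + u ^ 8) := by
  have h1 := two_mul_le_add_sq (t ^ 2 * |u|) (a * |u| * m ^ 2 / t ^ 2)
  have e1 : t ^ 2 * |u| * (a * |u| * m ^ 2 / t ^ 2) = a * u ^ 2 * m ^ 2 := by
    field_simp
    rw [← sq_abs u]; ring
  have e2 : (a * |u| * m ^ 2 / t ^ 2) ^ 2 = (a * u) ^ 2 * m ^ 4 / t ^ 4 := by
    rw [div_pow, mul_pow, mul_pow, sq_abs]; ring
  have h2 := two_mul_le_add_sq (m ^ 4 / t ^ 8) (t ^ 8 * (a * u) ^ 2)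
  have e3 : m ^ 4 / t ^ 8 * (t ^ 8 * (a * u) ^ 2) = (a * u) ^ 2 * m ^ 4 := by field_simp
  have h3 := two_mul_le_add_sq (a ^ 4) (u ^ 4)
  have h4 : (a * u) ^ 4 ≤ a ^ 8 + u ^ 8 := by
    nlinarith [mul_nonneg (pow_nonneg (sq_nonneg a) 2) (pow_nonneg (sq_nonneg u) 2)]
  have h5 : (a * u) ^ 2 * m ^ 4 ≤ m ^ 8 / t ^ 16 + t ^ 16 * (a ^ 8 + u ^ 8) := by
    have e4 : (m ^ 4 / t ^ 8) ^ 2 = m ^ 8 / t ^ 16 := by rw [div_pow, ← pow_mul, ← pow_mul]
    have h6 := mul_le_mul_of_nonneg_left h4 (pow_nonneg ht.le 16)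
    have : 0 ≤ (a * u) ^ 2 * m ^ 4 := mul_nonneg (sq_nonneg _) ((show Even 4 by decide).pow_nonneg m)
    nlinarith
  have h6 := div_le_div_of_nonneg_right h5 (pow_nonneg ht.le 4)
  have e5 : (m ^ 8 / t ^ 16 + t ^ 16 * (a ^ 8 + u ^ 8)) / t ^ 4
      = m ^ 8 / t ^ 20 + t ^ 12 * (a ^ 8 + u ^ 8) := by field_simp
  rw [e5] at h6
  rw [mul_pow (t ^ 2), sq_abs, e2] at h1
  have : 0 ≤ t ^ 4 * u ^ 2 := by positivity
  have : 0 ≤ m ^ 8 / t ^ 20 + t ^ 12 * (a ^ 8 + u ^ 8) := by positivity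
  linarith

private lemma pair_cross {t a u v m n : ℝ} (ht : 0 < t) (ha : 0 ≤ a) :
    a * ((u + v) ^ 2 * (m + n) ^ 2)
      ≤ 8 * (t ^ 4 * u ^ 2 + m ^ 8 / t ^ 20 + t ^ 12 * u ^ 8 + t ^ 12 * a ^ 8)
        + 8 * (t ^ 4 * v ^ 2 + n ^ 8 / t ^ 20 + t ^ 12 * v ^ 8 + t ^ 12 * a ^ 8) := by
  have hu : (u + v) ^ 2 ≤ 2 * u ^ 2 + 2 * v ^ 2 := by nlinarith [two_mul_le_add_sq u v]
  have hm : (m + n) ^ 2 ≤ 2 * m ^ 2 + 2 * n ^ 2 := by nlinarith [two_mul_le_add_sq m n]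
  have h := mul_le_mul_of_nonneg_left (mul_le_mul hu hm (sq_nonneg _) (by positivity)) ha
  linarith [term_le (a := a) (u := u) (m := m) ht, term_le (a := a) (u := u) (m := n) ht,
    term_le (a := a) (u := v) (m := m) ht, term_le (a := a) (u := v) (m := n) ht]

private lemma pair_small {t u v m n : ℝ} (ht : 0 < t) :
    (2 + |u + v|) * (m + n) ^ 2
      ≤ (4 * t ^ 8 + 4 * t ^ 8 * u ^ 2 + 8 * (m ^ 4 / t ^ 8))
        + (4 * t ^ 8 + 4 * t ^ 8 * v ^ 2 + 8 * (n ^ 4 / t ^ 8)) := by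
  have h1 := two_mul_le_add_sq (t ^ 4 * (2 + |u + v|)) ((m + n) ^ 2 / t ^ 4)
  have e1 : t ^ 4 * (2 + |u + v|) * ((m + n) ^ 2 / t ^ 4) = (2 + |u + v|) * (m + n) ^ 2 := by
    field_simp
  have e2 : ((m + n) ^ 2 / t ^ 4) ^ 2 = (m + n) ^ 4 / t ^ 8 := by rw [div_pow, ← pow_mul, ← pow_mul]
  have h2 : (m + n) ^ 4 ≤ 8 * m ^ 4 + 8 * n ^ 4 := by
    nlinarith [two_mul_le_add_sq m n, sq_nonneg (m ^ 2 - n ^ 2), sq_nonneg (m - n),
      sq_nonneg (m + n)]
  have h3 : (2 + |u + v|) ^ 2 ≤ 8 + 4 * u ^ 2 + 4 * v ^ 2 := by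
    nlinarith [two_mul_le_add_sq (2:ℝ) |u + v|, sq_abs (u + v), two_mul_le_add_sq u v]
  have h4 := div_le_div_of_nonneg_right h2 (pow_nonneg ht.le 8)
  have h5 := mul_le_mul_of_nonneg_left h3 (pow_nonneg ht.le 8)
  have : 0 ≤ (2 + |u + v|) * (m + n) ^ 2 := by positivity
  rw [mul_pow, e2, ← pow_mul] at h1
  rw [add_div, mul_div_assoc, mul_div_assoc] at h4
  linarith

/-- The squared neighbourhood average. -/
theorem absorb_nb (hH : Linear H) (ht : 0 < t) (ht1 : t ≤ 1) (htw : t ^ 8 = w)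
    (hw256 : w ≤ 1 / 256) {β : ℝ} (hβ : t ≤ β) (_hβ2 : β ≤ 2) (σ : St V) :
    -(∑ f ∈ σ.1, sdeg H w σ.1 f * martNb H w σ.1 σ.2 f ^ 2)
        + (∑ f ∈ σ.1, 2 * |martNb H w σ.1 σ.2 f| *
            (w * ∑ S ∈ star H σ.1 f,
              |∑ g ∈ S.erase f, (sdeg H w σ.1 g - 1)| * |partnerMart H w σ.1 σ.2 f S|))
        + (4 * w * ∑ f ∈ σ.1, martNb H w σ.1 σ.2 f ^ 2)
        + (6 * w * ∑ f ∈ σ.1, |martNb H w σ.1 σ.2 f| *
            (2 * sdeg H w σ.1 f ^ 2 + avgNb H w σ.1 (sdeg H w σ.1) f))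
        + (6 * w^2 * ∑ f ∈ σ.1, ∑ S ∈ star H σ.1 f,
            (2 + |∑ g ∈ S.erase f, (sdeg H w σ.1 g - 1)|) * partnerMart H w σ.1 σ.2 f S ^ 2)
        + 6 * codegMass H w σ.1
      ≤ 1 / 4 * obsNb H w σ
        + CW * (obsQuad H w σ / β + β ^ 2 * w * obsBase H w σ) := by
  have hw : 0 ≤ w := htw ▸ pow_nonneg ht.le 8
  have hwpos : 0 < w := htw ▸ pow_pos ht 8
  have hβ0 : 0 < β := ht.trans_le hβ
  have hK := zero_le_one.trans one_le_KR
  set A := σ.1 with hA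
  set Z := σ.2
  set a := sdeg H w A with ha
  set M := mart H w A Z with hM
  set D := martNb H w A Z with hD
  set Λ := avgNb H w A a with hΛ
  set B : V → ℝ := fun f => base w (a f) (M f) (trunc (Z f)) with hB
  have hP : ∀ f, Pt t w (a f) (M f) (trunc (Z f)) := fun f => pt_of H ht ht1 htw σ f
  have hB0 : ∀ f, 0 ≤ B f := fun f => (hP f).base_nonneg
  have hbase : ∑ f ∈ A, B f = obsBase H w σ := rfl
  have hBB : 0 ≤ obsBase H w σ := hbase ▸ Finset.sum_nonneg fun f _ => hB0 f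
  have a0 : ∀ f, 0 ≤ a f := fun f => sdeg_nonneg hw _ _
  have hb : t ^ 11 ≤ β ^ 2 * w := by
    rw [← htw]
    have h1 := mul_le_mul_of_nonneg_right (pow_le_pow_left₀ ht.le hβ 2) (pow_nonneg ht.le 8)
    have h2 := pow_le_pow_of_le_one ht.le ht1 (show 10 ≤ 11 by norm_num)
    linarith [show t ^ 2 * t ^ 8 = t ^ 10 by ring]
  have pairs : ∀ f, ∀ S ∈ star H A f, ∃ g k, g ≠ k ∧ S.erase f = {g, k} := fun f S hS =>
    Finset.card_eq_two.1 (by
      rw [Finset.card_erase_of_mem (mem_star.1 hS).2.2, hH.card3 S (mem_star.1 hS).1])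
  -- cross term
  set X : V → ℝ := fun f => w * ∑ S ∈ star H A f,
    |∑ g ∈ S.erase f, (a g - 1)| * |partnerMart H w A Z f S| with hX
  set G : V → V → ℝ := fun f g => 8 * (t ^ 4 * (a g - 1) ^ 2 + M g ^ 8 / t ^ 20
    + t ^ 12 * (a g - 1) ^ 8 + t ^ 12 * a f ^ 8) with hG
  have x1 : ∀ f ∈ A, X f ^ 2 ≤ avgNb H w A (G f) f := by
    intro f _
    simp only [hX, avgNb]
    rw [mul_pow]
    refine (mul_le_mul_of_nonneg_left (sq_sum_le_card_mul_sum_sq) (sq_nonneg w)).trans ?_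
    rw [show ((star H A f).card : ℝ) = deg H A f from rfl, ← mul_assoc, sq w, mul_assoc w w,
      show w * deg H A f = a f from rfl, mul_assoc, Finset.mul_sum]
    refine mul_le_mul_of_nonneg_left (Finset.sum_le_sum fun S hS => ?_) hw
    obtain ⟨g, k, hgk, e⟩ := pairs f S hS
    rw [mul_pow, sq_abs, sq_abs, partnerMart, e, Finset.sum_pair hgk, Finset.sum_pair hgk,
      Finset.sum_pair hgk]
    refine (pair_cross ht (a0 f)).trans (le_of_eq ?_)
    simp only [hG, hM]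
  have hG1 := sum_avgNb_le hH hw A (F := G) (p := fun f => 8 * (t ^ 12 * a f ^ 8))
    (q := fun g => 8 * (t ^ 4 * (a g - 1) ^ 2 + M g ^ 8 / t ^ 20 + t ^ 12 * (a g - 1) ^ 8))
    (fun f _ g _ => le_of_eq (by simp only [hG]; ring))
  have hG2 : ∑ f ∈ A, a f * (8 * (t ^ 12 * a f ^ 8)
      + 8 * (t ^ 4 * (a f - 1) ^ 2 + M f ^ 8 / t ^ 20 + t ^ 12 * (a f - 1) ^ 8))
      ≤ 100 * KR * t ^ 11 * obsBase H w σ := by
    rw [← hbase, Finset.mul_sum]
    refine Finset.sum_le_sum fun f _ => ?_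
    have h := hP f
    have p1 := mul_le_mul_of_nonneg_left
      (h.a_mul_pow (a0 f) h.a_le_R (show 8 + 1 ≤ 40 by norm_num)) (pow_nonneg ht.le 12)
    have p2 := h.t4_au_sq
    have p3 := h.a_mom (show 2 * 3 + 1 < 20 by norm_num)
    norm_num at p3
    have p4 := mul_le_mul_of_nonneg_left
      (h.a_mul_pow (abs_nonneg _) h.u_le_R (show 8 + 1 ≤ 40 by norm_num)) (pow_nonneg ht.le 12)
    rw [Even.pow_abs (show Even 8 by decide)] at p4
    have p5 : a f * (M f ^ 8 / t ^ 20) ≤ 2 * KR * t ^ 12 * B f := by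
      rw [mul_div_assoc', div_le_iff₀ (by positivity)]
      simp only [hB]
      linarith [show 2 * KR * t ^ 12 * base w (a f) (M f) (trunc (Z f)) * t ^ 20
        = 2 * KR * t ^ 32 * base w (a f) (M f) (trunc (Z f)) by ring]
    have q1 := mul_le_mul_of_nonneg_right (h.pow_t (show 11 ≤ 12 by norm_num))
      (mul_nonneg hK (hB0 f))
    have q2 := mul_le_mul_of_nonneg_right one_le_KR (mul_nonneg (pow_nonneg ht.le 11) (hB0 f))
    have q3 := mul_nonneg (pow_nonneg ht.le 11) (mul_nonneg hK (hB0 f))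
    simp only [hB] at *
    linarith
  have t2 : ∑ f ∈ A, 2 * |D f| * X f
      ≤ 1 / 16 * (∑ f ∈ A, D f ^ 2) + 3200 * KR * t ^ 11 * obsBase H w σ := by
    have h1 : ∀ f ∈ A, 2 * |D f| * X f ≤ 1 / 16 * D f ^ 2 + 16 * avgNb H w A (G f) f :=
      fun f hf => by
        nlinarith [two_mul_le_add_sq (|D f| / 4) (4 * X f), sq_abs (D f), x1 f hf]
    refine (Finset.sum_le_sum h1).trans ?_
    rw [Finset.sum_add_distrib, ← Finset.mul_sum, ← Finset.mul_sum]
    linarith [hG1.trans (mul_le_mul_of_nonneg_left hG2 (by norm_num : (0:ℝ) ≤ 2))]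
  -- the term `|D| (2a²+Λ)`
  have hΛ2 : ∑ f ∈ A, Λ f ^ 2 ≤ 10 * obsBase H w σ := by
    have h := sum_avgNb_pow_le hH hw σ 1 1 (by norm_num) (by norm_num)
    norm_num at h
    simp only [← hA, ← ha, ← hΛ] at h
    linarith [(obsBase_ge H hwpos σ : (A.card : ℝ) + obsPow H w σ ≤ obsBase H w σ)]
  have hak : ∀ k ≤ 40, ∑ f ∈ A, a f ^ k ≤ KR * obsBase H w σ := by
    intro k hk
    rw [← hbase, Finset.mul_sum]
    exact Finset.sum_le_sum fun f _ => (hP f).pow_R (a0 f) (hP f).a_le_R hk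
  have t4 : 6 * w * ∑ f ∈ A, |D f| * (2 * a f ^ 2 + Λ f)
      ≤ 1 / 16 * (∑ f ∈ A, D f ^ 2) + w ^ 2 * (4320 * KR * obsBase H w σ) := by
    have h1 : ∀ f ∈ A, 6 * w * (|D f| * (2 * a f ^ 2 + Λ f))
        ≤ 1 / 16 * D f ^ 2 + w ^ 2 * (1152 * a f ^ 4 + 288 * Λ f ^ 2) := fun f _ => by
      nlinarith [two_mul_le_add_sq (|D f| / 4) (12 * w * (2 * a f ^ 2 + Λ f)), sq_abs (D f),
        mul_nonneg (sq_nonneg w) (sq_nonneg (2 * a f ^ 2 - Λ f))]
    rw [Finset.mul_sum]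
    refine (Finset.sum_le_sum h1).trans ?_
    rw [Finset.sum_add_distrib, ← Finset.mul_sum, ← Finset.mul_sum, Finset.sum_add_distrib,
      ← Finset.mul_sum, ← Finset.mul_sum]
    refine add_le_add le_rfl (mul_le_mul_of_nonneg_left ?_ (sq_nonneg w))
    linarith [hak 4 (by norm_num), mul_le_mul_of_nonneg_right one_le_KR hBB]
  -- the second-order term
  have t5 : w ^ 2 * ∑ f ∈ A, ∑ S ∈ star H A f,
      (2 + |∑ g ∈ S.erase f, (a g - 1)|) * partnerMart H w A Z f S ^ 2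
      ≤ 48 * KR * w * t ^ 8 * obsBase H w σ := by
    set G2 : V → V → ℝ := fun _ g => 4 * t ^ 8 + 4 * t ^ 8 * (a g - 1) ^ 2 + 8 * (M g ^ 4 / t ^ 8)
      with hG2'
    have h1 : ∀ f ∈ A, w * ∑ S ∈ star H A f,
        (2 + |∑ g ∈ S.erase f, (a g - 1)|) * partnerMart H w A Z f S ^ 2
        ≤ avgNb H w A (G2 f) f := by
      intro f _
      simp only [avgNb]
      refine mul_le_mul_of_nonneg_left (Finset.sum_le_sum fun S hS => ?_) hw
      obtain ⟨g, k, hgk, e⟩ := pairs f S hS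
      rw [partnerMart, e, Finset.sum_pair hgk, Finset.sum_pair hgk, Finset.sum_pair hgk]
      exact pair_small ht
    have h2 := (Finset.sum_le_sum h1).trans (sum_avgNb_le hH hw A (F := G2) (p := fun _ => 4 * t ^ 8)
      (q := fun g => 4 * t ^ 8 * (a g - 1) ^ 2 + 8 * (M g ^ 4 / t ^ 8))
      (fun f _ g _ => le_of_eq (by simp only [hG2']; ring)))
    have h3 : ∑ f ∈ A, a f * (4 * t ^ 8 + (4 * t ^ 8 * (a f - 1) ^ 2 + 8 * (M f ^ 4 / t ^ 8)))
        ≤ 24 * KR * t ^ 8 * obsBase H w σ := by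
      rw [← hbase, Finset.mul_sum]
      refine Finset.sum_le_sum fun f _ => ?_
      have h := hP f
      have p1 := mul_le_mul_of_nonneg_left (h.pow_R (a0 f) h.a_le_R (show 1 ≤ 40 by norm_num))
        (pow_nonneg ht.le 8)
      rw [pow_one] at p1
      have p2 := mul_le_mul_of_nonneg_left
        (h.a_mul_pow (abs_nonneg _) h.u_le_R (show 2 + 1 ≤ 40 by norm_num)) (pow_nonneg ht.le 8)
      rw [sq_abs] at p2
      have p3 := h.a_mom (show 2 * 1 + 1 < 20 by norm_num)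
      norm_num at p3
      have p4 : a f * (M f ^ 4 / t ^ 8) ≤ 2 * KR * t ^ 8 * B f := by
        rw [mul_div_assoc', div_le_iff₀ (by positivity)]
        simp only [hB]
        linarith [show 2 * KR * t ^ 8 * base w (a f) (M f) (trunc (Z f)) * t ^ 8
          = 2 * KR * t ^ 16 * base w (a f) (M f) (trunc (Z f)) by ring]
      simp only [hB] at *
      linarith
    have h4 := mul_le_mul_of_nonneg_left
      (h2.trans (mul_le_mul_of_nonneg_left h3 (by norm_num))) hw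
    rw [← Finset.mul_sum] at h4
    linarith
  -- the codegrees
  have t6 : codegMass H w A
      ≤ obsQuad H w σ / β + (24 * w ^ 2 + 4 * w * β ^ 2) * ((KR + 10) * obsBase H w σ) := by
    have e0 : ∀ f, w ^ 2 * ∑ g ∈ nbr H A f, deg H A g = Λ f := fun f => by
      simp only [hΛ, avgNb, ha, sdeg]
      rw [← sum_nbr hH, ← Finset.mul_sum]; ring
    have hΛ0 : ∀ f, 0 ≤ Λ f := fun f => mul_nonneg hw (Finset.sum_nonneg fun _ _ =>
      Finset.sum_nonneg fun g _ => a0 g)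
    have b1 : ∀ k ≤ 20, ∑ f ∈ A, a f ^ k * Λ f ≤ (KR + 10) * obsBase H w σ := by
      intro k hk
      refine (Finset.sum_le_sum (g := fun f => a f ^ (2 * k) + Λ f ^ 2) fun f _ => ?_).trans ?_
      · have h := two_mul_le_add_sq (a f ^ k) (Λ f)
        have := mul_nonneg (pow_nonneg (a0 f) k) (hΛ0 f)
        rw [pow_mul' (a f) 2 k]
        linarith
      · rw [Finset.sum_add_distrib]
        linarith [hak (2 * k) (by omega)]
    have c1 : w ^ 5 * ∑ f ∈ A, ∑ z ∈ A, deg H A z * codeg H A f z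
        = 2 * w ^ 2 * ∑ f ∈ A, a f ^ 1 * Λ f := by
      rw [Finset.sum_comm, Finset.mul_sum, Finset.mul_sum]
      refine Finset.sum_congr rfl fun z _ => ?_
      have e : ∑ f ∈ A, deg H A z * codeg H A f z = deg H A z * ∑ g ∈ nbr H A z, 2 * deg H A g := by
        rw [← sum_codeg hH A z, Finset.mul_sum]
        exact Finset.sum_congr rfl fun f _ => by unfold codeg; rw [common_comm]
      rw [e, ← Finset.mul_sum, ← e0 z]
      simp only [ha, sdeg]; ring
    have c2 : w ^ 4 * ∑ q ∈ quads H A, a q.2.1 ^ 3 ≤ 4 * w * ∑ f ∈ A, a f ^ 4 * Λ f := by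
      have i1 := sum_quads_invol (H := H) A (fun q => (q.2.1, q.1, q.2.2.1, q.2.2.2))
        (fun _ hq => quads_swap_opp hq) (fun _ => rfl) (fun q => a q.1 ^ 3)
      rw [i1]
      refine (mul_le_mul_of_nonneg_left (sum_corner_le hH A fun x => pow_nonneg (a0 x) 3)
        (pow_nonneg hw 4)).trans (le_of_eq ?_)
      rw [Finset.mul_sum, Finset.mul_sum, Finset.mul_sum]
      refine Finset.sum_congr rfl fun f _ => ?_
      rw [← e0 f]
      simp only [ha, sdeg]; ring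
    have c3 : w ^ 5 * ∑ f ∈ A, ∑ z ∈ A.erase f, deg H A z * ((quadsAt H A f z).card : ℝ)
        ≤ obsQuad H w σ / β + β ^ 2 * (w ^ 4 * ∑ q ∈ quads H A, a q.2.1 ^ 3) := by
      rw [quads_split A (fun _ z => deg H A z)]
      have e : w ^ 5 * ∑ q ∈ quads H A, deg H A q.2.1 = w ^ 4 * ∑ q ∈ quads H A, a q.2.1 := by
        simp only [ha, sdeg, ← Finset.mul_sum]; ring
      have h : ∑ q ∈ quads H A, a q.2.1
          ≤ (quads H A).card / β + β ^ 2 * ∑ q ∈ quads H A, a q.2.1 ^ 3 := by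
        refine (Finset.sum_le_sum (g := fun q => 1 / β + β ^ 2 * a q.2.1 ^ 3) fun q _ => ?_).trans
          (le_of_eq ?_)
        · have hx := a0 q.2.1
          have hd : 0 ≤ 1 / β := by positivity
          rcases le_total (a q.2.1) (1 / β) with hc | hc
          · linarith [mul_nonneg (sq_nonneg β) (pow_nonneg hx 3)]
          · rw [div_le_iff₀ hβ0] at hc
            have := mul_le_mul_of_nonneg_left (one_le_pow₀ (n := 2) hc) hx
            linarith
        · rw [Finset.sum_add_distrib, Finset.sum_const, nsmul_eq_mul, ← Finset.mul_sum]; ring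
      rw [e]
      refine (mul_le_mul_of_nonneg_left h (pow_nonneg hw 4)).trans (le_of_eq ?_)
      simp only [obsQuad, quadCount, ← hA]; ring
    have h1 : codegMass H w A ≤ 12 * (w ^ 5 * ∑ f ∈ A, ∑ z ∈ A, deg H A z * codeg H A f z)
        + w ^ 5 * ∑ f ∈ A, ∑ z ∈ A.erase f, deg H A z * ((quadsAt H A f z).card : ℝ) := by
      unfold codegMass
      rw [mul_left_comm, ← mul_add]
      refine mul_le_mul_of_nonneg_left ?_ (pow_nonneg hw 5)
      rw [Finset.mul_sum, ← Finset.sum_add_distrib]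
      refine Finset.sum_le_sum fun f _ => ?_
      refine le_trans ?_ (add_le_add (mul_le_mul_of_nonneg_left
        (Finset.sum_le_sum_of_subset_of_nonneg (Finset.erase_subset f A) fun z _ _ =>
          mul_nonneg (deg_nonneg A z) (Nat.cast_nonneg _)) (by norm_num : (0:ℝ) ≤ 12)) le_rfl)
      rw [Finset.mul_sum, ← Finset.sum_add_distrib]
      refine Finset.sum_le_sum fun z hz => ?_
      have := mul_le_mul_of_nonneg_left
        (codeg_sq_le hH (A := A) (Ne.symm (Finset.ne_of_mem_erase hz))) (deg_nonneg (H := H) A z)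
      linarith
    have d1 := mul_le_mul_of_nonneg_left (b1 1 (by norm_num)) (show 0 ≤ 24 * w ^ 2 by positivity)
    have d2 := mul_le_mul_of_nonneg_left (b1 4 (by norm_num))
      (show 0 ≤ 4 * w * β ^ 2 by positivity)
    have d3 := mul_le_mul_of_nonneg_left c2 (sq_nonneg β)
    linarith
  -- assembly
  have hD0 : 0 ≤ ∑ f ∈ A, a f * D f ^ 2 :=
    Finset.sum_nonneg fun f _ => mul_nonneg (a0 f) (sq_nonneg _)
  have hDD : 0 ≤ ∑ f ∈ A, D f ^ 2 := Finset.sum_nonneg fun f _ => sq_nonneg _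
  have hw4 := mul_le_mul_of_nonneg_right (show 4 * w ≤ 1 / 64 by linarith) hDD
  have hQ0 : 0 ≤ obsQuad H w σ / β := by
    refine div_nonneg ?_ hβ0.le
    unfold obsQuad quadCount; positivity
  have hKB : 0 ≤ KR * obsBase H w σ := mul_nonneg hK hBB
  have h11 := mul_le_mul_of_nonneg_right hb hKB
  have h16 : w ^ 2 ≤ β ^ 2 * w := by
    rw [← htw, ← pow_mul] at *
    exact (pow_le_pow_of_le_one ht.le ht1 (by norm_num)).trans hb
  have h162 := mul_le_mul_of_nonneg_right h16 hKB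
  have hw8 : w * t ^ 8 = w ^ 2 := by rw [htw]; ring
  have h10 := mul_le_mul_of_nonneg_right one_le_KR
    (mul_nonneg (mul_nonneg (sq_nonneg β) hw) hBB)
  have h101 := mul_le_mul_of_nonneg_right h16 hBB
  have hCWQ := mul_le_mul_of_nonneg_right (show (6:ℝ) ≤ CW by norm_num [CW, KR]) hQ0
  have t5' : 6 * w ^ 2 * ∑ f ∈ A, ∑ S ∈ star H A f,
      (2 + |∑ g ∈ S.erase f, (a g - 1)|) * partnerMart H w A Z f S ^ 2
      ≤ 288 * KR * w ^ 2 * obsBase H w σ := by
    rw [← hw8] at t5 ⊢; linarith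
  have hnb : obsNb H w σ = ∑ f ∈ A, D f ^ 2 := rfl
  rw [hnb]
  simp only [hX] at t2
  have hKW := mul_nonneg (mul_nonneg (sq_nonneg β) hw) hKB
  unfold CW at hCWQ ⊢
  linarith

end Vale.Agent.P046
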