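import Mathlib
import Vale.Agent.P046.Obs
import Vale.Agent.P046.DriftW

/-!
# P046: one step of the chain against the infinitesimal drift
-/

open Finset Filter Topology

namespace Vale.Agent.P046

variable {V : Type*} [DecidableEq V] {H : Finset (Finset V)}

/-! ### Continuity -/

lemma psi_eq_clamp (u : ℝ) : psi u = psiP (max u 0) - psiN (min (max (-u) 0) 1) := by
  rcases le_total 0 u with h | h
  · rw [psi_pos h, max_eq_left h, max_eq_right (show -u ≤ 0 by linarith),
      min_eq_left (zero_le_one (α := ℝ))]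
    norm_num [psiN]
  · have hp : psiP 0 = 0 := by norm_num [psiP]
    rw [max_eq_right h, max_eq_left (show (0:ℝ) ≤ -u by linarith), hp]
    rcases le_total (-1) u with h1 | h1
    · rw [psi_mid h h1, min_eq_left (show -u ≤ 1 by linarith)]; ring
    · rw [psi_low h1, min_eq_right (show (1:ℝ) ≤ -u by linarith)]; norm_num [psiN]

lemma continuous_psi : Continuous psi := by
  have e : psi = fun u => psiP (max u 0) - psiN (min (max (-u) 0) 1) := funext psi_eq_clamp
  rw [e]
  unfold psiP psiN
  refine Continuous.sub (Continuous.div (by fun_prop) (by fun_prop) fun u => ?_)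
    (Continuous.div (by fun_prop) (by fun_prop) fun u => ?_)
  · have : (0:ℝ) ≤ max u 0 := le_max_right _ _
    positivity
  · have : (0:ℝ) ≤ min (max (-u) 0) 1 := le_min (le_max_right _ _) zero_le_one
    positivity

lemma phi_eq_clamp (u : ℝ) :
    phi u = phiP (max u 0) + phiN (min (max (-u) 0) 1) + 4/9 * max (-1 - u) 0 := by
  rcases le_total 0 u with h | h
  · rw [phi_high h, max_eq_left h, max_eq_right (show -u ≤ 0 by linarith),
      min_eq_left (zero_le_one (α := ℝ)), max_eq_right (show -1 - u ≤ 0 by linarith)]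
    norm_num [phiN]
  · have hp : phiP 0 = 0 := by norm_num [phiP]
    rw [max_eq_right h, max_eq_left (show (0:ℝ) ≤ -u by linarith), hp]
    rcases le_total (-1) u with h1 | h1
    · rw [phi_mid h h1, min_eq_left (show -u ≤ 1 by linarith),
        max_eq_right (show -1 - u ≤ 0 by linarith)]
      ring
    · rw [phi_low h1, min_eq_right (show (1:ℝ) ≤ -u by linarith),
        max_eq_left (show (0:ℝ) ≤ -1 - u by linarith)]
      norm_num [phiN]

lemma continuous_phi : Continuous phi := by
  have e : phi = fun u => phiP (max u 0) + phiN (min (max (-u) 0) 1) + 4/9 * max (-1 - u) 0 :=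
    funext phi_eq_clamp
  rw [e]
  unfold phiP phiN
  refine Continuous.add (Continuous.add ?_ ?_) (by fun_prop)
  · refine Continuous.add (by fun_prop) (continuous_const.mul
      (Continuous.div (by fun_prop) (by fun_prop) fun u => ?_))
    have : (0:ℝ) ≤ max u 0 := le_max_right _ _
    positivity
  · refine Continuous.div (by fun_prop) (by fun_prop) fun u => ?_
    have : (0:ℝ) ≤ min (max (-u) 0) 1 := le_min (le_max_right _ _) zero_le_one
    positivity

lemma continuous_vel {X : Type*} [TopologicalSpace X] {w : X → ℝ} (hw : Continuous w)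
    (A : Finset V) (f : V) : Continuous fun x => vel H (w x) A f := by
  unfold vel; fun_prop

lemma continuous_sdeg {X : Type*} [TopologicalSpace X] {w : X → ℝ} (hw : Continuous w)
    (A : Finset V) (f : V) : Continuous fun x => sdeg H (w x) A f := by
  unfold sdeg; fun_prop

lemma continuous_mart {X : Type*} [TopologicalSpace X] {w : X → ℝ} {Z : X → V → ℝ}
    (hw : Continuous w) (hZ : Continuous Z) (A : Finset V) (f : V) :
    Continuous fun x => mart H (w x) A (Z x) f := by
  unfold mart sdeg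
  exact ((hw.mul continuous_const).sub continuous_const).sub ((continuous_apply f).comp hZ)

lemma continuous_martNb {X : Type*} [TopologicalSpace X] {w : X → ℝ} {Z : X → V → ℝ}
    (hw : Continuous w) (hZ : Continuous Z) (A : Finset V) (f : V) :
    Continuous fun x => martNb H (w x) A (Z x) f := by
  unfold martNb avgNb
  exact hw.mul (continuous_finsetSum _ fun T _ =>
    continuous_finsetSum _ fun g _ => continuous_mart hw hZ A g)

/-! ### The generic step -/

section Euler

variable [Fintype V]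

/-- A step of length `ε` changes an observable by at most `ε` times its infinitesimal drift,
up to `ε η`, uniformly on bounded states. -/
theorem euler_step {lo W B η : ℝ} (hlo : 0 ≤ lo) (hη : 0 < η)
    (F : ℝ → St V → ℝ) (R : ℝ → ℝ → St V → ℝ)
    (hF : ∀ A : Finset V, Continuous fun p : ℝ × (V → ℝ) => F p.1 (A, p.2))
    (hR : ∀ A : Finset V, Continuous fun p : ℝ × ℝ × (V → ℝ) => R p.1 p.2.1 (A, p.2.2))
    (hdet : ∀ ε w σ, 0 < ε → 0 ≤ w →
      F (w + 2 * ε) (post H ε w σ) ≤ F w σ + ε * R ε w σ) :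
    ∀ᶠ ε in 𝓝[>] (0:ℝ), ∀ w ∈ Set.Icc lo W, ∀ σ : St V, (∀ f, |σ.2 f| ≤ B) →
      step H ε w (F (w + 2 * ε)) σ ≤ F w σ + ε * (R 0 w σ + jump H (F w) σ) + ε * η := by
  -- the drift as a function of all parameters
  set g : Finset V → ℝ × ℝ × (V → ℝ) → ℝ := fun A p =>
    R p.1 p.2.1 (A, p.2.2) + jump H (F (p.2.1 + 2 * p.1)) (post H p.1 p.2.1 (A, p.2.2)) with hg
  have hgc : ∀ A, Continuous (g A) := by
    intro A
    have hc : Continuous fun p : ℝ × ℝ × (V → ℝ) => fun f => p.2.2 f + p.1 * vel H p.2.1 A f :=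
      continuous_pi fun f => ((continuous_apply f).comp (continuous_snd.comp continuous_snd)).add
        (continuous_fst.mul (continuous_vel (continuous_fst.comp continuous_snd) A f))
    have hFA : ∀ A' : Finset V, Continuous fun p : ℝ × ℝ × (V → ℝ) =>
        F (p.2.1 + 2 * p.1) (A', fun f => p.2.2 f + p.1 * vel H p.2.1 A f) := fun A' =>
      (hF A').comp (((continuous_fst.comp continuous_snd).add
        (continuous_const.mul continuous_fst)).prodMk hc)
    simp only [hg, jump, post]
    exact (hR A).add (continuous_finsetSum _ fun T _ => (hFA (A \ T)).sub (hFA A))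
  set K : Set (ℝ × (V → ℝ)) := Set.Icc lo W ×ˢ Set.Icc (fun _ => -B) (fun _ => B) with hK
  have hev : ∀ A : Finset V, ∀ᶠ ε in 𝓝 (0:ℝ), ∀ y ∈ K, g A (ε, y) - g A (0, y) < η := by
    intro A
    refine (isCompact_Icc.prod isCompact_Icc).eventually_forall_of_forall_eventually
      (P := fun ε y => g A (ε, y) - g A (0, y) < η) ?_
    intro y _
    have hcont : Continuous fun z : ℝ × ℝ × (V → ℝ) => g A z - g A (0, z.2) :=
      (hgc A).sub ((hgc A).comp (continuous_const.prodMk continuous_snd))
    exact hcont.continuousAt.eventually (eventually_lt_nhds (by simpa using hη))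
  filter_upwards [eventually_nhdsWithin_of_eventually_nhds (eventually_all.2 hev),
    self_mem_nhdsWithin] with ε hε (hε0 : 0 < ε)
  intro w hw σ hσ
  obtain ⟨A, Z⟩ := σ
  have hy : ((w, Z) : ℝ × (V → ℝ)) ∈ K :=
    ⟨hw, fun f => (abs_le.1 (hσ f)).1, fun f => (abs_le.1 (hσ f)).2⟩
  have h := hε A (w, Z) hy
  have h0 : g A (0, (w, Z)) = R 0 w (A, Z) + jump H (F w) (A, Z) := by
    simp [hg, post]
  have h1 := hdet ε w (A, Z) hε0 (hlo.trans hw.1)
  rw [h0] at h
  simp only [hg] at h
  unfold step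
  nlinarith [mul_le_mul_of_nonneg_left h.le hε0.le]

variable {lo W B η : ℝ}

/-- The number of live points. -/
theorem step_card (hlo : 0 ≤ lo) (hη : 0 < η) :
    ∀ᶠ ε in 𝓝[>] (0:ℝ), ∀ w ∈ Set.Icc lo W, ∀ σ : St V, (∀ f, |σ.2 f| ≤ B) →
      step H ε w (fun τ => (τ.1.card : ℝ)) σ
        ≤ (σ.1.card : ℝ) + ε * jump H (fun τ => (τ.1.card : ℝ)) σ + ε * η := by
  have h := euler_step (H := H) (W := W) (B := B) hlo hη
    (fun _ τ => (τ.1.card : ℝ)) (fun _ _ _ => 0)
    (fun A => by dsimp only; exact continuous_const) (fun A => continuous_const)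
    (fun ε w σ _ _ => by simp [post])
  simpa using h

/-- Powers of the scaled degree. -/
theorem step_pow (hlo : 0 ≤ lo) (hη : 0 < η) :
    ∀ᶠ ε in 𝓝[>] (0:ℝ), ∀ w ∈ Set.Icc lo W, ∀ σ : St V, (∀ f, |σ.2 f| ≤ B) →
      step H ε w (obsPow H (w + 2 * ε)) σ
        ≤ obsPow H w σ + ε * ((∑ f ∈ σ.1, 2 * ((48:ℕ):ℝ) * deg H σ.1 f * sdeg H w σ.1 f ^ (48-1))
            + jump H (obsPow H w) σ) + ε * η := by
  have h := euler_step (H := H) (W := W) (B := B) hlo hη (obsPow H)
    (fun ε w σ => ∑ f ∈ σ.1, 2 * ((48:ℕ):ℝ) * deg H σ.1 f * sdeg H (w + 2 * ε) σ.1 f ^ (48-1))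
    (fun A => continuous_finsetSum _ fun f _ => (continuous_sdeg continuous_fst A f).pow _)
    (fun A => continuous_finsetSum _ fun f _ => by
      dsimp only
      exact continuous_const.mul ((continuous_sdeg (H := H) (w := fun p : ℝ × ℝ × (V → ℝ) => p.2.1 + 2 * p.1) (by fun_prop) A f).pow _)) ?_
  · simpa using h
  intro ε w σ hε hw
  simp only [obsPow, post]
  rw [Finset.mul_sum, ← Finset.sum_add_distrib]
  refine Finset.sum_le_sum fun f _ => ?_
  have hd := deg_nonneg (H := H) σ.1 f
  have := pow_tangent_le (x := sdeg H w σ.1 f) (y := sdeg H (w + 2 * ε) σ.1 f)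
    (sdeg_nonneg hw _ _) (by unfold sdeg; nlinarith) 48
  have e : sdeg H (w + 2 * ε) σ.1 f - sdeg H w σ.1 f = 2 * ε * deg H σ.1 f := by
    unfold sdeg; ring
  rw [e] at this
  linarith

omit [Fintype V] in
lemma mart_post (ε w : ℝ) (σ : St V) (f : V) :
    mart H (w + 2 * ε) (post H ε w σ).1 (post H ε w σ).2 f
      = mart H w σ.1 σ.2 f + ε * (w * loss H σ.1 f) := by
  simp only [mart, sdeg, post, vel]; ring

/-- Even moments of the martingale part. -/
theorem step_mom (j : ℕ) (hlo : 0 ≤ lo) (hη : 0 < η) :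
    ∀ᶠ ε in 𝓝[>] (0:ℝ), ∀ w ∈ Set.Icc lo W, ∀ σ : St V, (∀ f, |σ.2 f| ≤ B) →
      step H ε w (obsMom H (w + 2 * ε) j) σ
        ≤ obsMom H w j σ
          + ε * ((∑ f ∈ σ.1, ((2*j+2 : ℕ):ℝ) * mart H w σ.1 σ.2 f ^ (2*j+1) * (w * loss H σ.1 f))
            + jump H (obsMom H w j) σ) + ε * η := by
  have h := euler_step (H := H) (W := W) (B := B) hlo hη (fun w => obsMom H w j)
    (fun ε w σ => ∑ f ∈ σ.1, ((2*j+2 : ℕ):ℝ)
      * (mart H w σ.1 σ.2 f + ε * (w * loss H σ.1 f)) ^ (2*j+1) * (w * loss H σ.1 f))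
    (fun A => continuous_finsetSum _ fun f _ =>
      (continuous_mart continuous_fst continuous_snd A f).pow _)
    (fun A => continuous_finsetSum _ fun f _ => by
      have := continuous_mart (H := H) (continuous_fst.comp continuous_snd)
        (continuous_snd.comp continuous_snd) A f (X := ℝ × ℝ × (V → ℝ))
      dsimp only
      exact (continuous_const.mul ((this.add (by fun_prop)).pow _)).mul (by fun_prop)) ?_
  · simpa using h
  intro ε w σ hε hw
  simp only [obsMom]
  rw [Finset.mul_sum, ← Finset.sum_add_distrib]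
  refine Finset.sum_le_sum fun f _ => ?_
  rw [mart_post]
  have := even_pow_tangent (mart H w σ.1 σ.2 f) (mart H w σ.1 σ.2 f + ε * (w * loss H σ.1 f)) j
  linarith

/-- The potential. -/
theorem step_phi (hlo : 0 ≤ lo) (hη : 0 < η) :
    ∀ᶠ ε in 𝓝[>] (0:ℝ), ∀ w ∈ Set.Icc lo W, ∀ σ : St V, (∀ f, |σ.2 f| ≤ B) →
      step H ε w obsPhi σ
        ≤ obsPhi σ + ε * ((∑ f ∈ σ.1, psi (σ.2 f) * vel H w σ.1 f) + jump H obsPhi σ)
          + ε * η := by
  have h := euler_step (H := H) (W := W) (B := B) hlo hη (fun _ => obsPhi)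
    (fun ε w σ => ∑ f ∈ σ.1, psi (σ.2 f + ε * vel H w σ.1 f) * vel H w σ.1 f)
    (fun A => continuous_finsetSum _ fun f _ =>
      continuous_phi.comp ((continuous_apply f).comp continuous_snd))
    (fun A => continuous_finsetSum _ fun f _ => by
      have hv := continuous_vel (H := H) (continuous_fst.comp continuous_snd) A f
        (X := ℝ × ℝ × (V → ℝ))
      have e : Continuous fun p : ℝ × ℝ × (V → ℝ) => p.2.2 f + p.1 * vel H p.2.1 A f :=
        ((continuous_apply f).comp (continuous_snd.comp continuous_snd)).add (continuous_fst.mul hv)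
      dsimp only
      exact (continuous_psi.comp e).mul hv) ?_
  · simpa using h
  intro ε w σ hε hw
  simp only [obsPhi, post]
  rw [Finset.mul_sum, ← Finset.sum_add_distrib]
  refine Finset.sum_le_sum fun f _ => ?_
  have := phi_tangent (σ.2 f) (σ.2 f + ε * vel H w σ.1 f)
  nlinarith

/-- The neighbourhood average. -/
theorem step_nb (hlo : 0 ≤ lo) (hη : 0 < η) :
    ∀ᶠ ε in 𝓝[>] (0:ℝ), ∀ w ∈ Set.Icc lo W, ∀ σ : St V, (∀ f, |σ.2 f| ≤ B) →
      step H ε w (obsNb H (w + 2 * ε)) σ
        ≤ obsNb H w σ + ε * ((∑ f ∈ σ.1, 2 * martNb H w σ.1 σ.2 f *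
            (2 * ∑ S ∈ star H σ.1 f, partnerMart H w σ.1 σ.2 f S
              + w^2 * ∑ S ∈ star H σ.1 f, ∑ g ∈ S.erase f, loss H σ.1 g))
            + jump H (obsNb H w) σ) + ε * η := by
  have h := euler_step (H := H) (W := W) (B := B) hlo hη (obsNb H)
    (fun ε w σ => ∑ f ∈ σ.1, 2 * martNb H (w + 2 * ε) (post H ε w σ).1 (post H ε w σ).2 f *
        (2 * ∑ S ∈ star H σ.1 f, partnerMart H w σ.1 σ.2 f S
          + (w + 2 * ε) * w * ∑ S ∈ star H σ.1 f, ∑ g ∈ S.erase f, loss H σ.1 g))
    (fun A => continuous_finsetSum _ fun f _ =>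
      (continuous_martNb continuous_fst continuous_snd A f).pow _)
    (fun A => continuous_finsetSum _ fun f _ => by
      have hw1 : Continuous fun p : ℝ × ℝ × (V → ℝ) => p.2.1 := by fun_prop
      have hz : Continuous fun p : ℝ × ℝ × (V → ℝ) =>
          fun g => p.2.2 g + p.1 * vel H p.2.1 A g :=
        continuous_pi fun g => ((continuous_apply g).comp (continuous_snd.comp continuous_snd)).add
          (continuous_fst.mul (continuous_vel hw1 A g))
      have hp : ∀ S : Finset V, Continuous fun p : ℝ × ℝ × (V → ℝ) =>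
          partnerMart H p.2.1 A p.2.2 f S := fun S => continuous_finsetSum _ fun g _ =>
        continuous_mart hw1 (continuous_snd.comp continuous_snd) A g
      have hd := continuous_martNb (H := H) (w := fun p : ℝ × ℝ × (V → ℝ) => p.2.1 + 2 * p.1)
        (by fun_prop) hz A f
      dsimp only [post]
      exact (continuous_const.mul hd).mul
        ((continuous_const.mul (continuous_finsetSum _ fun S _ => hp S)).add
          ((((by fun_prop : Continuous fun p : ℝ × ℝ × (V → ℝ) => p.2.1 + 2 * p.1).mul hw1)).mul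
            continuous_const))) ?_
  · simpa [post, sq] using h
  intro ε w σ hε hw
  simp only [obsNb]
  rw [Finset.mul_sum, ← Finset.sum_add_distrib, show (post H ε w σ).1 = σ.1 from rfl]
  refine Finset.sum_le_sum fun f _ => ?_
  set x := martNb H w σ.1 σ.2 f
  set y := martNb H (w + 2 * ε) σ.1 (post H ε w σ).2 f with hy
  have e : y - x = ε * (2 * ∑ S ∈ star H σ.1 f, partnerMart H w σ.1 σ.2 f S
          + (w + 2 * ε) * w * ∑ S ∈ star H σ.1 f, ∑ g ∈ S.erase f, loss H σ.1 g) := by
    have hm : ∀ g, mart H (w + 2 * ε) σ.1 (post H ε w σ).2 g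
        = mart H w σ.1 σ.2 g + ε * (w * loss H σ.1 g) := fun g => mart_post ε w σ g
    simp only [hy, x, martNb, avgNb, hm, partnerMart, Finset.sum_add_distrib, ← Finset.mul_sum]
    ring
  have := even_pow_tangent x y 0
  norm_num at this
  rw [e] at this
  linarith

/-- The scaled number of quads. -/
theorem step_quad (hlo : 0 ≤ lo) (hη : 0 < η) :
    ∀ᶠ ε in 𝓝[>] (0:ℝ), ∀ w ∈ Set.Icc lo W, ∀ σ : St V, (∀ f, |σ.2 f| ≤ B) →
      step H ε w (obsQuad H (w + 2 * ε)) σ
        ≤ obsQuad H w σ + ε * (8 * w ^ 3 * quadCount H σ.1 + jump H (obsQuad H w) σ) + ε * η := by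
  have h := euler_step (H := H) (W := W) (B := B) hlo hη (obsQuad H)
    (fun ε w σ => 8 * (w + 2 * ε) ^ 3 * quadCount H σ.1)
    (fun A => by unfold obsQuad; fun_prop) (fun A => by dsimp only; fun_prop) ?_
  · simpa using h
  intro ε w σ hε hw
  simp only [obsQuad, post]
  have h1 := pow_tangent_le hw (show w ≤ w + 2 * ε by linarith) 4
  have h2 := mul_le_mul_of_nonneg_right h1 (show 0 ≤ quadCount H σ.1 by unfold quadCount; positivity)
  norm_num at h2
  linarith

end Euler

end Vale.Agent.P046
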