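import Mathlib

/-!
The per-line moment inequality: three signs cannot all be opposite.
-/

namespace Vale.Agent.P046

/-- One pair, scaled. -/
lemma line_pair {m : ℕ} {k γ : ℝ} (hm : 2 ≤ m) (hk : 0 ≤ k) (hγ : 0 < γ) (hγ' : γ ≤ 1 / 10)
    (hsmall : γ ≤ (2 / 5) * (1 - 2 * γ) ^ m) (hpow : (2 / 3 : ℝ) ^ (m - 1) ≤ 1 / 6) :
    k + k ^ (m - 1) ≤ (1 - γ) + (2 - γ) * k ^ m := by
  obtain ⟨n, rfl⟩ : ∃ n, m = n + 1 := ⟨m - 1, by omega⟩
  simp only [Nat.add_sub_cancel] at hpow ⊢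
  have hkn : 0 ≤ k ^ n := pow_nonneg hk n
  rcases le_or_gt 1 k with h1 | h1
  · have h2 : 1 ≤ k ^ n := one_le_pow₀ h1
    rw [pow_succ]
    nlinarith [mul_nonneg (sub_nonneg.2 h1) (sub_nonneg.2 h2), mul_le_mul h2 h1 zero_le_one hkn]
  rcases lt_or_ge k (2 / 3) with h2 | h2
  · have h3 : k ^ n ≤ 1 / 6 := (pow_le_pow_left₀ hk h2.le n).trans hpow
    have : 0 ≤ (2 - γ) * k ^ (n + 1) := mul_nonneg (by linarith) (pow_nonneg hk _)
    linarith
  have h4 : 0 ≤ k ^ n * ((2 - γ) * k - 1 - 2 / 5 * k) :=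
    mul_nonneg hkn (by nlinarith)
  have h6 : 2 / 5 * k ^ (n + 1) + k ^ n ≤ (2 - γ) * k ^ (n + 1) := by rw [pow_succ]; linarith
  rcases le_or_gt (1 - k) (2 * γ) with h5 | h5
  · have h7 : (1 - 2 * γ) ^ (n + 1) ≤ k ^ (n + 1) :=
      pow_le_pow_left₀ (by linarith) (by linarith) _
    linarith
  · have : 0 ≤ 2 / 5 * k ^ (n + 1) := by positivity
    linarith

/-- Opposite-sign pair at a larger magnitude. -/
lemma line_scaled {m : ℕ} {a L γ : ℝ} (hm : 2 ≤ m) (ha : 0 ≤ a) (hL : 0 < L) (hγ : 0 < γ)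
    (hγ' : γ ≤ 1 / 10) (hsmall : γ ≤ (2 / 5) * (1 - 2 * γ) ^ m)
    (hpow : (2 / 3 : ℝ) ^ (m - 1) ≤ 1 / 6) :
    a ^ (m - 1) * L + L ^ (m - 1) * a ≤ (1 - γ) * L ^ m + (2 - γ) * a ^ m := by
  have h := mul_le_mul_of_nonneg_left (line_pair (k := a / L) hm (div_nonneg ha hL.le) hγ hγ' hsmall hpow)
    (pow_nonneg hL.le m)
  obtain ⟨n, rfl⟩ : ∃ n, m = n + 1 := ⟨m - 1, by omega⟩
  simp only [Nat.add_sub_cancel] at h ⊢
  have e1 : L ^ (n + 1) * (a / L + (a / L) ^ n) = a ^ n * L + L ^ n * a := by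
    rw [div_pow, mul_add, pow_succ, mul_div_assoc', mul_div_assoc', div_add_div _ _ hL.ne' (pow_ne_zero _ hL.ne'),
      div_eq_iff (mul_ne_zero hL.ne' (pow_ne_zero _ hL.ne'))]
    ring
  have e2 : L ^ (n + 1) * ((1 - γ) + (2 - γ) * (a / L) ^ (n + 1)) =
      (1 - γ) * L ^ (n + 1) + (2 - γ) * a ^ (n + 1) := by
    rw [div_pow, mul_add, mul_left_comm, mul_div_cancel₀ _ (pow_ne_zero _ hL.ne')]
    ring
  linarith [e1, e2]

/-- For reals on a line, the negative part of the symmetric adjacency in the `m`-th moment is below `2 - γ`. -/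
theorem line_moment {m : ℕ} {γ : ℝ} (hm : Even m) (hm2 : 2 ≤ m) (hγ : 0 < γ) (hγ' : γ ≤ 1 / 10)
    (hsmall : γ ≤ (2 / 5) * (1 - 2 * γ) ^ m) (hpow : (2 / 3 : ℝ) ^ (m - 1) ≤ 1 / 6) (a b c : ℝ) :
    -(a ^ (m - 1) * (b + c) + b ^ (m - 1) * (a + c) + c ^ (m - 1) * (a + b)) ≤
      (2 - γ) * (a ^ m + b ^ m + c ^ m) := by
  have hodd : Odd (m - 1) := Nat.Even.sub_odd (by omega) hm odd_one
  have hpos : ∀ x : ℝ, 0 ≤ x ^ m := fun x => hm.pow_nonneg x
  have sameSign : ∀ a b c : ℝ, 0 ≤ a → 0 ≤ b → 0 ≤ c →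
      -(a ^ (m - 1) * (b + c) + b ^ (m - 1) * (a + c) + c ^ (m - 1) * (a + b)) ≤
        (2 - γ) * (a ^ m + b ^ m + c ^ m) := by
    intro a b c ha hb hc
    have : 0 ≤ (2 - γ) * (a ^ m + b ^ m + c ^ m) :=
      mul_nonneg (by linarith) (by linarith [hpos a, hpos b, hpos c])
    have : 0 ≤ a ^ (m - 1) * (b + c) + b ^ (m - 1) * (a + c) + c ^ (m - 1) * (a + b) := by positivity
    linarith
  have twoPos : ∀ a b L : ℝ, 0 ≤ a → 0 ≤ b → 0 < L →
      -(a ^ (m - 1) * (b + -L) + b ^ (m - 1) * (a + -L) + (-L) ^ (m - 1) * (a + b)) ≤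
        (2 - γ) * (a ^ m + b ^ m + (-L) ^ m) := by
    intro a b L ha hb hL
    have h1 := line_scaled hm2 ha hL hγ hγ' hsmall hpow
    have h2 := line_scaled hm2 hb hL hγ hγ' hsmall hpow
    have h3 : 0 ≤ a ^ (m - 1) * b + b ^ (m - 1) * a := by positivity
    have h4 := hpos L
    rw [hodd.neg_pow, hm.neg_pow]
    nlinarith
  have general : ∀ a b c : ℝ, 0 ≤ a → 0 ≤ b →
      -(a ^ (m - 1) * (b + c) + b ^ (m - 1) * (a + c) + c ^ (m - 1) * (a + b)) ≤
        (2 - γ) * (a ^ m + b ^ m + c ^ m) := by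
    intro a b c ha hb
    rcases le_or_gt 0 c with hc | hc
    · exact sameSign a b c ha hb hc
    · simpa using twoPos a b (-c) ha hb (neg_pos.2 hc)
  have negated : ∀ a b c : ℝ, a ≤ 0 → b ≤ 0 →
      -(a ^ (m - 1) * (b + c) + b ^ (m - 1) * (a + c) + c ^ (m - 1) * (a + b)) ≤
        (2 - γ) * (a ^ m + b ^ m + c ^ m) := by
    intro a b c ha hb
    have h := general (-a) (-b) (-c) (neg_nonneg.2 ha) (neg_nonneg.2 hb)
    rw [hodd.neg_pow, hodd.neg_pow, hodd.neg_pow, hm.neg_pow, hm.neg_pow, hm.neg_pow] at h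
    linarith
  rcases le_total 0 a with ha | ha <;> rcases le_total 0 b with hb | hb
  · exact general a b c ha hb
  · rcases le_total 0 c with hc | hc
    · have := general a c b ha hc; linarith
    · have := negated b c a hb hc; linarith
  · rcases le_total 0 c with hc | hc
    · have := general b c a hb hc; linarith
    · have := negated a c b ha hc; linarith
  · exact negated a b c ha hb

/-- The gain times the exponent can be made as large as wished. -/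
theorem exists_line_moment (G : ℝ) (hG : 1 ≤ G) :
    ∀ᶠ m : ℕ in Filter.atTop, Even m → ∀ a b c : ℝ,
      -(a ^ (m - 1) * (b + c) + b ^ (m - 1) * (a + c) + c ^ (m - 1) * (a + b)) ≤
        (2 - G / m) * (a ^ m + b ^ m + c ^ m) := by
  have h0 : Filter.Tendsto (fun m : ℕ => G / (m : ℝ)) Filter.atTop (nhds 0) :=
    tendsto_const_div_atTop_nhds_zero_nat G
  have h1 : Filter.Tendsto (fun m : ℕ => (1 + (-(2 * G)) / (m : ℝ)) ^ m) Filter.atTop
      (nhds (Real.exp (-(2 * G)))) := Real.tendsto_one_add_div_pow_exp _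
  have e1 := h0.eventually (gt_mem_nhds (show (0 : ℝ) < 1 / 10 by norm_num))
  have e2 := h0.eventually (gt_mem_nhds (show (0 : ℝ) < 2 / 5 * (Real.exp (-(2 * G)) / 2) by positivity))
  have e3 := h1.eventually (lt_mem_nhds (show Real.exp (-(2 * G)) / 2 < Real.exp (-(2 * G)) by
    linarith [Real.exp_pos (-(2 * G))]))
  filter_upwards [e1, e2, e3, Filter.eventually_ge_atTop 8] with m a1 a2 a3 hm8 hm
  intro a b c
  have hmpos : (0 : ℝ) < m := by exact_mod_cast (by omega : 0 < m)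
  refine line_moment hm (by omega) (div_pos (by linarith) hmpos) a1.le ?_ ?_ a b c
  · have e : 1 + -(2 * G) / (m : ℝ) = 1 - 2 * (G / m) := by ring
    rw [e] at a3
    linarith
  · exact (pow_le_pow_of_le_one (by norm_num) (by norm_num) (by omega : 7 ≤ m - 1)).trans (by norm_num)

end Vale.Agent.P046
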