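import Mathlib

/-!
# P046: the coupled growth recursions

A discrete Gronwall argument for the coupled sequences. With `u⁸ = w` and `v = (d w)^(-1/8)` every
power is a natural power of `u` and `v`.
-/

open Finset

namespace Vale.Agent.P046

/-- The clock of the growth recursions. -/
noncomputable def gw (d ε : ℝ) (k : ℕ) : ℝ := 1 / d + 2 * ε * (k : ℝ)

/-- The eighth root of the clock. -/
noncomputable def gu (d ε : ℝ) (k : ℕ) : ℝ := (gw d ε k) ^ ((1 : ℝ) / 8)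

/-- The reciprocal eighth root of `d w`. -/
noncomputable def gv (d ε : ℝ) (k : ℕ) : ℝ := (d * gw d ε k) ^ (-((1 : ℝ) / 8))

section Step

variable {d ε : ℝ}

lemma inv_le_gw (hε : 0 ≤ ε) (k : ℕ) : 1 / d ≤ gw d ε k := by
  unfold gw
  have : 0 ≤ 2 * ε * (k : ℝ) := by positivity
  linarith

lemma gw_pos (hd : 1 ≤ d) (hε : 0 ≤ ε) (k : ℕ) : 0 < gw d ε k :=
  lt_of_lt_of_le (by positivity) (inv_le_gw hε k)

lemma gu_pos (hd : 1 ≤ d) (hε : 0 ≤ ε) (k : ℕ) : 0 < gu d ε k :=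
  Real.rpow_pos_of_pos (gw_pos hd hε k) _

lemma gv_pos (hd : 1 ≤ d) (hε : 0 ≤ ε) (k : ℕ) : 0 < gv d ε k :=
  Real.rpow_pos_of_pos (mul_pos (by linarith) (gw_pos hd hε k)) _

lemma gu_pow (hd : 1 ≤ d) (hε : 0 ≤ ε) (k : ℕ) : gu d ε k ^ 8 = gw d ε k := by
  rw [gu, ← Real.rpow_natCast, ← Real.rpow_mul (gw_pos hd hε k).le]
  norm_num

lemma gv_pow (hd : 1 ≤ d) (hε : 0 ≤ ε) (k : ℕ) :
    gv d ε k ^ 8 * (d * gw d ε k) = 1 := by
  have h : 0 < d * gw d ε k := mul_pos (by linarith) (gw_pos hd hε k)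
  rw [gv, ← Real.rpow_natCast, ← Real.rpow_mul h.le]
  rw [show (-((1:ℝ) / 8)) * ((8:ℕ):ℝ) = -1 by norm_num, Real.rpow_neg_one, inv_mul_cancel₀ h.ne']

lemma gu_mul_gv (hd : 1 ≤ d) (hε : 0 ≤ ε) (k : ℕ) :
    gu d ε k * gv d ε k = d ^ (-((1 : ℝ) / 8)) := by
  rw [gu, gv, Real.mul_rpow (by linarith) (gw_pos hd hε k).le, ← mul_assoc, mul_comm _ (d ^ _),
    mul_assoc, ← Real.rpow_add (gw_pos hd hε k)]
  norm_num

lemma gu_zero_pow (hd : 1 ≤ d) (hε : 0 ≤ ε) : gu d ε 0 ^ 8 = 1 / d := by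
  rw [gu_pow hd hε]; simp [gw]

lemma gv_zero (hd : 1 ≤ d) : gv d ε 0 = 1 := by
  have : d ≠ 0 := by linarith
  simp [gv, gw, this]

lemma gv_le_one (hd : 1 ≤ d) (hε : 0 ≤ ε) (k : ℕ) : gv d ε k ≤ 1 := by
  refine Real.rpow_le_one_of_one_le_of_nonpos ?_ (by norm_num)
  have h := mul_le_mul_of_nonneg_left (inv_le_gw (d := d) hε k) (show (0:ℝ) ≤ d by linarith)
  rwa [mul_one_div, div_self (show d ≠ 0 by linarith)] at h

lemma gu_le_one (hd : 1 ≤ d) (hε : 0 ≤ ε) {k : ℕ} (hw : gw d ε k ≤ 1 / 256) : gu d ε k ≤ 1 :=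
  Real.rpow_le_one (gw_pos hd hε k).le (by linarith) (by norm_num)

/-- A lower bound for the increment of an eighth root. -/
lemma pow_eight_sub_le {a a' : ℝ} (ha : 0 ≤ a) (h : a ≤ a') :
    a' ^ 8 - a ^ 8 ≤ 8 * a' ^ 7 * (a' - a) := by
  have h0 : 0 ≤ a' - a := sub_nonneg.2 h
  have ha' : 0 ≤ a' := ha.trans h
  have h2 : a' ^ 2 + a ^ 2 ≤ 2 * a' ^ 2 := by nlinarith [pow_le_pow_left₀ ha h 2]
  have h4 : a' ^ 4 + a ^ 4 ≤ 2 * a' ^ 4 := by nlinarith [pow_le_pow_left₀ ha h 4]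
  have e : a' ^ 8 - a ^ 8 = (a' - a) * ((a' + a) * ((a' ^ 2 + a ^ 2) * (a' ^ 4 + a ^ 4))) := by ring
  have : (a' + a) * ((a' ^ 2 + a ^ 2) * (a' ^ 4 + a ^ 4)) ≤
      (2 * a') * ((2 * a' ^ 2) * (2 * a' ^ 4)) :=
    mul_le_mul (by linarith) (mul_le_mul h2 h4 (by positivity) (by positivity)) (by positivity)
      (by positivity)
  rw [e]
  calc (a' - a) * ((a' + a) * ((a' ^ 2 + a ^ 2) * (a' ^ 4 + a ^ 4)))
      ≤ (a' - a) * ((2 * a') * ((2 * a' ^ 2) * (2 * a' ^ 4))) := mul_le_mul_of_nonneg_left this h0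
    _ = 8 * a' ^ 7 * (a' - a) := by ring

/-- What one clock step does to `u` and `v`. -/
structure StepFacts (u v u' v' e : ℝ) : Prop where
  u_pos : 0 < u
  u_le : u ≤ 1
  v_pos : 0 < v
  e_nonneg : 0 ≤ e
  e_le : e ≤ 1 / 100
  e_le_b : e ≤ u + v
  uv : u' * v' = u * v
  v'_pos : 0 < v'
  u'_eight : u' ^ 8 = u ^ 8 * (1 + 2 * e)
  ratio : u * (1 + 3 / 16 * e) ≤ u'
  du : e * u / 8 ≤ u' - u
  dv : e * v / 8 ≤ v - v'

lemma ratio_aux {u u' e : ℝ} (hu' : 0 ≤ u') (he : 0 ≤ e) (he' : e ≤ 1 / 100)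
    (h : u' ^ 8 = u ^ 8 * (1 + 2 * e)) : u * (1 + 3 / 16 * e) ≤ u' := by
  have h1 : (1 + 3 / 16 * e) ^ 2 ≤ 1 + 2 / 5 * e := by nlinarith
  have h2 : (1 + 3 / 16 * e) ^ 4 ≤ 1 + 5 / 6 * e := by
    calc (1 + 3 / 16 * e) ^ 4 = ((1 + 3 / 16 * e) ^ 2) ^ 2 := by ring
      _ ≤ (1 + 2 / 5 * e) ^ 2 := pow_le_pow_left₀ (by positivity) h1 2
      _ ≤ _ := by nlinarith
  have h3 : (1 + 3 / 16 * e) ^ 8 ≤ 1 + 2 * e := by
    calc (1 + 3 / 16 * e) ^ 8 = ((1 + 3 / 16 * e) ^ 4) ^ 2 := by ring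
      _ ≤ (1 + 5 / 6 * e) ^ 2 := pow_le_pow_left₀ (by positivity) h2 2
      _ ≤ _ := by nlinarith
  refine le_of_pow_le_pow_left₀ (n := 8) (by norm_num) hu' ?_
  rw [mul_pow, h]
  exact mul_le_mul_of_nonneg_left h3 (by positivity)

lemma eps_small (hd : 1 ≤ d) (hε : 0 ≤ ε) (hεd : ε * d ^ 2 ≤ 1 / 100) (k : ℕ) :
    ε / gw d ε k ≤ 1 / (100 * d) := by
  have hw := inv_le_gw (d := d) hε k
  have hd0 : 0 < d := by linarith
  rw [div_le_div_iff₀ (gw_pos hd hε k) (by positivity), one_mul]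
  refine le_trans ?_ hw
  rw [le_div_iff₀ hd0]
  nlinarith

lemma stepFacts (hd : 1 ≤ d) (hε : 0 ≤ ε) (hεd : ε * d ^ 2 ≤ 1 / 100) {k : ℕ}
    (hw : gw d ε k ≤ 1 / 256) :
    StepFacts (gu d ε k) (gv d ε k) (gu d ε (k + 1)) (gv d ε (k + 1)) (ε / gw d ε k) := by
  have hd0 : 0 < d := by linarith
  have hwp := gw_pos hd hε k
  have u0 := gu_pos hd hε k
  have u0' := gu_pos hd hε (k + 1)
  have v0 := gv_pos hd hε k
  have v0' := gv_pos hd hε (k + 1)
  have u1 := gu_le_one hd hε hw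
  have e0 : 0 ≤ ε / gw d ε k := div_nonneg hε hwp.le
  have esmall := eps_small hd hε hεd k
  have einvd : ε / gw d ε k ≤ 1 / d := esmall.trans (by gcongr; linarith)
  have e1 : ε / gw d ε k ≤ 1 / 100 := esmall.trans (by gcongr; linarith)
  have hnext : gw d ε (k + 1) = gw d ε k + 2 * ε := by unfold gw; push_cast; ring
  have h8 : gu d ε (k + 1) ^ 8 = gu d ε k ^ 8 * (1 + 2 * (ε / gw d ε k)) := by
    rw [gu_pow hd hε, gu_pow hd hε, hnext]
    field_simp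
  have huv : gu d ε (k + 1) * gv d ε (k + 1) = gu d ε k * gv d ε k := by
    rw [gu_mul_gv hd hε, gu_mul_gv hd hε]
  have hrat := ratio_aux u0'.le e0 e1 h8
  have h3 : gw d ε k = gu d ε k ^ 8 := (gu_pow hd hε k).symm
  generalize he : ε / gw d ε k = e at *
  generalize gu d ε k = u at *
  generalize gu d ε (k + 1) = u' at *
  generalize gv d ε k = v at *
  generalize gv d ε (k + 1) = v' at *
  have hu' : u ≤ u' := le_trans (le_mul_of_one_le_right u0.le (by nlinarith)) hrat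
  have hdu : e * u / 8 ≤ u' - u := by nlinarith
  refine ⟨u0, u1, v0, e0, e1, ?_, huv, v0', h8, hrat, hdu, ?_⟩
  · have h1 : 1 / d ≤ gw d ε k := inv_le_gw hε k
    have h2 : u ^ 8 ≤ u := pow_le_of_le_one u0.le u1 (by norm_num)
    linarith
  · have hx : v' * u' = v * u := by linarith
    have h1 : u' ≤ u * (1 + e / 2) := by
      refine le_of_pow_le_pow_left₀ (n := 8) (by norm_num) (by positivity) ?_
      rw [h8, mul_pow]
      refine mul_le_mul_of_nonneg_left ?_ (by positivity)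
      have := one_add_mul_le_pow (a := e / 2) (by linarith) 8
      push_cast at this
      linarith
    have h2 : (v - v') * u' = v * (u' - u) := by linarith
    have h3 : v * (u * (3 / 16 * e)) ≤ (v - v') * u' := by
      rw [h2]; exact mul_le_mul_of_nonneg_left (by linarith) v0.le
    have h4 : 0 ≤ v - v' := by
      have h5 : v' * u ≤ v' * u' := mul_le_mul_of_nonneg_left hu' v0'.le
      have := le_of_mul_le_mul_right (h5.trans hx.le) u0
      linarith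
    have h6 : v * (u * (3 / 16 * e)) ≤ (v - v') * (u * (3 / 2)) :=
      h3.trans (mul_le_mul_of_nonneg_left (h1.trans (by nlinarith)) h4)
    nlinarith [le_of_mul_le_mul_right
      (show v * (3 / 16 * e) * u ≤ (v - v') * (3 / 2) * u by linarith) u0]

namespace StepFacts

variable {u v u' v' e : ℝ} (hS : StepFacts u v u' v' e)

include hS

lemma u_mono : u ≤ u' := by
  have := hS.du
  have := mul_nonneg hS.e_nonneg hS.u_pos.le
  linarith

lemma u'_pos : 0 < u' := lt_of_lt_of_le hS.u_pos hS.u_mono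

lemma two : u ^ 2 * (1 + 3 / 8 * e) ≤ u' ^ 2 := by
  have he := hS.e_nonneg
  refine le_trans ?_ (pow_le_pow_left₀ (by have := hS.u_pos; positivity) hS.ratio 2)
  rw [mul_pow]
  refine mul_le_mul_of_nonneg_left ?_ (sq_nonneg _)
  nlinarith

lemma four : u ^ 4 * (1 + 3 / 4 * e) ≤ u' ^ 4 := by
  have he := hS.e_nonneg
  refine le_trans ?_ (pow_le_pow_left₀ (by have := hS.u_pos; positivity) hS.ratio 4)
  rw [mul_pow]
  refine mul_le_mul_of_nonneg_left ?_ (by positivity)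
  have := one_add_mul_le_pow (a := 3 / 16 * e) (by linarith) 4
  push_cast at this
  linarith

lemma high {N : ℕ} (hN : 4 ≤ N) : u ^ N * (1 + 3 / 4 * e) ≤ u' ^ N := by
  obtain ⟨M, rfl⟩ : ∃ M, N = M + 4 := ⟨N - 4, by omega⟩
  rw [pow_add, pow_add, mul_assoc]
  exact mul_le_mul (pow_le_pow_left₀ hS.u_pos.le hS.u_mono M) hS.four
    (by have := hS.e_nonneg; positivity) (by have := hS.u'_pos; positivity)

lemma four_sq : (u' ^ 4) ^ 2 = (u ^ 4) ^ 2 * (1 + 2 * e) := by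
  rw [← pow_mul, ← pow_mul]; exact hS.u'_eight

lemma four_upper : u' ^ 4 * (1 - e) ≤ u ^ 4 := by
  refine le_of_pow_le_pow_left₀ (n := 2) (by norm_num) (by have := hS.u_pos; positivity) ?_
  rw [mul_pow, hS.four_sq]
  have h : (1 + 2 * e) * (1 - e) ^ 2 ≤ 1 := by
    nlinarith [mul_nonneg (mul_nonneg hS.e_nonneg hS.e_nonneg)
      (show 0 ≤ 3 - 2 * e by linarith [hS.e_le])]
  rw [mul_assoc]
  exact mul_le_of_le_one_right (by positivity) h

lemma four_lower : u ^ 4 * (1 + e - e ^ 2 / 2) ≤ u' ^ 4 := by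
  refine le_of_pow_le_pow_left₀ (n := 2) (by norm_num) (by have := hS.u'_pos; positivity) ?_
  rw [mul_pow, hS.four_sq]
  refine mul_le_mul_of_nonneg_left ?_ (by positivity)
  nlinarith [mul_nonneg (pow_nonneg hS.e_nonneg 3) (show 0 ≤ 1 - e / 4 by linarith [hS.e_le])]

lemma rQ : u ^ 4 * (u ^ 3 + v ^ 3) * (1 + 3 / 16 * e) ≤ u' ^ 4 * (u' ^ 3 + v' ^ 3) := by
  have hu := hS.u_pos
  have h7 : u ^ 7 * (1 + 3 / 16 * e) ≤ u' ^ 7 := by
    refine le_trans (mul_le_mul_of_nonneg_left ?_ (by positivity)) (hS.high (N := 7) (by norm_num))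
    linarith [hS.e_nonneg]
  have h43 : u ^ 4 * v ^ 3 * (1 + 3 / 16 * e) ≤ u' ^ 4 * v' ^ 3 := by
    have e1 : u' ^ 4 * v' ^ 3 = u' * (u * v) ^ 3 := by rw [← hS.uv]; ring
    have e2 : u ^ 4 * v ^ 3 * (1 + 3 / 16 * e) = u * (1 + 3 / 16 * e) * (u * v) ^ 3 := by ring
    rw [e1, e2]
    exact mul_le_mul_of_nonneg_right hS.ratio (by have := hS.v_pos; positivity)
  linarith [h7, h43, show u ^ 4 * (u ^ 3 + v ^ 3) * (1 + 3 / 16 * e) =
    u ^ 7 * (1 + 3 / 16 * e) + u ^ 4 * v ^ 3 * (1 + 3 / 16 * e) by ring,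
    show u' ^ 4 * (u' ^ 3 + v' ^ 3) = u' ^ 7 + u' ^ 4 * v' ^ 3 by ring]

lemma rW : u ^ 4 * (u ^ 2 + v ^ 2) * (1 + 3 / 8 * e) ≤ u' ^ 4 * (u' ^ 2 + v' ^ 2) := by
  have h6 : u ^ 6 * (1 + 3 / 8 * e) ≤ u' ^ 6 := by
    refine le_trans (mul_le_mul_of_nonneg_left ?_ (by have := hS.u_pos; positivity))
      (hS.high (N := 6) (by norm_num))
    linarith [hS.e_nonneg]
  have h42 : u ^ 4 * v ^ 2 * (1 + 3 / 8 * e) ≤ u' ^ 4 * v' ^ 2 := by
    have e1 : u' ^ 4 * v' ^ 2 = u' ^ 2 * (u * v) ^ 2 := by rw [← hS.uv]; ring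
    have e2 : u ^ 4 * v ^ 2 * (1 + 3 / 8 * e) = u ^ 2 * (1 + 3 / 8 * e) * (u * v) ^ 2 := by ring
    rw [e1, e2]
    exact mul_le_mul_of_nonneg_right hS.two (sq_nonneg _)
  linarith [h6, h42, show u ^ 4 * (u ^ 2 + v ^ 2) * (1 + 3 / 8 * e) =
    u ^ 6 * (1 + 3 / 8 * e) + u ^ 4 * v ^ 2 * (1 + 3 / 8 * e) by ring,
    show u' ^ 4 * (u' ^ 2 + v' ^ 2) = u' ^ 6 + u' ^ 4 * v' ^ 2 by ring]

end StepFacts

end Step

/-- The error term is below every power of `u` up to `248`. -/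
lemma eps_error_le {d ε n : ℝ} (hd : 1 ≤ d) (hε : 0 ≤ ε) (hn : 0 ≤ n) {k N : ℕ}
    (hw : gw d ε k ≤ 1 / 256) (hN : N ≤ 248) :
    ε * (n / d ^ 30) ≤ ε / gw d ε k * (n * gu d ε k ^ N) := by
  have hwp := gw_pos hd hε k
  have h1 : (1 / d) ^ 30 ≤ (gu d ε k ^ 8) ^ 30 := by
    rw [gu_pow hd hε]
    exact pow_le_pow_left₀ (by positivity) (inv_le_gw hε k) 30
  have h2 : gu d ε k ^ 248 ≤ gu d ε k ^ N :=
    pow_le_pow_of_le_one (gu_pos hd hε k).le (gu_le_one hd hε hw) hN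
  have e1 : ε / gw d ε k * (n * gu d ε k ^ 248) = ε * (n * (gu d ε k ^ 8) ^ 30) := by
    have : gu d ε k ^ 248 = gw d ε k * (gu d ε k ^ 8) ^ 30 := by
      rw [← gu_pow hd hε k]; ring
    rw [this]
    field_simp
  calc ε * (n / d ^ 30) = ε * (n * (1 / d) ^ 30) := by rw [div_pow, one_pow, mul_one_div]
    _ ≤ ε * (n * (gu d ε k ^ 8) ^ 30) := by gcongr
    _ = ε / gw d ε k * (n * gu d ε k ^ 248) := e1.symm
    _ ≤ _ := by gcongr

/-- The inductive hypothesis: all sequences below their targets, with `G` the running factor. -/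
structure Below (n G u v Kp Km KQ KW c p q W Q : ℝ) (m : ℕ → ℝ) : Prop where
  hc : c ≤ G * n / u ^ 4
  hp : p ≤ Kp * (G * n / u ^ 4)
  hq : q ≤ G * n * u ^ 4
  hm : ∀ j < 20, m j ≤ Km * (G * n * u ^ (8 * j + 4))
  hQ : Q ≤ KQ * (G * n * (u ^ 4 * (u ^ 3 + v ^ 3)))
  hW : W ≤ KW * (G * n * (u ^ 4 * (u ^ 2 + v ^ 2)))

/-! ### The six steps, with `ω = u⁸` -/

section Steps

variable {n g g' u v u' v' e E C0 Kp Km KB KQ KW CG : ℝ}

lemma StepFacts.bu4 (sf : StepFacts u v u' v' e) : u ^ 4 ≤ u + v := by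
  have := sf.v_pos
  linarith [pow_le_of_le_one sf.u_pos.le sf.u_le (show 4 ≠ 0 by norm_num)]

lemma step_c (sf : StepFacts u v u' v' e) (hn : 0 ≤ n) (hg : 0 ≤ g) (hgg : g ≤ g')
    (gg : g * (1 + CG * (e * (u + v) / 8)) ≤ g') (hC : 0 ≤ C0) (hKB : 0 ≤ KB)
    (hCG : 16 * (C0 * KB + 1) ≤ CG) (err' : ∀ N, N ≤ 248 → E ≤ e * (g * n * u ^ N)) {ck c' Bk : ℝ}
    (hck : c' ≤ ck + e * (-ck + C0 * u ^ 4 * Bk) + E) (ic : ck ≤ g * n / u ^ 4)
    (bB : Bk ≤ KB * (g * n / u ^ 4)) :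
    c' ≤ g' * n / u' ^ 4 := by
  have hCG0 : 0 ≤ CG := by linarith [mul_nonneg hC hKB]
  have hu := sf.u_pos
  have hu' := sf.u'_pos
  have hv := sf.v_pos
  have he := sf.e_nonneg
  have he1 := sf.e_le
  have hu4 : 0 < u ^ 4 := by positivity
  have hgn : 0 ≤ g * n := mul_nonneg hg hn
  have h1 : c' ≤ (1 - e) * (g * n / u ^ 4) + e * (C0 * KB + 1) * (g * n) := by
    have a1 : (1 - e) * ck ≤ (1 - e) * (g * n / u ^ 4) :=
      mul_le_mul_of_nonneg_left ic (by linarith)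
    have a2 : e * (C0 * u ^ 4 * Bk) ≤ e * (C0 * u ^ 4 * (KB * (g * n / u ^ 4))) := by gcongr
    have a3 : e * (C0 * u ^ 4 * (KB * (g * n / u ^ 4))) = e * (C0 * KB) * (g * n) := by
      field_simp
    have a4 : E ≤ e * (g * n) := by simpa using err' 0 (by norm_num)
    linarith
  refine h1.trans ?_
  have h2 : (1 - e) * (g' * n / u ^ 4) ≤ g' * n / u' ^ 4 := by
    rw [mul_div_assoc', div_le_div_iff₀ hu4 (by positivity)]
    have := mul_le_mul_of_nonneg_left sf.four_upper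
      (show 0 ≤ g' * n by have := hg.trans hgg; positivity)
    linarith
  refine le_trans ?_ h2
  have h3 : (1 - e) * (g * (1 + CG * (e * (u + v) / 8)) * n / u ^ 4)
      ≤ (1 - e) * (g' * n / u ^ 4) := by
    have : 0 ≤ 1 - e := by linarith
    gcongr
  refine le_trans ?_ h3
  have e1 : (1 - e) * (g * (1 + CG * (e * (u + v) / 8)) * n / u ^ 4) =
      (1 - e) * (g * n / u ^ 4)
        + e * ((1 - e) * CG * (u + v) / 8) * (g * n / u ^ 4) := by ring
  have e2 : e * (C0 * KB + 1) * (g * n) =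
      e * ((C0 * KB + 1) * u ^ 4) * (g * n / u ^ 4) := by field_simp
  rw [e1, e2]
  gcongr
  calc (C0 * KB + 1) * u ^ 4 ≤ (CG / 16) * (u + v) :=
        mul_le_mul (by linarith) sf.bu4 (by positivity) (by positivity)
    _ ≤ (1 - e) * CG * (u + v) / 8 := by
        have : 0 ≤ (1 / 2 - e) * (CG * (u + v)) :=
          mul_nonneg (by linarith) (by positivity)
        linarith

lemma step_p (sf : StepFacts u v u' v' e) (hn : 0 ≤ n) (hg : 0 ≤ g) (hgg : g ≤ g')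
    (hC : 0 ≤ C0) (hKp : C0 + 1 ≤ Kp)
    (err' : ∀ N, N ≤ 248 → E ≤ e * (g * n * u ^ N)) {ck pk p' : ℝ}
    (hpk : p' ≤ pk + e * (C0 * ck - 2 * pk) + E) (ic : ck ≤ g * n / u ^ 4)
    (ip : pk ≤ Kp * (g * n / u ^ 4)) :
    p' ≤ Kp * (g' * n / u' ^ 4) := by
  have hu := sf.u_pos
  have hu' := sf.u'_pos
  have hv := sf.v_pos
  have he := sf.e_nonneg
  have he1 := sf.e_le
  have hu4 : 0 < u ^ 4 := by positivity
  have hgn : 0 ≤ g * n := mul_nonneg hg hn
  have h1 : p' ≤ (1 - e) * (Kp * (g * n / u ^ 4)) := by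
    have a1 : (1 - 2 * e) * pk ≤ (1 - 2 * e) * (Kp * (g * n / u ^ 4)) :=
      mul_le_mul_of_nonneg_left ip (by linarith)
    have a2 : e * (C0 * ck) ≤ e * (C0 * (g * n / u ^ 4)) := by gcongr
    have a4 : E ≤ e * (g * n / u ^ 4) := by
      refine le_trans (by simpa using err' 0 (by norm_num)) ?_
      refine mul_le_mul_of_nonneg_left ?_ he
      rw [le_div_iff₀ hu4]
      exact mul_le_of_le_one_right hgn (pow_le_one₀ hu.le sf.u_le)
    have : 0 ≤ (Kp - (C0 + 1)) * (e * (g * n / u ^ 4)) :=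
      mul_nonneg (by linarith) (mul_nonneg he (by positivity))
    linarith
  refine h1.trans ?_
  rw [mul_left_comm]
  refine mul_le_mul_of_nonneg_left ?_ (by linarith)
  rw [mul_div_assoc', div_le_div_iff₀ hu4 (by positivity)]
  calc (1 - e) * (g * n) * u' ^ 4 = (u' ^ 4 * (1 - e)) * (g * n) := by ring
    _ ≤ u ^ 4 * (g' * n) := mul_le_mul sf.four_upper (by gcongr) hgn (by positivity)
    _ = _ := by ring

lemma step_q (sf : StepFacts u v u' v' e) (hn : 0 ≤ n) (hg : 0 ≤ g) (hgg : g ≤ g')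
    (gg : g * (1 + CG * (e * (u + v) / 8)) ≤ g') (hC : 0 ≤ C0) (hKB0 : 0 ≤ KB) (hKW0 : 0 ≤ KW)
    (hCG : 16 * (KW + C0 * KB + 2) ≤ CG) (err' : ∀ N, N ≤ 248 → E ≤ e * (g * n * u ^ N))
    {qk q' Wk Bk : ℝ}
    (hqk : q' ≤ qk + e * (qk + Wk / (u + v) + C0 * (u + v) * u ^ 8 * Bk) + E)
    (iq : qk ≤ g * n * u ^ 4) (iW : Wk ≤ KW * (g * n * (u ^ 4 * (u ^ 2 + v ^ 2))))
    (bB : Bk ≤ KB * (g * n / u ^ 4)) :
    q' ≤ g' * n * u' ^ 4 := by
  have hCG0 : 0 ≤ CG := by linarith [mul_nonneg hC hKB0]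
  have hCK := mul_nonneg hC hKB0
  have hu := sf.u_pos
  have hu' := sf.u'_pos
  have hv := sf.v_pos
  have he := sf.e_nonneg
  have he1 := sf.e_le
  have hu4 : 0 < u ^ 4 := by positivity
  have hgn : 0 ≤ g * n := mul_nonneg hg hn
  have hb : 0 < u + v := by linarith
  have a1 : Wk / (u + v) ≤ KW * (g * n * u ^ 4 * (u + v)) := by
    rw [div_le_iff₀ hb]
    refine iW.trans ?_
    have : u ^ 2 + v ^ 2 ≤ (u + v) * (u + v) := by linarith [mul_pos hu hv]
    calc KW * (g * n * (u ^ 4 * (u ^ 2 + v ^ 2)))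
        ≤ KW * (g * n * (u ^ 4 * ((u + v) * (u + v)))) := by gcongr
      _ = _ := by ring
  have a2 : C0 * (u + v) * u ^ 8 * Bk ≤ C0 * KB * (g * n * u ^ 4 * (u + v)) := by
    refine (mul_le_mul_of_nonneg_left bB (by positivity)).trans (le_of_eq ?_)
    field_simp
  have a3 : E ≤ e * (g * n * u ^ 4 * (u + v)) := by
    refine (err' 5 (by norm_num)).trans ?_
    refine mul_le_mul_of_nonneg_left ?_ he
    calc g * n * u ^ 5 = g * n * u ^ 4 * u := by ring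
      _ ≤ _ := by gcongr; linarith
  have a4 : (1 + e) * qk ≤ (1 + e) * (g * n * u ^ 4) :=
    mul_le_mul_of_nonneg_left iq (by linarith)
  have a5 := mul_le_mul_of_nonneg_left (add_le_add a1 a2) he
  have h1 : q' ≤ g * n * u ^ 4 * (1 + e + e * (KW + C0 * KB + 1) * (u + v)) := by
    linarith
  refine h1.trans ?_
  calc g * n * u ^ 4 * (1 + e + e * (KW + C0 * KB + 1) * (u + v))
      ≤ g * n * u ^ 4 * ((1 + CG * (e * (u + v) / 8)) * (1 + e - e ^ 2 / 2)) := by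
        gcongr
        have x1 : 0 ≤ CG * (e * (u + v) / 8) * (e - e ^ 2 / 2) :=
          mul_nonneg (by positivity) (by nlinarith)
        have x2 : 0 ≤ e * ((u + v) - e) := mul_nonneg he (sub_nonneg.2 sf.e_le_b)
        have x3 : 0 ≤ (CG / 8 - (KW + C0 * KB + 1) - 1 / 2) * (e * (u + v)) :=
          mul_nonneg (by linarith)
            (by positivity)
        linarith
    _ = (g * (1 + CG * (e * (u + v) / 8))) * n * (u ^ 4 * (1 + e - e ^ 2 / 2)) := by ring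
    _ ≤ g' * n * u' ^ 4 :=
        mul_le_mul (mul_le_mul_of_nonneg_right gg hn) sf.four_lower
          (by have : 0 ≤ 1 + e - e ^ 2 / 2 := by nlinarith
              positivity)
          (by have := hg.trans hgg; positivity)

lemma step_m (sf : StepFacts u v u' v' e) (hn : 0 ≤ n) (hg : 0 ≤ g) (hgg : g ≤ g')
    {j : ℕ} (hj : 8 * j + 4 ≤ 248) (hC : 0 ≤ C0) (hKm : 4 * (C0 * (1 + Kp) + 1) ≤ Km)
    (hKm0 : 0 ≤ Km) (err' : ∀ N, N ≤ 248 → E ≤ e * (g * n * u ^ N)) {mk m' ck pk : ℝ}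
    (hmk : m' ≤ mk + e * ((1 / 2) * mk + C0 * (u ^ 8) ^ (j + 1) * (ck + pk)) + E)
    (ic : ck ≤ g * n / u ^ 4) (ip : pk ≤ Kp * (g * n / u ^ 4))
    (im : mk ≤ Km * (g * n * u ^ (8 * j + 4))) :
    m' ≤ Km * (g' * n * u' ^ (8 * j + 4)) := by
  have hu := sf.u_pos
  have hu' := sf.u'_pos
  have hv := sf.v_pos
  have he := sf.e_nonneg
  have he1 := sf.e_le
  have hu4 : 0 < u ^ 4 := by positivity
  have hgn : 0 ≤ g * n := mul_nonneg hg hn
  have a1 : (1 + e / 2) * mk ≤ (1 + e / 2) * (Km * (g * n * u ^ (8 * j + 4))) :=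
    mul_le_mul_of_nonneg_left im (by linarith)
  have a2 : e * (C0 * (u ^ 8) ^ (j + 1) * (ck + pk)) ≤
      e * (C0 * (1 + Kp)) * (g * n * u ^ (8 * j + 4)) := by
    have : e * (C0 * (u ^ 8) ^ (j + 1) * (ck + pk)) ≤
        e * (C0 * (u ^ 8) ^ (j + 1) * (g * n / u ^ 4 + Kp * (g * n / u ^ 4))) := by gcongr
    refine this.trans (le_of_eq ?_)
    field_simp
    ring
  have a3 := err' (8 * j + 4) hj
  have h1 : m' ≤ Km * (g * n * (u ^ (8 * j + 4) * (1 + 3 / 4 * e))) := by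
    have : 0 ≤ (Km / 4 - (C0 * (1 + Kp) + 1)) * (e * (g * n * u ^ (8 * j + 4))) :=
      mul_nonneg (by linarith) (mul_nonneg he (by positivity))
    linarith
  refine h1.trans ?_
  exact mul_le_mul_of_nonneg_left
    (mul_le_mul (mul_le_mul_of_nonneg_right hgg hn) (sf.high (by omega)) (by positivity)
      (by have := hg.trans hgg; positivity)) hKm0

lemma step_Q (sf : StepFacts u v u' v' e) (hn : 0 ≤ n) (hg : 0 ≤ g) (hgg : g ≤ g')
    (hC : 0 ≤ C0) (hKB : 0 ≤ KB) (hKQ : 16 * (C0 * KB + 1) + 8 ≤ KQ) (hKQ0 : 0 ≤ KQ)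
    (err' : ∀ N, N ≤ 248 → E ≤ e * (g * n * u ^ N)) {Qk Q' Bk : ℝ}
    (hQk : Q' ≤ Qk + e * ((1 / 8) * Qk + C0 * u ^ 12 * Bk) + E)
    (iQ : Qk ≤ KQ * (g * n * (u ^ 4 * (u ^ 3 + v ^ 3)))) (bB : Bk ≤ KB * (g * n / u ^ 4)) :
    Q' ≤ KQ * (g' * n * (u' ^ 4 * (u' ^ 3 + v' ^ 3))) := by
  have hu := sf.u_pos
  have hu' := sf.u'_pos
  have hv := sf.v_pos
  have he := sf.e_nonneg
  have he1 := sf.e_le
  have hu4 : 0 < u ^ 4 := by positivity
  have hgn : 0 ≤ g * n := mul_nonneg hg hn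
  set R := u ^ 4 * (u ^ 3 + v ^ 3) with hR
  have hR7 : u ^ 7 ≤ R := by
    have : 0 ≤ u ^ 4 * v ^ 3 := by positivity
    rw [hR]; linarith
  have a1 : (1 + e / 8) * Qk ≤ (1 + e / 8) * (KQ * (g * n * R)) :=
    mul_le_mul_of_nonneg_left iQ (by linarith)
  have a2 : C0 * u ^ 12 * Bk ≤ C0 * KB * (g * n * R) := by
    refine (mul_le_mul_of_nonneg_left bB (by positivity)).trans ?_
    have : C0 * u ^ 12 * (KB * (g * n / u ^ 4)) = C0 * KB * (g * n * u ^ 8) := by field_simp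
    rw [this]
    have h87 : u ^ 8 ≤ R :=
      (pow_le_pow_of_le_one hu.le sf.u_le (by norm_num)).trans hR7
    gcongr
  have a2' := mul_le_mul_of_nonneg_left a2 he
  have a3 : E ≤ e * (g * n * R) := (err' 7 (by norm_num)).trans (by gcongr)
  have a6 : 0 ≤ (KQ / 16 - (C0 * KB + 1)) * (e * (g * n * R)) :=
    mul_nonneg (by linarith) (mul_nonneg he (mul_nonneg hgn (by rw [hR]; positivity)))
  have h1 : Q' ≤ KQ * (g * n * (R * (1 + 3 / 16 * e))) := by linarith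
  refine h1.trans ?_
  exact mul_le_mul_of_nonneg_left
    (mul_le_mul (mul_le_mul_of_nonneg_right hgg hn) (by rw [hR]; exact sf.rQ)
      (by rw [hR]; positivity) (by have := hg.trans hgg; positivity)) hKQ0

lemma step_W (sf : StepFacts u v u' v' e) (hn : 0 ≤ n) (hg : 0 ≤ g) (hgg : g ≤ g')
    (hC : 0 ≤ C0) (hKB : 0 ≤ KB) (hKQ0 : 0 ≤ KQ) (hKW : 8 * (C0 * (KQ + 2 * KB) + 1) ≤ KW)
    (hKW0 : 0 ≤ KW) (err' : ∀ N, N ≤ 248 → E ≤ e * (g * n * u ^ N)) {Qk Wk W' Bk : ℝ}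
    (hWk : W' ≤ Wk + e * ((1 / 4) * Wk + C0 * (Qk / (u + v) + (u + v) ^ 2 * u ^ 8 * Bk)) + E)
    (iQ : Qk ≤ KQ * (g * n * (u ^ 4 * (u ^ 3 + v ^ 3))))
    (iW : Wk ≤ KW * (g * n * (u ^ 4 * (u ^ 2 + v ^ 2)))) (bB : Bk ≤ KB * (g * n / u ^ 4)) :
    W' ≤ KW * (g' * n * (u' ^ 4 * (u' ^ 2 + v' ^ 2))) := by
  have hu := sf.u_pos
  have hu' := sf.u'_pos
  have hv := sf.v_pos
  have he := sf.e_nonneg
  have he1 := sf.e_le
  have hu4 : 0 < u ^ 4 := by positivity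
  have hgn : 0 ≤ g * n := mul_nonneg hg hn
  set R := u ^ 4 * (u ^ 2 + v ^ 2) with hR
  have hR0 : 0 ≤ R := by rw [hR]; positivity
  have hb : 0 < u + v := by linarith
  have a1 : (1 + e / 4) * Wk ≤ (1 + e / 4) * (KW * (g * n * R)) :=
    mul_le_mul_of_nonneg_left iW (by linarith)
  have a2 : Qk / (u + v) ≤ KQ * (g * n * R) := by
    rw [div_le_iff₀ hb]
    refine iQ.trans ?_
    have : u ^ 3 + v ^ 3 ≤ (u ^ 2 + v ^ 2) * (u + v) := by
      linarith [mul_pos (mul_pos hu hv) hb]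
    calc KQ * (g * n * (u ^ 4 * (u ^ 3 + v ^ 3)))
        ≤ KQ * (g * n * (u ^ 4 * ((u ^ 2 + v ^ 2) * (u + v)))) := by gcongr
      _ = _ := by rw [hR]; ring
  have a3 : (u + v) ^ 2 * u ^ 8 * Bk ≤ 2 * KB * (g * n * R) := by
    refine (mul_le_mul_of_nonneg_left bB (by positivity)).trans ?_
    have : (u + v) ^ 2 * u ^ 8 * (KB * (g * n / u ^ 4)) =
        KB * (g * n * (u ^ 4 * (u + v) ^ 2)) := by field_simp
    rw [this]
    have h2 : (u + v) ^ 2 ≤ 2 * (u ^ 2 + v ^ 2) := add_sq_le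
    calc KB * (g * n * (u ^ 4 * (u + v) ^ 2))
        ≤ KB * (g * n * (u ^ 4 * (2 * (u ^ 2 + v ^ 2)))) := by gcongr
      _ = _ := by rw [hR]; ring
  have a4 := mul_le_mul_of_nonneg_left
    (mul_le_mul_of_nonneg_left (add_le_add a2 a3) hC) he
  have a5 : E ≤ e * (g * n * R) := by
    refine (err' 6 (by norm_num)).trans ?_
    have : u ^ 6 ≤ R := by
      have : 0 ≤ u ^ 4 * v ^ 2 := by positivity
      rw [hR]; linarith
    gcongr
  have h1 : W' ≤ KW * (g * n * (R * (1 + 3 / 8 * e))) := by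
    have : 0 ≤ (KW / 8 - (C0 * (KQ + 2 * KB) + 1)) * (e * (g * n * R)) :=
      mul_nonneg (by linarith) (mul_nonneg he (mul_nonneg hgn hR0))
    linarith
  refine h1.trans ?_
  exact mul_le_mul_of_nonneg_left
    (mul_le_mul (mul_le_mul_of_nonneg_right hgg hn) (by rw [hR]; exact sf.rW)
      (by rw [hR]; positivity) (by have := hg.trans hgg; positivity)) hKW0

end Steps

/-- **Growth bound** for the coupled recursions. -/
theorem grow : ∀ C0 : ℝ, 1 ≤ C0 → ∃ Cg : ℝ, ∀ (d n ε : ℝ) (K : ℕ),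
    1 ≤ d → 0 ≤ n → 0 ≤ ε → ε * d ^ 2 ≤ 1 / 100 →
    ∀ w : ℕ → ℝ, (∀ k, w k = 1 / d + 2 * ε * (k : ℝ)) →
    (∀ k ≤ K, w k ≤ 1 / 256) →
    ∀ (c p q W Q B : ℕ → ℝ) (m : ℕ → ℕ → ℝ),
    (∀ k ≤ K, B k ≤ c k + p k + (∑ j ∈ range 20, m j k / w k ^ (j + 1)) + 8 * q k / w k) →
    (∀ k < K, c (k + 1) ≤ c k + ε / w k * (-c k + C0 * ((w k) ^ ((1:ℝ) / 8)) ^ 4 * B k)
      + ε * (n / d ^ 30)) →
    (∀ k < K, p (k + 1) ≤ p k + ε / w k * (C0 * c k - 2 * p k) + ε * (n / d ^ 30)) →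
    (∀ j < 20, ∀ k < K, m j (k + 1) ≤ m j k
      + ε / w k * ((1 / 2) * m j k + C0 * w k ^ (j + 1) * (c k + p k)) + ε * (n / d ^ 30)) →
    (∀ k < K, Q (k + 1) ≤ Q k
      + ε / w k * ((1 / 8) * Q k + C0 * ((w k) ^ ((1:ℝ) / 8)) ^ 12 * B k) + ε * (n / d ^ 30)) →
    (∀ k < K, W (k + 1) ≤ W k + ε / w k * ((1 / 4) * W k
      + C0 * (Q k / ((w k) ^ ((1:ℝ) / 8) + (d * w k) ^ (-((1:ℝ) / 8)))
        + ((w k) ^ ((1:ℝ) / 8) + (d * w k) ^ (-((1:ℝ) / 8))) ^ 2 * w k * B k))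
      + ε * (n / d ^ 30)) →
    (∀ k < K, q (k + 1) ≤ q k + ε / w k * (q k
      + W k / ((w k) ^ ((1:ℝ) / 8) + (d * w k) ^ (-((1:ℝ) / 8)))
      + C0 * ((w k) ^ ((1:ℝ) / 8) + (d * w k) ^ (-((1:ℝ) / 8))) * w k * B k)
      + ε * (n / d ^ 30)) →
    c 0 ≤ n * Real.sqrt d → p 0 ≤ n * Real.sqrt d → q 0 ≤ 0 → W 0 ≤ 0 →
    (∀ j < 20, m j 0 ≤ 0) → Q 0 ≤ 8 * n / Real.sqrt d →
    ∀ k ≤ K, c k ≤ Cg * n / Real.sqrt (w k) := by
  intro C0 hC0
  set Kp : ℝ := C0 + 1 with hKp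
  set Km : ℝ := 4 * (C0 * (1 + Kp) + 1) with hKm
  set KB : ℝ := 1 + Kp + 20 * Km + 8 with hKB
  set KQ : ℝ := 16 * (C0 * KB + 1) + 8 with hKQ
  set KW : ℝ := 8 * (C0 * (KQ + 2 * KB) + 1) with hKW
  set CG : ℝ := 16 * (KW + C0 * KB + 2) with hCG
  have hKp0 : 0 ≤ Kp := by positivity
  have hKm0 : 0 ≤ Km := by positivity
  have hKB0 : 0 ≤ KB := by positivity
  have hKQ0 : 0 ≤ KQ := by positivity
  have hKW0 : 0 ≤ KW := by positivity
  have hCG0 : 0 ≤ CG := by positivity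
  refine ⟨Real.exp (2 * CG), ?_⟩
  intro d n ε K hd hn hε hεd w hwdef hwK c p q W Q B m hB hc hp hm hQ hW hq c0 p0 q0 W0 m0 Q0
  obtain rfl : w = gw d ε := funext hwdef
  set G : ℕ → ℝ := fun k => Real.exp (CG * (1 + gu d ε k - gv d ε k)) with hG
  have G1 : ∀ k, 1 ≤ G k := fun k => Real.one_le_exp (mul_nonneg hCG0
    (by have := gv_le_one hd hε k; have := gu_pos hd hε k; linarith))
  have main : ∀ k ≤ K, Below n (G k) (gu d ε k) (gv d ε k) Kp Km KQ KW (c k) (p k) (q k) (W k)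
      (Q k) (fun j => m j k) := by
    intro k
    induction k with
    | zero =>
      intro _
      have hu := gu_pos hd hε 0
      have hu4 : gu d ε 0 ^ 4 = 1 / Real.sqrt d := by
        rw [← Real.sqrt_sq (show 0 ≤ gu d ε 0 ^ 4 by positivity), ← pow_mul, gu_zero_pow hd hε,
          Real.sqrt_div zero_le_one, Real.sqrt_one]
      have hGn : n ≤ G 0 * n := le_mul_of_one_le_left hn (G1 0)
      have hcp : n * Real.sqrt d ≤ G 0 * n / gu d ε 0 ^ 4 := by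
        rw [hu4, div_div_eq_mul_div, div_one]
        exact mul_le_mul_of_nonneg_right hGn (Real.sqrt_nonneg _)
      have hG0 : 0 ≤ G 0 * n := hn.trans hGn
      refine ⟨c0.trans hcp, p0.trans ?_, q0.trans (by positivity),
        fun j hj => (m0 j hj).trans (by positivity), Q0.trans ?_, W0.trans (by positivity)⟩
      · exact hcp.trans (le_mul_of_one_le_left (by positivity) (by rw [hKp]; linarith))
      · rw [gv_zero hd]
        have h1 : 8 * n / Real.sqrt d = 8 * (n * gu d ε 0 ^ 4) := by rw [hu4]; ring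
        rw [h1]
        refine mul_le_mul ?_ ?_ (by positivity) hKQ0
        · have : 0 ≤ C0 * KB := by positivity
          rw [hKQ]; linarith
        · refine mul_le_mul hGn ?_ (by positivity) hG0
          refine le_mul_of_one_le_right (by positivity) ?_
          have : 0 ≤ gu d ε 0 ^ 3 := by positivity
          linarith
    | succ k ih =>
      intro hk
      have hkK : k < K := by omega
      obtain ⟨ic, ip, iq, im, iQ, iW⟩ := ih hkK.le
      have hwk := hwK k hkK.le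
      have sf := stepFacts hd hε hεd hwk
      have err := fun N (hN : N ≤ 248) => eps_error_le hd hε hn (k := k) hwk (N := N) hN
      have hBk := hB k hkK.le
      have hwu := gu_pow hd hε k
      have hck := hc k hkK
      have hpk := hp k hkK
      have hmk := fun j (hj : j < 20) => hm j hj k hkK
      have hQk := hQ k hkK
      have hWk := hW k hkK
      have hqk := hq k hkK
      rw [show gw d ε k ^ ((1:ℝ) / 8) = gu d ε k from rfl] at hck hQk hWk hqk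
      rw [show (d * gw d ε k) ^ (-((1:ℝ) / 8)) = gv d ε k from rfl] at hWk hqk
      have gg : G k * (1 + CG * (ε / gw d ε k * (gu d ε k + gv d ε k) / 8)) ≤ G (k + 1) := by
        have h1 : CG * (1 + gu d ε k - gv d ε k)
            + CG * (ε / gw d ε k * (gu d ε k + gv d ε k) / 8)
            ≤ CG * (1 + gu d ε (k + 1) - gv d ε (k + 1)) := by
          rw [← mul_add]
          exact mul_le_mul_of_nonneg_left (by linarith [sf.du, sf.dv]) hCG0
        refine le_trans ?_ (Real.exp_le_exp.2 h1)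
        rw [Real.exp_add]
        refine mul_le_mul_of_nonneg_left ?_ (Real.exp_nonneg _)
        linarith [Real.add_one_le_exp (CG * (ε / gw d ε k * (gu d ε k + gv d ε k) / 8))]
      have hg1 := G1 k
      generalize G (k + 1) = g' at *
      generalize G k = g at *
      generalize hew : ε / gw d ε k = e at *
      generalize gu d ε (k + 1) = u' at *
      generalize gv d ε (k + 1) = v' at *
      generalize gu d ε k = u at *
      generalize gv d ε k = v at *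
      generalize gw d ε k = ω at *
      subst hwu
      generalize ε * (n / d ^ 30) = E at *
      have hu := sf.u_pos
      have hu' := sf.u'_pos
      have hv := sf.v_pos
      have he := sf.e_nonneg
      have he1 := sf.e_le
      have hg0 : 0 ≤ g := zero_le_one.trans hg1
      have hngn : n ≤ g * n := le_mul_of_one_le_left hn hg1
      have hgn : 0 ≤ g * n := hn.trans hngn
      have hgg : g ≤ g' := le_trans (le_mul_of_one_le_right hg0 (by
        have : 0 ≤ CG * (e * (u + v) / 8) := by positivity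
        linarith)) gg
      have hu4 : 0 < u ^ 4 := by positivity
      have err' : ∀ N, N ≤ 248 → E ≤ e * (g * n * u ^ N) := fun N hN =>
        (err N hN).trans (mul_le_mul_of_nonneg_left
          (mul_le_mul_of_nonneg_right hngn (by positivity)) he)
      -- the bound on `B`
      have bB : B k ≤ KB * (g * n / u ^ 4) := by
        have h1 : ∀ j ∈ range 20, m j k / (u ^ 8) ^ (j + 1) ≤ Km * (g * n / u ^ 4) := by
          intro j hj
          rw [div_le_iff₀ (by positivity)]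
          refine (im j (mem_range.1 hj)).trans (le_of_eq ?_)
          field_simp
          ring
        have h2 := Finset.sum_le_sum h1
        rw [Finset.sum_const, card_range, nsmul_eq_mul] at h2
        have h3 : 8 * q k / u ^ 8 ≤ 8 * (g * n / u ^ 4) := by
          rw [div_le_iff₀ (by positivity)]
          refine (mul_le_mul_of_nonneg_left iq (by norm_num)).trans (le_of_eq ?_)
          field_simp
        calc B k ≤ g * n / u ^ 4 + Kp * (g * n / u ^ 4) + (20 : ℕ) * (Km * (g * n / u ^ 4))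
              + 8 * (g * n / u ^ 4) := by linarith
          _ = _ := by rw [hKB]; push_cast; ring
      have hC : 0 ≤ C0 := zero_le_one.trans hC0
      have hCK : 0 ≤ C0 * KB := mul_nonneg hC hKB0
      exact ⟨step_c sf hn hg0 hgg gg hC hKB0 (by rw [hCG]; linarith) err' hck ic bB,
        step_p sf hn hg0 hgg hC hKp.ge err' hpk ic ip,
        step_q sf hn hg0 hgg gg hC hKB0 hKW0 hCG.ge err' hqk iq iW bB,
        fun j hj => step_m sf hn hg0 hgg (by omega) hC hKm.ge hKm0 err' (hmk j hj) ic ip (im j hj),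
        step_Q sf hn hg0 hgg hC hKB0 hKQ.ge hKQ0 err' hQk iQ bB,
        step_W sf hn hg0 hgg hC hKB0 hKQ0 hKW.ge hKW0 err' hWk iQ iW bB⟩
  intro k hk
  have hu := gu_pos hd hε k
  have hs : Real.sqrt (gw d ε k) = gu d ε k ^ 4 := by
    rw [← gu_pow hd hε k, show gu d ε k ^ 8 = (gu d ε k ^ 4) ^ 2 by ring,
      Real.sqrt_sq (by positivity)]
  rw [hs]
  refine (main k hk).hc.trans ?_
  gcongr
  refine Real.exp_le_exp.2 ?_
  have := gu_le_one hd hε (hwK k hk)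
  have := gv_pos hd hε k
  nlinarith

end Vale.Agent.P046
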