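import Mathlib
import Vale.Agent.P046.Comb

/-!
# P046: the triangles of the complete graph as a linear 3-uniform hypergraph
-/

open Finset

namespace Vale.Agent.P046

/-- The edges of the complete graph on `Fin n`. -/
abbrev Side (n : ℕ) : Type := {e : Finset (Fin n) // e.card = 2}

variable {n : ℕ}

/-- The edges inside a vertex set. -/
def sideEdges (t : Finset (Fin n)) : Finset (Side n) := Finset.univ.filter fun e => e.1 ⊆ t

/-- The triangles of the complete graph on `Fin n`, as sets of three edges. -/
def triSys (n : ℕ) : Finset (Finset (Side n)) :=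
  ((Finset.univ : Finset (Fin n)).powersetCard 3).image sideEdges

lemma mem_sideEdges {t : Finset (Fin n)} {e : Side n} : e ∈ sideEdges t ↔ e.1 ⊆ t := by simp [sideEdges]

lemma mem_triSys {T : Finset (Side n)} :
    T ∈ triSys n ↔ ∃ t : Finset (Fin n), t.card = 3 ∧ sideEdges t = T := by
  simp [triSys, Finset.mem_powersetCard]

lemma card_sideEdges (t : Finset (Fin n)) : (sideEdges t).card = t.card.choose 2 := by
  rw [← Finset.card_powersetCard]
  refine Finset.card_bij (fun e _ => e.1) (fun e he => ?_) (fun a _ b _ h => Subtype.ext h)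
    (fun s hs => ?_)
  · exact Finset.mem_powersetCard.2 ⟨mem_sideEdges.1 he, e.2⟩
  · obtain ⟨h1, h2⟩ := Finset.mem_powersetCard.1 hs
    exact ⟨⟨s, h2⟩, mem_sideEdges.2 h1, rfl⟩

lemma sideEdges_inj {t t' : Finset (Fin n)} (ht : t.card = 3) (h : sideEdges t = sideEdges t') : t ⊆ t' := by
  intro x hx
  obtain ⟨y, hy⟩ := Finset.card_pos.1 (by rw [Finset.card_erase_of_mem hx, ht]; norm_num :
    0 < (t.erase x).card)
  obtain ⟨hyx, hyt⟩ := Finset.mem_erase.1 hy
  have hmem : (⟨{x, y}, Finset.card_pair (Ne.symm hyx)⟩ : Side n) ∈ sideEdges t :=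
    mem_sideEdges.2 (by simp [Finset.insert_subset_iff, hx, hyt])
  rw [h] at hmem
  exact mem_sideEdges.1 hmem (by simp)

lemma triSys_linear : Linear (triSys n) where
  card3 := fun T hT => by
    obtain ⟨t, ht, rfl⟩ := mem_triSys.1 hT
    rw [card_sideEdges, ht]; rfl
  inter := fun T hT T' hT' hne => by
    obtain ⟨t, ht, rfl⟩ := mem_triSys.1 hT
    obtain ⟨t', ht', rfl⟩ := mem_triSys.1 hT'
    have hsub : sideEdges t ∩ sideEdges t' ⊆ sideEdges (t ∩ t') := fun e he => by
      simp only [Finset.mem_inter, mem_sideEdges] at he ⊢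
      exact Finset.subset_inter he.1 he.2
    refine (Finset.card_le_card hsub).trans ?_
    rw [card_sideEdges]
    have h2 : (t ∩ t').card ≤ 2 := by
      by_contra hc
      have h3 : t ∩ t' = t := Finset.eq_of_subset_of_card_le Finset.inter_subset_left (by omega)
      have h4 : t = t' := Finset.eq_of_subset_of_card_le (Finset.inter_eq_left.1 h3) (by omega)
      exact hne (by rw [h4])
    interval_cases h : (t ∩ t').card <;> simp

lemma card_edge_eq : Fintype.card (Side n) = n.choose 2 := by
  rw [← Finset.card_univ, show (Finset.univ : Finset (Side n)) = sideEdges Finset.univ by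
    ext e; simp [mem_sideEdges], card_sideEdges, Finset.card_univ, Fintype.card_fin]

lemma star_card_le (A : Finset (Side n)) (f : Side n) : (star (triSys n) A f).card ≤ n - 2 := by
  have h : star (triSys n) A f ⊆
      (Finset.univ \ f.1).image fun w => sideEdges (insert w f.1) := by
    intro T hT
    obtain ⟨h1, -, h3⟩ := mem_star.1 hT
    obtain ⟨t, ht, rfl⟩ := mem_triSys.1 h1
    obtain ⟨w, hw, hwf⟩ := Finset.exists_mem_notMem_of_card_lt_card
      (s := f.1) (t := t) (by rw [f.2, ht]; norm_num)
    refine Finset.mem_image.2 ⟨w, by simp [hwf], ?_⟩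
    congr 1
    refine Finset.eq_of_subset_of_card_le (Finset.insert_subset hw (mem_sideEdges.1 h3)) ?_
    rw [Finset.card_insert_of_notMem hwf, f.2, ht]
  refine (Finset.card_le_card h).trans (Finset.card_image_le.trans ?_)
  rw [Finset.card_sdiff_of_subset (Finset.subset_univ _), Finset.card_univ, Fintype.card_fin, f.2]

lemma deg_univ (f : Side n) :
    deg (triSys n) (Finset.univ : Finset (Side n)) f = (n : ℝ) - 2 := by
  have h2 : 2 ≤ n := by
    have := Finset.card_le_univ f.1
    rw [f.2, Fintype.card_fin] at this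
    exact this
  have hle : ((star (triSys n) Finset.univ f).card : ℝ) ≤ ((n - 2 : ℕ) : ℝ) := by
    exact_mod_cast star_card_le Finset.univ f
  have hge : n - 2 ≤ (star (triSys n) Finset.univ f).card := by
    have hc : (Finset.univ \ f.1).card = n - 2 := by
      rw [Finset.card_sdiff_of_subset (Finset.subset_univ _), Finset.card_univ, Fintype.card_fin, f.2]
    rw [← hc]
    refine Finset.card_le_card_of_injOn (fun w => sideEdges (insert w f.1)) (fun w hw => ?_) ?_
    · have hw' : w ∉ f.1 := (Finset.mem_sdiff.1 hw).2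
      refine mem_star.2 ⟨mem_triSys.2 ⟨_, ?_, rfl⟩, Finset.subset_univ _,
        mem_sideEdges.2 (Finset.subset_insert _ _)⟩
      rw [Finset.card_insert_of_notMem hw', f.2]
    · intro w hw w' hw' he
      have hwf : w ∉ f.1 := (Finset.mem_sdiff.1 hw).2
      have h := sideEdges_inj (by rw [Finset.card_insert_of_notMem hwf, f.2]) he
        (Finset.mem_insert_self w _)
      rcases Finset.mem_insert.1 h with h' | h'
      · exact h'
      · exact absurd h' hwf
  unfold deg
  rw [show (star (triSys n) Finset.univ f).card = n - 2 from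
    le_antisymm (star_card_le _ _) hge, Nat.cast_sub h2]
  norm_num

end Vale.Agent.P046
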