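import Mathlib
import Vale.Agent.P046.Chain
import Vale.Agent.P046.Absorb
import Vale.Agent.P046.AbsorbW
import Vale.Agent.P046.Grow

/-!
# P046: assembly of the uniform upper bound
-/

open Finset Filter Topology

namespace Vale.Agent.P046

universe u

/-- The absorption of the drift of the neighbourhood average, as used by the assembly. -/
def NbAbsorbed (CW : ℝ) : Prop :=
  ∀ {V : Type u} [DecidableEq V] (H : Finset (Finset V)), Linear H →
    ∀ (t w β : ℝ), 0 < t → t ≤ 1 → t ^ 8 = w → w ≤ 1 / 256 → t ≤ β → β ≤ 2 → ∀ σ : St V,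
      -(∑ f ∈ σ.1, sdeg H w σ.1 f * martNb H w σ.1 σ.2 f ^ 2)
        + (∑ f ∈ σ.1, 2 * |martNb H w σ.1 σ.2 f| *
            (w * ∑ S ∈ star H σ.1 f,
              |∑ g ∈ S.erase f, (sdeg H w σ.1 g - 1)| * |partnerMart H w σ.1 σ.2 f S|))
        + (4 * w * ∑ f ∈ σ.1, martNb H w σ.1 σ.2 f ^ 2)
        + (6 * w * ∑ f ∈ σ.1, |martNb H w σ.1 σ.2 f| *
            (2 * sdeg H w σ.1 f ^ 2 + avgNb H w σ.1 (sdeg H w σ.1) f))
        + (6 * w^2 * ∑ f ∈ σ.1, ∑ S ∈ star H σ.1 f,
            (2 + |∑ g ∈ S.erase f, (sdeg H w σ.1 g - 1)|) * partnerMart H w σ.1 σ.2 f S ^ 2)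
        + 6 * codegMass H w σ.1
        ≤ 1/4 * obsNb H w σ + CW * (obsQuad H w σ / β + β ^ 2 * w * obsBase H w σ)

variable {V : Type u} [DecidableEq V] {H : Finset (Finset V)}

lemma obsQuad_nonneg {w : ℝ} (hw : 0 ≤ w) (σ : St V) : 0 ≤ obsQuad H w σ := by
  unfold obsQuad quadCount; positivity

lemma obsBase_nonneg {t w : ℝ} (ht : 0 < t) (ht1 : t ≤ 1) (htw : t ^ 8 = w) (σ : St V) :
    0 ≤ obsBase H w σ :=
  Finset.sum_nonneg fun f _ => (pt_of H ht ht1 htw σ f).base_nonneg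

lemma scaled_drift {ε w D X η : ℝ} (hε : 0 ≤ ε) (hw : 0 < w) (h : w * D ≤ X) :
    ε * D + ε * η ≤ ε / w * X + ε * η := by
  have := mul_le_mul_of_nonneg_left h (div_nonneg hε hw.le)
  have e : ε / w * (w * D) = ε * D := by field_simp
  linarith

variable [Fintype V]

/-- One step of the chain inside an expectation. -/
lemma expect_succ_le {d : ℕ} {ε W : ℝ} {K k : ℕ} (h3 : ∀ T ∈ H, T.card = 3) (hε : 0 ≤ ε)
    (hεH : ε * (H.card : ℝ) ≤ 1) (hW : clock d ε K ≤ W) (hk : k < K) {F' G : St V → ℝ}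
    (h : ∀ σ, Reach (velBound H W) ε k σ → step H ε (clock d ε k) F' σ ≤ G σ) :
    expect H d ε (k + 1) F' ≤ expect H d ε k G := by
  simp only [expect]
  exact expect_mono h3 hε hεH hW k hk.le _ _ h

/-- The expected leave of a regular linear hypergraph of large degree. -/
theorem leave_le_of_large {C0 CW Cg : ℝ} (hnb : NbAbsorbed.{u} CW) (hCW : 0 ≤ CW)
    (h5 : 5 ≤ C0) (h98 : 98 * 98 ^ 48 ≤ C0) (hCM : ∀ j < 20, CM j ≤ C0) (hCP : CP ≤ C0)
    (hCQ : CQ ≤ C0) (hCW0 : CW ≤ C0)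
    (hgrow : ∀ (d n ε : ℝ) (K : ℕ),
    1 ≤ d → 0 ≤ n → 0 ≤ ε → ε * d ^ 2 ≤ 1 / 100 →
    ∀ w : ℕ → ℝ, (∀ k, w k = 1 / d + 2 * ε * (k : ℝ)) →
    (∀ k ≤ K, w k ≤ 1 / 256) →
    ∀ (c p q W Q B : ℕ → ℝ) (m : ℕ → ℕ → ℝ),
    (∀ k ≤ K, B k ≤ c k + p k + (∑ j ∈ range 20, m j k / w k ^ (j + 1)) + 8 * q k / w k) →
    (∀ k < K, c (k + 1) ≤ c k + ε / w k * (-c k + C0 * ((w k) ^ ((1:ℝ) / 8)) ^ 4 * B k)
      + ε * (n / d ^ 30)) →
    (∀ k < K, p (k + 1) ≤ p k + ε / w k * (C0 * c k - 2 * p k) + ε * (n / d ^ 30)) →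
    (∀ j < 20, ∀ k < K, m j (k + 1) ≤ m j k
      + ε / w k * ((1 / 2) * m j k + C0 * w k ^ (j + 1) * (c k + p k)) + ε * (n / d ^ 30)) →
    (∀ k < K, Q (k + 1) ≤ Q k
      + ε / w k * ((1 / 8) * Q k + C0 * ((w k) ^ ((1:ℝ) / 8)) ^ 12 * B k) + ε * (n / d ^ 30)) →
    (∀ k < K, W (k + 1) ≤ W k + ε / w k * ((1 / 4) * W k
      + C0 * (Q k / ((w k) ^ ((1:ℝ) / 8) + (d * w k) ^ (-((1:ℝ) / 8)))
        + ((w k) ^ ((1:ℝ) / 8) + (d * w k) ^ (-((1:ℝ) / 8))) ^ 2 * w k * B k))
      + ε * (n / d ^ 30)) →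
    (∀ k < K, q (k + 1) ≤ q k + ε / w k * (q k
      + W k / ((w k) ^ ((1:ℝ) / 8) + (d * w k) ^ (-((1:ℝ) / 8)))
      + C0 * ((w k) ^ ((1:ℝ) / 8) + (d * w k) ^ (-((1:ℝ) / 8))) * w k * B k)
      + ε * (n / d ^ 30)) →
    c 0 ≤ n * Real.sqrt d → p 0 ≤ n * Real.sqrt d → q 0 ≤ 0 → W 0 ≤ 0 →
    (∀ j < 20, m j 0 ≤ 0) → Q 0 ≤ 8 * n / Real.sqrt d →
    ∀ k ≤ K, c k ≤ Cg * n / Real.sqrt (w k))
    (hH : Linear H) {d : ℕ} (hd : 512 < d) (hreg : ∀ f, deg H Finset.univ f = d) :
    leave H Finset.univ ≤ 16 * Cg * ((Fintype.card V : ℝ) / Real.sqrt d) := by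
  rcases Nat.eq_zero_or_pos (Fintype.card V) with hN | hN
  · have h := leaveFuel_le_card H (Finset.univ : Finset V).card (Finset.univ : Finset V)
    simp only [Finset.card_univ, hN, Nat.cast_zero] at h
    simp only [leave, Finset.card_univ, hN, Nat.cast_zero, zero_div, mul_zero]
    exact h
  have hd512 : (512:ℝ) < d := by exact_mod_cast hd
  have hd0 : (0:ℝ) < d := by linarith
  have hd1 : (1:ℝ) ≤ d := by linarith
  have hsd : 0 < Real.sqrt (d:ℝ) := Real.sqrt_pos.2 hd0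
  set n : ℝ := (Fintype.card V : ℝ) / Real.sqrt d with hn
  have hn0 : 0 < n := div_pos (by exact_mod_cast hN) hsd
  set η : ℝ := n / (d:ℝ) ^ 30 with hη
  have hη0 : 0 < η := by positivity
  set lo : ℝ := 1 / (d:ℝ) with hlo
  have hlo0 : 0 < lo := by positivity
  set W : ℝ := 1 / 256 with hW
  set B : ℝ := velBound H W * W with hB
  have hloW : lo < W := by
    rw [hlo, hW, div_lt_div_iff₀ hd0 (by norm_num)]; linarith
  -- admissible step sizes
  have hev : ∀ᶠ ε in 𝓝[>] (0:ℝ),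
      (∀ w ∈ Set.Icc lo W, ∀ σ : St V, (∀ f, |σ.2 f| ≤ B) →
        step H ε w (fun τ => (τ.1.card : ℝ)) σ
          ≤ (σ.1.card : ℝ) + ε * jump H (fun τ => (τ.1.card : ℝ)) σ + ε * η) ∧
      (∀ w ∈ Set.Icc lo W, ∀ σ : St V, (∀ f, |σ.2 f| ≤ B) →
        step H ε w (obsPow H (w + 2 * ε)) σ
          ≤ obsPow H w σ + ε * ((∑ f ∈ σ.1, 2 * ((48:ℕ):ℝ) * deg H σ.1 f * sdeg H w σ.1 f ^ (48-1))
              + jump H (obsPow H w) σ) + ε * η) ∧
      (∀ j : Fin 20, ∀ w ∈ Set.Icc lo W, ∀ σ : St V, (∀ f, |σ.2 f| ≤ B) →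
        step H ε w (obsMom H (w + 2 * ε) j) σ
          ≤ obsMom H w j σ
            + ε * ((∑ f ∈ σ.1, ((2*(j:ℕ)+2 : ℕ):ℝ) * mart H w σ.1 σ.2 f ^ (2*(j:ℕ)+1)
                * (w * loss H σ.1 f)) + jump H (obsMom H w j) σ) + ε * η) ∧
      (∀ w ∈ Set.Icc lo W, ∀ σ : St V, (∀ f, |σ.2 f| ≤ B) →
        step H ε w obsPhi σ
          ≤ obsPhi σ + ε * ((∑ f ∈ σ.1, psi (σ.2 f) * vel H w σ.1 f) + jump H obsPhi σ)
            + ε * η) ∧
      (∀ w ∈ Set.Icc lo W, ∀ σ : St V, (∀ f, |σ.2 f| ≤ B) →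
        step H ε w (obsNb H (w + 2 * ε)) σ
          ≤ obsNb H w σ + ε * ((∑ f ∈ σ.1, 2 * martNb H w σ.1 σ.2 f *
              (2 * ∑ S ∈ star H σ.1 f, partnerMart H w σ.1 σ.2 f S
                + w^2 * ∑ S ∈ star H σ.1 f, ∑ g ∈ S.erase f, loss H σ.1 g))
              + jump H (obsNb H w) σ) + ε * η) ∧
      (∀ w ∈ Set.Icc lo W, ∀ σ : St V, (∀ f, |σ.2 f| ≤ B) →
        step H ε w (obsQuad H (w + 2 * ε)) σ
          ≤ obsQuad H w σ + ε * (8 * w ^ 3 * quadCount H σ.1 + jump H (obsQuad H w) σ) + ε * η) ∧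
      ε * (H.card : ℝ) ≤ 1 ∧ ε * (d:ℝ) ^ 2 ≤ 1 / 100 := by
    have hsmall : ∀ (a b : ℝ), 0 < b → ∀ᶠ ε in 𝓝[>] (0:ℝ), ε * a ≤ b := fun a b hb =>
      eventually_nhdsWithin_of_eventually_nhds
        ((continuous_mul_const a).continuousAt.eventually (eventually_le_nhds (by simpa using hb)))
    exact (step_card hlo0.le hη0).and ((step_pow hlo0.le hη0).and
      ((eventually_all.2 fun j : Fin 20 => step_mom (j:ℕ) hlo0.le hη0).and
        ((step_phi hlo0.le hη0).and ((step_nb hlo0.le hη0).and ((step_quad hlo0.le hη0).and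
          ((hsmall _ _ one_pos).and (hsmall _ _ (by norm_num))))))))
  have htend : Tendsto (fun K : ℕ => (W - lo) / (2 * (K:ℝ))) atTop (𝓝[>] (0:ℝ)) := by
    refine tendsto_nhdsWithin_iff.2 ⟨?_, ?_⟩
    · have h := (tendsto_natCast_atTop_atTop (R := ℝ)).const_mul_atTop (show (0:ℝ) < 2 by norm_num)
      exact h.const_div_atTop _
    · filter_upwards [eventually_gt_atTop 0] with K hK
      have : (0:ℝ) < K := by exact_mod_cast hK
      exact Set.mem_Ioi.2 (div_pos (sub_pos.2 hloW) (mul_pos two_pos this))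
  obtain ⟨K, ⟨hs1, hs2, hs3, hs4, hs5, hs6, hεH, hεd⟩, hK⟩ :=
    ((htend.eventually hev).and (eventually_gt_atTop 0)).exists
  set ε : ℝ := (W - lo) / (2 * (K:ℝ)) with hεdef
  have hK' : (0:ℝ) < K := by exact_mod_cast hK
  have hε : 0 < ε := div_pos (by linarith) (by linarith)
  have hwK : clock d ε K = W := by
    have h2 : 2 * ε * (K:ℝ) = W - lo := by rw [hεdef]; field_simp
    unfold clock
    rw [h2, hlo]
    ring
  set w : ℕ → ℝ := clock d ε with hw
  have hwle : ∀ k ≤ K, w k ≤ W := fun k hk => by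
    rw [← hwK, hw]; unfold clock; gcongr
  have hwlo : ∀ k, lo ≤ w k := fun k => by
    rw [hw]; unfold clock
    exact le_add_of_nonneg_right (by positivity)
  have hwsucc : ∀ k, w (k + 1) = w k + 2 * ε := fun k => by
    rw [hw]; unfold clock; push_cast; ring
  have hvB : 0 ≤ velBound H W := by
    have hW0 : 0 ≤ W := by rw [hW]; norm_num
    unfold velBound; positivity
  have hreach : ∀ k ≤ K, ∀ σ : St V, Reach (velBound H W) ε k σ → ∀ f, |σ.2 f| ≤ B := by
    intro k hk σ hσ f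
    refine (hσ f).trans (mul_le_mul_of_nonneg_left ?_ hvB)
    have h1 : ε * (k:ℝ) ≤ ε * (K:ℝ) := mul_le_mul_of_nonneg_left (by exact_mod_cast hk) hε.le
    have h2 : 2 * (ε * (K:ℝ)) = W - lo := by rw [hεdef]; field_simp
    linarith
  set t : ℕ → ℝ := fun k => (w k) ^ ((1:ℝ) / 8) with ht
  set β : ℕ → ℝ := fun k => t k + ((d:ℝ) * w k) ^ (-((1:ℝ) / 8)) with hβ
  have hw0 : ∀ k, 0 < w k := fun k => lt_of_lt_of_le hlo0 (hwlo k)
  have ht0 : ∀ k, 0 < t k := fun k => Real.rpow_pos_of_pos (hw0 k) _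
  have ht8 : ∀ k, t k ^ 8 = w k := fun k => by
    simp only [ht]
    rw [← Real.rpow_natCast, ← Real.rpow_mul (hw0 k).le]
    norm_num
  have ht1 : ∀ k ≤ K, t k ≤ 1 := fun k hk =>
    Real.rpow_le_one (hw0 k).le ((hwle k hk).trans (by rw [hW]; norm_num)) (by norm_num)
  have hβt : ∀ k, t k ≤ β k := fun k =>
    le_add_of_nonneg_right (Real.rpow_nonneg (mul_nonneg hd0.le (hw0 k).le) _)
  have hβ2 : ∀ k ≤ K, β k ≤ 2 := fun k hk => by
    have h1 : ((d:ℝ) * w k) ^ (-((1:ℝ) / 8)) ≤ 1 := by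
      refine Real.rpow_le_one_of_one_le_of_nonpos ?_ (by norm_num)
      have := mul_le_mul_of_nonneg_left (hwlo k) hd0.le
      rwa [hlo, mul_one_div, div_self hd0.ne'] at this
    have := ht1 k hk
    simp only [hβ]; linarith
  have hW256 : W ≤ 1/256 := le_rfl
  have hclock : clock d ε K ≤ W := hwK.le
  set E := fun (k : ℕ) (F : St V → ℝ) => expect H d ε k F with hE
  have lin : ∀ (k : ℕ) (a b : ℝ) (F G L : St V → ℝ),
      E k (fun σ => F σ + ε / w k * (a * G σ + b * L σ) + ε * η)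
        = E k F + ε / w k * (a * E k G + b * E k L) + ε * η := fun k a b F G L => by
    simp only [hE, expect_add, expect_smul, expect_const]
  have lin3 : ∀ (k : ℕ) (a b c : ℝ) (F G L N : St V → ℝ),
      E k (fun σ => F σ + ε / w k * (a * G σ + b * L σ + c * N σ) + ε * η)
        = E k F + ε / w k * (a * E k G + b * E k L + c * E k N) + ε * η := fun k a b c F G L N => by
    simp only [hE, expect_add, expect_smul, expect_const]
  have main : ∀ k ≤ K, E k (fun σ => (σ.1.card : ℝ)) ≤ Cg * n / Real.sqrt (w k) := by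
    refine hgrow d n ε K hd1 hn0.le hε.le hεd w (fun k => rfl)
      (fun k hk => (hwle k hk).trans hW256)
      (fun k => E k (fun σ => (σ.1.card : ℝ))) (fun k => E k (obsPow H (w k)))
      (fun k => E k obsPhi) (fun k => E k (obsNb H (w k))) (fun k => E k (obsQuad H (w k)))
      (fun k => E k (obsBase H (w k))) (fun j k => E k (obsMom H (w k) j))
      ?_ ?_ ?_ ?_ ?_ ?_ ?_ ?_ ?_ ?_ ?_ ?_ ?_
    · -- the yardstick
      intro k hk
      refine (expect_mono hH.card3 hε.le hεH hclock k hk _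
        (fun σ => (σ.1.card : ℝ) + obsPow H (w k) σ
          + ∑ j ∈ range 20, (1 / w k ^ (j + 1)) * obsMom H (w k) j σ + (8 / w k) * obsPhi σ)
        (fun σ _ => (obsBase_le H (hw0 k) σ).trans (le_of_eq ?_))).trans (le_of_eq ?_)
      · rw [mul_div_right_comm (8:ℝ)]; simp only [one_div_mul_eq_div]
      · simp only [hE, expect_add, expect_sum, expect_smul]
        simp only [one_div_mul_eq_div]
        rw [mul_div_right_comm (8:ℝ)]
    · -- live points
      intro k hk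
      refine (expect_succ_le hH.card3 hε.le hεH hclock hk
        (G := fun σ => (σ.1.card : ℝ)
          + ε / w k * ((-1) * (σ.1.card : ℝ) + (C0 * t k ^ 4) * obsBase H (w k) σ) + ε * η)
        fun σ hσ => ?_).trans (le_of_eq ?_)
      · refine (hs1 (w k) ⟨hwlo k, hwle k hk.le⟩ σ (hreach k hk.le σ hσ)).trans ?_
        rw [add_assoc, add_assoc]
        refine add_le_add le_rfl (scaled_drift hε.le (hw0 k) ?_)
        rw [jump_card]
        refine (absorb_card (ht0 k) (ht1 k hk.le) (ht8 k) σ).trans ?_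
        have := mul_le_mul_of_nonneg_right h5
          (mul_nonneg (pow_nonneg (ht0 k).le 4)
            (obsBase_nonneg (H := H) (ht0 k) (ht1 k hk.le) (ht8 k) σ))
        linarith
      · refine (lin k (-1) (C0 * t k ^ 4) _ _ _).trans ?_
        rw [neg_one_mul]
    · -- powers
      intro k hk
      rw [show E (k + 1) (obsPow H (w (k + 1))) = E (k + 1) (obsPow H (w k + 2 * ε)) by rw [hwsucc]]
      refine (expect_succ_le hH.card3 hε.le hεH hclock hk
        (G := fun σ => obsPow H (w k) σ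
          + ε / w k * (C0 * (σ.1.card : ℝ) + (-2) * obsPow H (w k) σ) + ε * η)
        fun σ hσ => ?_).trans (le_of_eq ?_)
      · refine (hs2 (w k) ⟨hwlo k, hwle k hk.le⟩ σ (hreach k hk.le σ hσ)).trans ?_
        rw [add_assoc, add_assoc]
        refine add_le_add le_rfl (scaled_drift hε.le (hw0 k) ?_)
        refine (drift_sdeg (w k) (hw0 k).le 48 σ).trans ((absorb_pow (hw0 k).le σ).trans ?_)
        have := mul_le_mul_of_nonneg_right h98 (Nat.cast_nonneg (α := ℝ) σ.1.card)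
        linarith
      · refine (lin k C0 (-2) _ _ _).trans ?_
        ring
    · -- moments
      intro j hj k hk
      rw [show E (k + 1) (obsMom H (w (k + 1)) j) = E (k + 1) (obsMom H (w k + 2 * ε) j) by
        rw [hwsucc]]
      refine (expect_succ_le hH.card3 hε.le hεH hclock hk
        (G := fun σ => obsMom H (w k) j σ
          + ε / w k * ((1/2) * obsMom H (w k) j σ + (C0 * w k ^ (j + 1)) * (σ.1.card : ℝ)
            + (C0 * w k ^ (j + 1)) * obsPow H (w k) σ) + ε * η)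
        fun σ hσ => ?_).trans (le_of_eq ?_)
      · refine (hs3 ⟨j, hj⟩ (w k) ⟨hwlo k, hwle k hk.le⟩ σ (hreach k hk.le σ hσ)).trans ?_
        rw [add_assoc, add_assoc]
        refine add_le_add le_rfl (scaled_drift hε.le (hw0 k) ?_)
        refine (drift_mart hH (hw0 k).le j σ).trans ((absorb_mom hH (hw0 k)
          ((hwle k hk.le).trans (by rw [hW]; norm_num)) hj σ).trans ?_)
        have hp : 0 ≤ (σ.1.card : ℝ) + obsPow H (w k) σ := add_nonneg (Nat.cast_nonneg _)
          (Finset.sum_nonneg fun f _ => pow_nonneg (sdeg_nonneg (hw0 k).le _ _) _)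
        have := mul_le_mul_of_nonneg_right
          (mul_le_mul_of_nonneg_right (hCM j hj) (pow_nonneg (hw0 k).le (j + 1))) hp
        linarith
      · refine (lin3 k (1/2) (C0 * w k ^ (j + 1)) (C0 * w k ^ (j + 1)) _ _ _ _).trans ?_
        ring
    · -- quads
      intro k hk
      rw [show E (k + 1) (obsQuad H (w (k + 1))) = E (k + 1) (obsQuad H (w k + 2 * ε)) by rw [hwsucc]]
      refine (expect_succ_le hH.card3 hε.le hεH hclock hk
        (G := fun σ => obsQuad H (w k) σ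
          + ε / w k * ((1/8) * obsQuad H (w k) σ + (C0 * t k ^ 12) * obsBase H (w k) σ) + ε * η)
        fun σ hσ => ?_).trans (le_of_eq ?_)
      · refine (hs6 (w k) ⟨hwlo k, hwle k hk.le⟩ σ (hreach k hk.le σ hσ)).trans ?_
        rw [add_assoc, add_assoc]
        refine add_le_add le_rfl (scaled_drift hε.le (hw0 k) ?_)
        refine (drift_quad hH (hw0 k).le σ).trans ((absorb_quad hH (ht0 k) (ht1 k hk.le) (ht8 k)
          ((hwle k hk.le).trans hW256) σ).trans ?_)
        have := mul_le_mul_of_nonneg_right hCQ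
          (mul_nonneg (pow_nonneg (ht0 k).le 12)
            (obsBase_nonneg (H := H) (ht0 k) (ht1 k hk.le) (ht8 k) σ))
        linarith
      · exact lin k (1/8) (C0 * t k ^ 12) _ _ _
    · -- neighbourhood average
      intro k hk
      rw [show E (k + 1) (obsNb H (w (k + 1))) = E (k + 1) (obsNb H (w k + 2 * ε)) by rw [hwsucc]]
      refine (expect_succ_le hH.card3 hε.le hεH hclock hk
        (G := fun σ => obsNb H (w k) σ
          + ε / w k * ((1/4) * obsNb H (w k) σ + (C0 / β k) * obsQuad H (w k) σ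
            + (C0 * (β k ^ 2 * w k)) * obsBase H (w k) σ) + ε * η)
        fun σ hσ => ?_).trans (le_of_eq ?_)
      · refine (hs5 (w k) ⟨hwlo k, hwle k hk.le⟩ σ (hreach k hk.le σ hσ)).trans ?_
        rw [add_assoc, add_assoc]
        refine add_le_add le_rfl (scaled_drift hε.le (hw0 k) ?_)
        refine (drift_martNb hH (hw0 k).le σ).trans ((hnb H hH (t k) (w k) (β k) (ht0 k)
          (ht1 k hk.le) (ht8 k) ((hwle k hk.le).trans hW256) (hβt k) (hβ2 k hk.le) σ).trans ?_)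
        have hb0 := obsBase_nonneg (H := H) (ht0 k) (ht1 k hk.le) (ht8 k) σ
        have hq0 := obsQuad_nonneg (H := H) (hw0 k).le σ
        have hβ0 : 0 < β k := (ht0 k).trans_le (hβt k)
        have := mul_le_mul_of_nonneg_right hCW0
          (show 0 ≤ obsQuad H (w k) σ / β k + β k ^ 2 * w k * obsBase H (w k) σ by
            have := hw0 k; positivity)
        have e : C0 / β k * obsQuad H (w k) σ = C0 * (obsQuad H (w k) σ / β k) := by ring
        linarith
      · refine (lin3 k (1/4) (C0 / β k) (C0 * (β k ^ 2 * w k)) _ _ _ _).trans ?_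
        simp only [hβ, ht]
        ring
    · -- potential
      intro k hk
      refine (expect_succ_le hH.card3 hε.le hεH hclock hk
        (G := fun σ => obsPhi σ
          + ε / w k * (1 * obsPhi σ + (1 / β k) * obsNb H (w k) σ
            + (C0 * β k * w k) * obsBase H (w k) σ) + ε * η)
        fun σ hσ => ?_).trans (le_of_eq ?_)
      · refine (hs4 (w k) ⟨hwlo k, hwle k hk.le⟩ σ (hreach k hk.le σ hσ)).trans ?_
        rw [add_assoc, add_assoc]
        refine add_le_add le_rfl (scaled_drift hε.le (hw0 k) ?_)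
        refine (drift_phi hH (hw0 k).le σ).trans ((absorb_phi hH (ht0 k) (ht1 k hk.le) (ht8 k)
          (hβt k) σ).trans ?_)
        have hb0 := obsBase_nonneg (H := H) (ht0 k) (ht1 k hk.le) (ht8 k) σ
        have := mul_le_mul_of_nonneg_right hCP
          (mul_nonneg (mul_nonneg ((ht0 k).le.trans (hβt k)) (hw0 k).le) hb0)
        have e : 1 / β k * obsNb H (w k) σ = obsNb H (w k) σ / β k := by ring
        linarith
      · refine (lin3 k 1 (1 / β k) (C0 * β k * w k) _ _ _ _).trans ?_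
        simp only [hβ, ht]
        ring
    · -- initial values
      show ((Finset.univ : Finset V).card : ℝ) ≤ n * Real.sqrt d
      rw [hn, div_mul_cancel₀ _ hsd.ne', Finset.card_univ]
    · show obsPow H (w 0) (Finset.univ, fun _ => 0) ≤ n * Real.sqrt d
      have e : w 0 = lo := by simp [hw, clock, hlo]
      simp only [obsPow, sdeg, hreg, e, hlo, one_div, inv_mul_cancel₀ hd0.ne', one_pow,
        Finset.sum_const, Finset.card_univ, nsmul_eq_mul, mul_one]
      rw [hn, div_mul_cancel₀ _ hsd.ne']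
    · show obsPhi (Finset.univ, fun _ => (0:ℝ)) ≤ (0:ℝ)
      simp [obsPhi, phi_zero]
    · show obsNb H (w 0) (Finset.univ, fun _ => 0) ≤ 0
      have e : w 0 = lo := by simp [hw, clock, hlo]
      simp [obsNb, martNb, avgNb, mart, sdeg, hreg, e, hlo, inv_mul_cancel₀ hd0.ne']
    · intro j _
      show obsMom H (w 0) j (Finset.univ, fun _ => 0) ≤ 0
      have e : w 0 = lo := by simp [hw, clock, hlo]
      simp [obsMom, mart, sdeg, hreg, e, hlo, inv_mul_cancel₀ hd0.ne']
    · show obsQuad H (w 0) (Finset.univ, fun _ => 0) ≤ 8 * n / Real.sqrt d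
      have e : w 0 = lo := by simp [hw, clock, hlo]
      unfold obsQuad
      have h := mul_le_mul_of_nonneg_left
        (quadCount_le hH (Finset.univ : Finset V) (D := (d:ℝ)) fun f => (hreg f).le)
        (show 0 ≤ lo ^ 4 by positivity)
      rw [e]
      refine h.trans (le_of_eq ?_)
      rw [hn, Finset.card_univ, hlo, mul_div_assoc', div_div, Real.mul_self_sqrt hd0.le]
      field_simp
  have h1 := main K le_rfl
  have h2 : leave H Finset.univ ≤ E K (fun σ => (σ.1.card : ℝ)) := by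
    rw [← expect_leave (d := d) (ε := ε) hH.card3 K]
    exact expect_mono hH.card3 hε.le hεH hclock K le_rfl _ _
      fun σ _ => leaveFuel_le_card H σ.1.card σ.1
  refine (h2.trans h1).trans (le_of_eq ?_)
  have : Real.sqrt (w K) = 1 / 16 := by
    rw [hwK, hW, Real.sqrt_eq_iff_eq_sq (by norm_num) (by norm_num)]
    norm_num
  rw [this]
  ring

/-- The uniform upper bound, given the absorption of the neighbourhood average. -/
theorem uniform_upper_of {CW : ℝ} (hnb : NbAbsorbed.{u} CW) (hCW : 0 ≤ CW) :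
    ∃ C : ℝ, ∀ (V : Type u) [Fintype V] [DecidableEq V] (H : Finset (Finset V)) (d : ℕ),
      1 ≤ d → Linear H → (∀ f, deg H Finset.univ f = d) →
        leave H Finset.univ ≤ C * (Fintype.card V : ℝ) / Real.sqrt d := by
  have hCM0 : ∀ j, 0 ≤ CM j := fun j => by simp only [CM]; positivity
  have hCP0 : 0 ≤ CP := by unfold CP; linarith [one_le_KR]
  have hCQ0 : 0 ≤ CQ := by unfold CQ; linarith [one_le_KR]
  set C0 : ℝ := 5 + 98 * 98 ^ 48 + (∑ j ∈ range 20, CM j) + CP + CQ + CW with hC0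
  have hS : 0 ≤ ∑ j ∈ range 20, CM j := Finset.sum_nonneg fun j _ => hCM0 j
  have hb : (0:ℝ) ≤ 98 * 98 ^ 48 := by positivity
  have h98 : 98 * 98 ^ 48 ≤ C0 := by
    rw [hC0]; generalize (98:ℝ) * 98 ^ 48 = Y at *; linarith
  have h5 : 5 ≤ C0 := by rw [hC0]; generalize (98:ℝ) * 98 ^ 48 = Y at *; linarith
  have hCM : ∀ j < 20, CM j ≤ C0 := fun j hj => by
    have := Finset.single_le_sum (fun i _ => hCM0 i) (mem_range.2 hj)
    rw [hC0]; generalize (98:ℝ) * 98 ^ 48 = Y at *; linarith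
  have hCP : CP ≤ C0 := by rw [hC0]; generalize (98:ℝ) * 98 ^ 48 = Y at *; linarith
  have hCQ : CQ ≤ C0 := by rw [hC0]; generalize (98:ℝ) * 98 ^ 48 = Y at *; linarith
  have hCW0 : CW ≤ C0 := by rw [hC0]; generalize (98:ℝ) * 98 ^ 48 = Y at *; linarith
  obtain ⟨Cg, hg⟩ := grow C0 (by linarith)
  refine ⟨max (16 * Cg) 23, ?_⟩
  intro V _ _ H d hd hH hreg
  rw [mul_div_assoc]
  have hnn : 0 ≤ (Fintype.card V : ℝ) / Real.sqrt d := by positivity
  by_cases hlarge : 512 < d
  · exact (leave_le_of_large hnb hCW h5 h98 hCM hCP hCQ hCW0 hg hH hlarge hreg).trans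
      (mul_le_mul_of_nonneg_right (le_max_left _ _) hnn)
  · refine le_trans ?_ (mul_le_mul_of_nonneg_right (le_max_right _ _) hnn)
    refine (leaveFuel_le_card H _ _).trans ?_
    rw [Finset.card_univ, mul_div_assoc']
    have hsd : 0 < Real.sqrt (d:ℝ) := Real.sqrt_pos.2 (by exact_mod_cast hd)
    rw [le_div_iff₀ hsd, mul_comm 23]
    refine mul_le_mul_of_nonneg_left ?_ (Nat.cast_nonneg _)
    rw [Real.sqrt_le_left (by norm_num)]
    have : (d:ℝ) ≤ 512 := by exact_mod_cast Nat.le_of_not_lt hlarge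
    linarith

/-- **Uniform upper bound.** A `d`-regular linear hypergraph of triangles leaves `O(N / √d)`. -/
theorem uniform_upper :
    ∃ C : ℝ, ∀ (V : Type u) [Fintype V] [DecidableEq V] (H : Finset (Finset V)) (d : ℕ),
      1 ≤ d → Linear H → (∀ f, deg H Finset.univ f = d) →
        leave H Finset.univ ≤ C * (Fintype.card V : ℝ) / Real.sqrt d :=
  uniform_upper_of (fun {_V} _ _ hH _ _ _ ht ht1 htw hw hβ hβ2 σ =>
    absorb_nb hH ht ht1 htw hw hβ hβ2 σ) CW_nonneg

end Vale.Agent.P046
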